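/-
Row 210, layer RS (relaxed slopes for the frozen Cheeger energy): definitions.
Contract: `git show origin/helper928:docs/R210_master.md`, section RS.
Blueprint of the layer: `git show origin/helper875:docs/R210_RS.md`.
-/
import Claimed.Agent.R210.Defs
import Claimed.Agent.R210.HS.Defs

set_option autoImplicit false

open Claims.C0366 Claims.C0366.WeakHessian
open Set Filter MeasureTheory
open scoped ENNReal NNReal Topology Classical

namespace Claimed.Agent.R210.RS.Defs

noncomputable section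

variable {X : Type*} [MetricSpace X] [MeasurableSpace X] [BorelSpace X]

/-- The frozen Cheeger energy as a functional on the Hilbert space `L²(m)`. -/
def ChL2 (m : Measure X) : Lp ℝ 2 m → ℝ≥0∞ := fun u => cheegerEnergy m u

/-- Real valued local slope. -/
def rs_lip (f : X → ℝ) (x : X) : ℝ := (localSlope f x).toReal

/-- `(g, G)` is an admissible pair: `g` Lipschitz and in `L²`, `G ∈ L²` dominates the slope of `g`. -/
def rs_Adm (m : Measure X) (g G : X → ℝ) : Prop :=
  GloballyLipschitz g ∧ MemLp g 2 m ∧ MemLp G 2 m ∧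
    ∀ᵐ x ∂m, 0 ≤ G x ∧ localSlope g x ≤ ENNReal.ofReal (G x)

/-- `fs n → f` in `L²(m)` (plain functions). -/
def rs_L2Lim (m : Measure X) (fs : ℕ → X → ℝ) (f : X → ℝ) : Prop :=
  Tendsto (fun n => eLpNorm (fun x => fs n x - f x) 2 m) atTop (𝓝 0)

/-- `G` is a relaxed slope of `f`: `(f, G)` is a strong `L² × L²` limit of admissible pairs. -/
def rs_IsRelaxed (m : Measure X) (f G : X → ℝ) : Prop :=
  MemLp f 2 m ∧ MemLp G 2 m ∧
  ∃ gs Gs : ℕ → X → ℝ, (∀ n, rs_Adm m (gs n) (Gs n)) ∧ rs_L2Lim m gs f ∧ rs_L2Lim m Gs G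

/-- The admissible pairs, as a subset of `L² × L²`. -/
def rs_base (m : Measure X) : Set (Lp ℝ 2 m × Lp ℝ 2 m) :=
  {p | ∃ g : X → ℝ, GloballyLipschitz g ∧ (p.1 : X → ℝ) =ᵐ[m] g ∧
    ∀ᵐ x ∂m, 0 ≤ (p.2 : X → ℝ) x ∧ localSlope g x ≤ ENNReal.ofReal ((p.2 : X → ℝ) x)}

/-- The closed convex cone of all pairs (function, relaxed slope). -/
def rs_graph (m : Measure X) : Set (Lp ℝ 2 m × Lp ℝ 2 m) := closure (rs_base m)

/-- `G` is an element of minimal norm among the relaxed slopes of `u`. -/
def rs_IsMin (m : Measure X) (u G : Lp ℝ 2 m) : Prop :=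
  (u, G) ∈ rs_graph m ∧ ∀ G', (u, G') ∈ rs_graph m → ‖G‖ ≤ ‖G'‖

/-- The relaxed slope of minimal norm (`0` if there is no relaxed slope). -/
def rs_slopeLp (m : Measure X) (u : Lp ℝ 2 m) : Lp ℝ 2 m :=
  if h : ∃ G, rs_IsMin m u G then Classical.choose h else 0

/-- The minimal relaxed slope of a plain function: everywhere nonnegative, measurable,
depends only on the a.e. class of `f`; `0` if `f ∉ L²` or if `f` has no relaxed slope. -/
def rs_slope (m : Measure X) (f : X → ℝ) : X → ℝ :=
  if h : MemLp f 2 m then fun x => |(rs_slopeLp m (h.toLp f) : X → ℝ) x| else 0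

/-- The bilinear form of the Cheeger energy on plain functions, normalised by
`rs_E m f f = 2 * cheegerEnergy m f = ∫ rs_slope² `. -/
def rs_E (m : Measure X) (f g : X → ℝ) : ℝ :=
  ((cheegerEnergy m (fun x => f x + g x)).toReal -
    (cheegerEnergy m (fun x => f x - g x)).toReal) / 2

/-- Bounded support. -/
def rs_BddSupp (f : X → ℝ) : Prop := Bornology.IsBounded (Function.support f)

end

end Claimed.Agent.R210.RS.Defs
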