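/-
Row 210, layer RS: pointwise calculus of the frozen `localSlope`.
Blueprint: `git show origin/helper875:docs/R210_RS.md`, section S.
Everything follows from the epsilon characterisation `rs_ls_le_iff`.
-/
import Claimed.Agent.R210.RS.Defs

set_option autoImplicit false

open Claims.C0366 Claims.C0366.WeakHessian
open Claimed.Agent.R210.RS.Defs
open Set Filter MeasureTheory
open scoped ENNReal NNReal Topology

namespace Claimed.Agent.R210.RS.Slope

variable {X : Type*} [MetricSpace X]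

theorem rs_ls_le_iff (f : X → ℝ) (x : X) {a : ℝ} (ha : 0 ≤ a) :
    localSlope f x ≤ ENNReal.ofReal a ↔
      ∀ ε > 0, ∀ᶠ y in 𝓝 x, |f y - f x| ≤ (a + ε) * dist y x := by
  unfold localSlope
  constructor
  · intro h ε hε
    have hlt : limsup (fun y => ENNReal.ofReal (|f y - f x| / dist y x)) (𝓝[≠] x)
        < ENNReal.ofReal (a + ε) :=
      h.trans_lt ((ENNReal.ofReal_lt_ofReal_iff (by linarith)).2 (by linarith))
    have hev := eventually_lt_of_limsup_lt hlt
    rw [eventually_nhdsWithin_iff] at hev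
    filter_upwards [hev] with y hy
    by_cases hyx : y = x
    · subst hyx; simp
    · have h1 := hy hyx
      have hd : 0 < dist y x := dist_pos.2 hyx
      have h2 : |f y - f x| / dist y x < a + ε :=
        (ENNReal.ofReal_lt_ofReal_iff (by linarith)).1 h1
      exact ((div_lt_iff₀ hd).1 h2).le
  · intro h
    refine ENNReal.le_of_forall_pos_le_add ?_
    intro ε hε _
    have hε' : (0 : ℝ) < ε := by exact_mod_cast hε
    have hev := h ε hε'
    refine limsup_le_of_le (by isBoundedDefault) ?_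
    refine eventually_nhdsWithin_iff.2 (hev.mono fun y hy hyx => ?_)
    have hd : 0 < dist y x := dist_pos.2 hyx
    have h2 : |f y - f x| / dist y x ≤ a + ε := (div_le_iff₀ hd).2 hy
    calc ENNReal.ofReal (|f y - f x| / dist y x) ≤ ENNReal.ofReal (a + ε) :=
          ENNReal.ofReal_le_ofReal h2
      _ = ENNReal.ofReal a + ε := by
          rw [ENNReal.ofReal_add ha hε'.le, ENNReal.ofReal_coe_nnreal]

theorem rs_lip_nonneg (f : X → ℝ) (x : X) : 0 ≤ rs_lip f x := ENNReal.toReal_nonneg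

theorem rs_ofReal_lip' {f : X → ℝ} {x : X} (h : localSlope f x < ∞) :
    ENNReal.ofReal (rs_lip f x) = localSlope f x := ENNReal.ofReal_toReal h.ne

theorem rs_ls_eventually {f : X → ℝ} {x : X} (h : localSlope f x < ∞) :
    ∀ ε > 0, ∀ᶠ y in 𝓝 x, |f y - f x| ≤ (rs_lip f x + ε) * dist y x :=
  (rs_ls_le_iff f x (rs_lip_nonneg f x)).1 (rs_ofReal_lip' h).ge

theorem rs_ls_le_of_lipschitz {L : ℝ≥0} {f : X → ℝ} (h : LipschitzWith L f) (x : X) :
    localSlope f x ≤ (L : ℝ≥0∞) := by
  rw [← ENNReal.ofReal_coe_nnreal, rs_ls_le_iff f x L.coe_nonneg]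
  intro ε hε
  refine Eventually.of_forall fun y => ?_
  have h1 := h.dist_le_mul y x
  rw [Real.dist_eq] at h1
  have : (0 : ℝ) ≤ ε * dist y x := by positivity
  linarith

theorem rs_ls_lt_top {f : X → ℝ} (h : GloballyLipschitz f) (x : X) : localSlope f x < ∞ := by
  obtain ⟨L, hL⟩ := h
  exact (rs_ls_le_of_lipschitz hL x).trans_lt ENNReal.coe_lt_top

theorem rs_ofReal_lip {f : X → ℝ} (h : GloballyLipschitz f) (x : X) :
    ENNReal.ofReal (rs_lip f x) = localSlope f x := rs_ofReal_lip' (rs_ls_lt_top h x)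

theorem rs_lip_le {L : ℝ≥0} {f : X → ℝ} (h : LipschitzWith L f) (x : X) : rs_lip f x ≤ L := by
  have := ENNReal.toReal_mono ENNReal.coe_ne_top (rs_ls_le_of_lipschitz h x)
  simpa [rs_lip] using this

/-- finite slope implies continuity at the point. -/
theorem rs_ls_continuousAt {f : X → ℝ} {x : X} (h : localSlope f x < ∞) : ContinuousAt f x := by
  have h1 := rs_ls_eventually h 1 one_pos
  rw [ContinuousAt, tendsto_iff_dist_tendsto_zero]
  have t : Tendsto (fun y => (rs_lip f x + 1) * dist y x) (𝓝 x) (𝓝 ((rs_lip f x + 1) * 0)) :=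
    (tendsto_iff_dist_tendsto_zero.1 (tendsto_id (α := X) (x := 𝓝 x))).const_mul _
  rw [mul_zero] at t
  refine squeeze_zero' (Eventually.of_forall fun _ => dist_nonneg) ?_ t
  filter_upwards [h1] with y hy
  rwa [Real.dist_eq]

theorem rs_ls_measurable [MeasurableSpace X] [BorelSpace X] {f : X → ℝ} (hf : Continuous f) :
    Measurable (localSlope f) := by
  have key : ∀ x, localSlope f x = ⨅ n : ℕ, ⨆ y : X,
      ⨆ (_ : y ∈ Metric.ball x (1 / ((n : ℝ) + 1)) ∩ {x}ᶜ),
        ENNReal.ofReal (|f y - f x| / dist y x) := by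
    intro x
    unfold localSlope
    rw [(nhdsWithin_hasBasis Metric.nhds_basis_ball_inv_nat_succ ({x}ᶜ)).limsup_eq_iInf_iSup]
    simp
  have hfun : localSlope f = fun x => ⨅ n : ℕ, ⨆ y : X,
      ⨆ (_ : y ∈ Metric.ball x (1 / ((n : ℝ) + 1)) ∩ {x}ᶜ),
        ENNReal.ofReal (|f y - f x| / dist y x) := funext key
  rw [hfun]
  refine Measurable.iInf fun n => ?_
  refine LowerSemicontinuous.measurable ?_
  refine lowerSemicontinuous_iSup fun y => ?_
  intro x₀ c hc
  obtain ⟨hP, hc'⟩ := lt_iSup_iff.1 hc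
  have hne : y ≠ x₀ := hP.2
  have hd : dist y x₀ ≠ 0 := (dist_pos.2 hne).ne'
  have hcont : ContinuousAt (fun x => ENNReal.ofReal (|f y - f x| / dist y x)) x₀ := by
    refine ENNReal.continuous_ofReal.continuousAt.comp ?_
    refine ContinuousAt.div ?_ ?_ hd
    · exact (continuous_const.sub hf).abs.continuousAt
    · exact (continuous_const.dist continuous_id).continuousAt
  have e1 : ∀ᶠ x in 𝓝 x₀, c < ENNReal.ofReal (|f y - f x| / dist y x) :=
    hcont.eventually (lt_mem_nhds hc')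
  have e2 : ∀ᶠ x in 𝓝 x₀, dist y x < 1 / ((n : ℝ) + 1) :=
    ((continuous_const.dist continuous_id).continuousAt (x := x₀)).eventually
      (gt_mem_nhds (Metric.mem_ball.1 hP.1))
  have e3 : ∀ᶠ x in 𝓝 x₀, y ≠ x := by
    have : ∀ᶠ x in 𝓝 x₀, x ≠ y := isOpen_ne.mem_nhds hne.symm
    exact this.mono fun x hx => hx.symm
  filter_upwards [e1, e2, e3] with x h1 h2 h3
  exact lt_iSup_iff.2 ⟨⟨Metric.mem_ball.2 h2, h3⟩, h1⟩

theorem rs_lip_measurable [MeasurableSpace X] [BorelSpace X] {f : X → ℝ} (hf : Continuous f) :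
    Measurable (rs_lip f) := (rs_ls_measurable hf).ennreal_toReal


/-- (S3) -/
theorem rs_ls_add_le (f g : X → ℝ) (x : X) :
    localSlope (fun y => f y + g y) x ≤ localSlope f x + localSlope g x := by
  by_cases hf : localSlope f x < ∞
  swap
  · rw [not_lt, top_le_iff] at hf; simp [hf]
  by_cases hg : localSlope g x < ∞
  swap
  · rw [not_lt, top_le_iff] at hg; simp [hg]
  rw [← rs_ofReal_lip' hf, ← rs_ofReal_lip' hg,
    ← ENNReal.ofReal_add (rs_lip_nonneg f x) (rs_lip_nonneg g x),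
    rs_ls_le_iff _ x (add_nonneg (rs_lip_nonneg f x) (rs_lip_nonneg g x))]
  intro ε hε
  filter_upwards [rs_ls_eventually hf (ε / 2) (by positivity),
    rs_ls_eventually hg (ε / 2) (by positivity)] with y h1 h2
  have : |f y + g y - (f x + g x)| ≤ |f y - f x| + |g y - g x| := by
    have e : f y + g y - (f x + g x) = (f y - f x) + (g y - g x) := by ring
    rw [e]; exact abs_add_le _ _
  nlinarith

/-- (S4) -/
theorem rs_ls_const_mul (c : ℝ) (f : X → ℝ) (x : X) :
    localSlope (fun y => c * f y) x = ENNReal.ofReal |c| * localSlope f x := by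
  unfold localSlope
  rw [← ENNReal.limsup_const_mul_of_ne_top ENNReal.ofReal_ne_top]
  congr 1
  funext y
  rw [← ENNReal.ofReal_mul (abs_nonneg c), ← mul_sub, abs_mul, mul_div_assoc]

theorem rs_ls_neg (f : X → ℝ) (x : X) : localSlope (fun y => - f y) x = localSlope f x := by
  have := rs_ls_const_mul (-1) f x
  simpa using this

/-- (S5) -/
theorem rs_ls_comp_le_of_lipschitz {K : ℝ≥0} {ψ : ℝ → ℝ} (hψ : LipschitzWith K ψ) (f : X → ℝ)
    (x : X) : localSlope (fun y => ψ (f y)) x ≤ (K : ℝ≥0∞) * localSlope f x := by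
  unfold localSlope
  rw [← ENNReal.limsup_const_mul_of_ne_top ENNReal.coe_ne_top]
  refine limsup_le_limsup (Eventually.of_forall fun y => ?_)
  have h1 := hψ.dist_le_mul (f y) (f x)
  rw [Real.dist_eq, Real.dist_eq] at h1
  beta_reduce
  rw [← ENNReal.ofReal_coe_nnreal, ← ENNReal.ofReal_mul K.coe_nonneg, ← mul_div_assoc]
  exact ENNReal.ofReal_le_ofReal (div_le_div_of_nonneg_right h1 dist_nonneg)

/-- (S6) chain rule inequality. -/
theorem rs_ls_comp_le {ψ : ℝ → ℝ} {f : X → ℝ} {x : X} (hψ : DifferentiableAt ℝ ψ (f x))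
    (hfin : localSlope f x < ∞) :
    localSlope (fun y => ψ (f y)) x ≤ ENNReal.ofReal |deriv ψ (f x)| * localSlope f x := by
  set D := |deriv ψ (f x)| with hD
  set a := rs_lip f x with ha
  have hD0 : 0 ≤ D := abs_nonneg _
  have ha0 : 0 ≤ a := rs_lip_nonneg f x
  rw [← rs_ofReal_lip' hfin, ← ENNReal.ofReal_mul hD0, rs_ls_le_iff _ x (mul_nonneg hD0 ha0)]
  intro ε hε
  set η := min 1 (ε / (D + a + 1)) with hη
  have hη0 : 0 < η := by positivity
  have hη1 : η ≤ 1 := min_le_left _ _
  have hη2 : η * (D + a + 1) ≤ ε := by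
    have : η ≤ ε / (D + a + 1) := min_le_right _ _
    rwa [le_div_iff₀ (by positivity)] at this
  have hder : ∀ᶠ z in 𝓝 (f x), |ψ z - ψ (f x)| ≤ (D + η) * |z - f x| := by
    have h1 := hψ.hasDerivAt.isLittleO.def hη0
    filter_upwards [h1] with z hz
    rw [Real.norm_eq_abs, Real.norm_eq_abs, smul_eq_mul] at hz
    have h2 : |ψ z - ψ (f x)| ≤ |ψ z - ψ (f x) - (z - f x) * deriv ψ (f x)|
        + |(z - f x) * deriv ψ (f x)| := by
      have e : ψ z - ψ (f x) = (ψ z - ψ (f x) - (z - f x) * deriv ψ (f x))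
          + (z - f x) * deriv ψ (f x) := by ring
      conv_lhs => rw [e]
      exact abs_add_le _ _
    rw [abs_mul (z - f x)] at h2
    nlinarith [abs_nonneg (z - f x)]
  have hcomp := (rs_ls_continuousAt hfin).eventually hder
  filter_upwards [hcomp, rs_ls_eventually hfin η hη0] with y h1 h2
  have hd : 0 ≤ dist y x := dist_nonneg
  calc |ψ (f y) - ψ (f x)| ≤ (D + η) * |f y - f x| := h1
    _ ≤ (D + η) * ((a + η) * dist y x) := by gcongr
    _ = ((D + η) * (a + η)) * dist y x := by ring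
    _ ≤ (D * a + ε) * dist y x := by
        refine mul_le_mul_of_nonneg_right ?_ hd
        nlinarith

/-- (S7) Leibniz inequality:
`f y g y - f x g x = f y (g y - g x) + g x (f y - f x)`, and `f` is continuous at `x`. -/
theorem rs_ls_mul_le {f g : X → ℝ} {x : X} (hf : localSlope f x < ∞) (hg : localSlope g x < ∞) :
    localSlope (fun y => f y * g y) x ≤
      ENNReal.ofReal |f x| * localSlope g x + ENNReal.ofReal |g x| * localSlope f x := by
  set a := rs_lip f x with ha
  set b := rs_lip g x with hb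
  have ha0 : 0 ≤ a := rs_lip_nonneg f x
  have hb0 : 0 ≤ b := rs_lip_nonneg g x
  set F := |f x| with hF
  set Gx := |g x| with hG
  have hF0 : 0 ≤ F := abs_nonneg _
  have hG0 : 0 ≤ Gx := abs_nonneg _
  rw [← rs_ofReal_lip' hf, ← rs_ofReal_lip' hg, ← ENNReal.ofReal_mul hF0,
    ← ENNReal.ofReal_mul hG0, ← ENNReal.ofReal_add (by positivity) (by positivity),
    rs_ls_le_iff _ x (by positivity)]
  intro ε hε
  set η := min 1 (ε / (F + b + Gx + 1)) with hη
  have hη0 : 0 < η := by positivity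
  have hη1 : η ≤ 1 := min_le_left _ _
  have hη2 : η * (F + b + Gx + 1) ≤ ε := by
    have : η ≤ ε / (F + b + Gx + 1) := min_le_right _ _
    rwa [le_div_iff₀ (by positivity)] at this
  have hcont : ∀ᶠ y in 𝓝 x, |f y| ≤ F + η := by
    have h1 : Tendsto (fun y => |f y|) (𝓝 x) (𝓝 |f x|) := (rs_ls_continuousAt hf).abs
    exact (h1.eventually (gt_mem_nhds (by linarith : |f x| < F + η))).mono fun y hy => hy.le
  filter_upwards [hcont, rs_ls_eventually hf η hη0, rs_ls_eventually hg η hη0] with y h0 h1 h2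
  have hd : 0 ≤ dist y x := dist_nonneg
  have e : f y * g y - f x * g x = f y * (g y - g x) + g x * (f y - f x) := by ring
  calc |f y * g y - f x * g x| ≤ |f y| * |g y - g x| + Gx * |f y - f x| := by
        rw [e]; refine (abs_add_le _ _).trans ?_; rw [abs_mul, abs_mul]
    _ ≤ (F + η) * ((b + η) * dist y x) + Gx * ((a + η) * dist y x) := by gcongr
    _ = ((F + η) * (b + η) + Gx * (a + η)) * dist y x := by ring
    _ ≤ (F * b + Gx * a + ε) * dist y x := by
        refine mul_le_mul_of_nonneg_right ?_ hd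
        nlinarith

/-- (S8) convexity inequality with a cut-off:
`h y - h x = χ y (f y - f x) + (1 - χ y) (g y - g x) + (χ y - χ x) (f x - g x)`. -/
theorem rs_ls_cutoff_le {χ f g : X → ℝ} {x : X} (h0 : ∀ y, 0 ≤ χ y) (h1 : ∀ y, χ y ≤ 1)
    (hχ : localSlope χ x < ∞) (hf : localSlope f x < ∞) (hg : localSlope g x < ∞) :
    localSlope (fun y => χ y * f y + (1 - χ y) * g y) x ≤
      ENNReal.ofReal (χ x) * localSlope f x + ENNReal.ofReal (1 - χ x) * localSlope g x +
        ENNReal.ofReal |f x - g x| * localSlope χ x := by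
  set a := rs_lip f x with ha
  set b := rs_lip g x with hb
  set c := rs_lip χ x with hc
  have ha0 : 0 ≤ a := rs_lip_nonneg f x
  have hb0 : 0 ≤ b := rs_lip_nonneg g x
  have hc0 : 0 ≤ c := rs_lip_nonneg χ x
  set Δ := |f x - g x| with hΔ
  have hΔ0 : 0 ≤ Δ := abs_nonneg _
  have hx0 : 0 ≤ χ x := h0 x
  have hx1 : 0 ≤ 1 - χ x := by linarith [h1 x]
  rw [← rs_ofReal_lip' hf, ← rs_ofReal_lip' hg, ← rs_ofReal_lip' hχ, ← ENNReal.ofReal_mul hx0,
    ← ENNReal.ofReal_mul hx1, ← ENNReal.ofReal_mul hΔ0,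
    ← ENNReal.ofReal_add (by positivity) (by positivity),
    ← ENNReal.ofReal_add (by positivity) (by positivity), rs_ls_le_iff _ x (by positivity)]
  intro ε hε
  set η := min 1 (ε / (a + b + Δ + 3)) with hη
  have hη0 : 0 < η := by positivity
  have hη1 : η ≤ 1 := min_le_left _ _
  have hη2 : η * (a + b + Δ + 3) ≤ ε := by
    have : η ≤ ε / (a + b + Δ + 3) := min_le_right _ _
    rwa [le_div_iff₀ (by positivity)] at this
  have hcont : ∀ᶠ y in 𝓝 x, |χ y - χ x| ≤ η := by
    have h2 := (Metric.tendsto_nhds.1 (rs_ls_continuousAt hχ)) η hη0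
    exact h2.mono fun y hy => by rw [Real.dist_eq] at hy; exact hy.le
  filter_upwards [hcont, rs_ls_eventually hf η hη0, rs_ls_eventually hg η hη0,
    rs_ls_eventually hχ η hη0] with y k0 k1 k2 k3
  have hd : 0 ≤ dist y x := dist_nonneg
  have hy0 : 0 ≤ χ y := h0 y
  have hy1 : 0 ≤ 1 - χ y := by linarith [h1 y]
  have k0' := abs_le.1 k0
  have e : χ y * f y + (1 - χ y) * g y - (χ x * f x + (1 - χ x) * g x)
      = χ y * (f y - f x) + (1 - χ y) * (g y - g x) + (χ y - χ x) * (f x - g x) := by ring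
  calc |χ y * f y + (1 - χ y) * g y - (χ x * f x + (1 - χ x) * g x)|
      ≤ χ y * |f y - f x| + (1 - χ y) * |g y - g x| + |χ y - χ x| * Δ := by
        rw [e]
        refine (abs_add_le _ _).trans ?_
        refine add_le_add ((abs_add_le _ _).trans ?_) (abs_mul _ _).le
        rw [abs_mul, abs_mul, abs_of_nonneg hy0, abs_of_nonneg hy1]
    _ ≤ (χ x + η) * ((a + η) * dist y x) + (1 - χ x + η) * ((b + η) * dist y x)
          + ((c + η) * dist y x) * Δ := by
        have q1 : χ y ≤ χ x + η := by linarith [k0'.2]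
        have q2 : 1 - χ y ≤ 1 - χ x + η := by linarith [k0'.1]
        gcongr
    _ = ((χ x + η) * (a + η) + (1 - χ x + η) * (b + η) + (c + η) * Δ) * dist y x := by ring
    _ ≤ (χ x * a + (1 - χ x) * b + Δ * c + ε) * dist y x := by
        refine mul_le_mul_of_nonneg_right ?_ hd
        nlinarith [h1 x]

/-- (S9) -/
theorem rs_ls_congr {f g : X → ℝ} {x : X} (h : f =ᶠ[𝓝 x] g) : localSlope f x = localSlope g x := by
  unfold localSlope
  refine limsup_congr ?_
  have hx : f x = g x := h.self_of_nhds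
  have h' : ∀ᶠ y in 𝓝[≠] x, f y = g y := h.filter_mono nhdsWithin_le_nhds
  filter_upwards [h'] with y hy
  rw [hy, hx]

theorem rs_ls_eq_zero {f : X → ℝ} {x : X} (h : ∀ᶠ y in 𝓝 x, f y = f x) : localSlope f x = 0 := by
  have h1 : localSlope f x ≤ ENNReal.ofReal 0 := by
    rw [rs_ls_le_iff f x le_rfl]
    intro ε hε
    filter_upwards [h] with y hy
    rw [hy, sub_self, abs_zero]
    positivity
  simpa using h1

end Claimed.Agent.R210.RS.Slope
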