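/-
Row 210, layer RS: cut-off functions, products of Lipschitz functions, tails, the cut-off lemma for
admissible pairs.   Blueprint: `git show origin/helper875:docs/R210_RS.md`, section C.
-/
import Claimed.Agent.R210.RS.Slope

set_option autoImplicit false

open Claims.C0366 Claims.C0366.WeakHessian
open Claimed.Agent.R210.RS.Defs Claimed.Agent.R210.RS.Slope
open Set Filter MeasureTheory
open scoped ENNReal NNReal Topology

namespace Claimed.Agent.R210.RS.Cut

noncomputable section

variable {X : Type*} [MetricSpace X]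

/-- The standard cut-off: `1` on `closedBall o R`, `0` outside `ball o (R+1)`, `1`-Lipschitz. -/
def rs_cut (o : X) (R : ℝ) (x : X) : ℝ := max 0 (min 1 (R + 1 - dist x o))

theorem rs_cut_lipschitz (o : X) (R : ℝ) : LipschitzWith 1 (rs_cut o R) := by
  have h1 : LipschitzWith 1 (fun x : X => R + 1 - dist x o) := by
    have h0 : LipschitzWith 1 (fun x : X => dist x o) := LipschitzWith.dist_left o
    refine LipschitzWith.of_dist_le_mul fun x y => ?_
    have := h0.dist_le_mul x y
    rw [Real.dist_eq] at this ⊢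
    have e : R + 1 - dist x o - (R + 1 - dist y o) = -(dist x o - dist y o) := by ring
    rw [e, abs_neg]
    exact this
  exact (h1.const_min 1).const_max 0

theorem rs_cut_nonneg (o : X) (R : ℝ) (x : X) : 0 ≤ rs_cut o R x := by
  exact le_max_left _ _

theorem rs_cut_le_one (o : X) (R : ℝ) (x : X) : rs_cut o R x ≤ 1 := by
  exact max_le zero_le_one (min_le_left _ _)

theorem rs_cut_eq_one {o : X} {R : ℝ} {x : X} (h : dist x o ≤ R) : rs_cut o R x = 1 := by
  unfold rs_cut
  rw [min_eq_left (by linarith), max_eq_right zero_le_one]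

theorem rs_cut_eq_zero {o : X} {R : ℝ} {x : X} (h : R + 1 ≤ dist x o) : rs_cut o R x = 0 := by
  unfold rs_cut
  exact max_eq_left ((min_le_right _ _).trans (by linarith))

theorem rs_cut_bddSupp (o : X) (R : ℝ) : rs_BddSupp (rs_cut o R) := by
  refine (Metric.isBounded_closedBall (x := o) (r := R + 1)).subset fun x hx => ?_
  rw [Metric.mem_closedBall]
  by_contra hc
  exact hx (rs_cut_eq_zero (not_le.1 hc).le)

/-- slope of the cut-off: `≤ 1` everywhere, `= 0` in the ball where the cut-off is constant. -/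
theorem rs_cut_ls_le (o : X) (R : ℝ) (x : X) :
    localSlope (rs_cut o R) x ≤ ENNReal.ofReal ((Metric.ball o R)ᶜ.indicator (fun _ => (1 : ℝ)) x) := by
  by_cases hx : x ∈ Metric.ball o R
  · have h0 : localSlope (rs_cut o R) x = 0 := by
      refine rs_ls_eq_zero ?_
      filter_upwards [Metric.isOpen_ball.mem_nhds hx] with y hy
      rw [rs_cut_eq_one (Metric.mem_ball.1 hy).le, rs_cut_eq_one (Metric.mem_ball.1 hx).le]
    rw [h0]
    exact bot_le
  · rw [indicator_of_mem (show x ∈ (Metric.ball o R)ᶜ from hx)]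
    have := rs_ls_le_of_lipschitz (rs_cut_lipschitz o R) x
    simpa using this

/-- A Lipschitz function with bounded support is bounded. -/
theorem rs_bdd_of_bddSupp {g : X → ℝ} (hg : GloballyLipschitz g) (hs : rs_BddSupp g) :
    BoundedFunction g := by
  obtain ⟨L, hL⟩ := hg
  rcases (Function.support g).eq_empty_or_nonempty with he | ⟨o, ho⟩
  · refine ⟨0, fun x => ?_⟩
    have : x ∉ Function.support g := by rw [he]; exact notMem_empty x
    rw [Function.notMem_support.mp this, abs_zero]
  · obtain ⟨C, hC⟩ := hs.subset_closedBall o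
    refine ⟨|g o| + L * |C|, fun x => ?_⟩
    have hnn : 0 ≤ |g o| + L * |C| := by positivity
    by_cases hx : x ∈ Function.support g
    · have h1 : dist x o ≤ C := hC hx
      have h2 : dist (g x) (g o) ≤ L * dist x o := hL.dist_le_mul x o
      have h3 : |g x - g o| ≤ L * |C| := by
        rw [← Real.dist_eq]
        refine h2.trans (mul_le_mul_of_nonneg_left (h1.trans (le_abs_self C)) L.coe_nonneg)
      have h4 : |g x| ≤ |g o| + |g x - g o| := by
        have := abs_add_le (g o) (g x - g o)
        simpa using this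
      linarith
    · rw [Function.notMem_support.mp hx, abs_zero]
      exact hnn

/-- Product of two bounded Lipschitz functions. -/
theorem rs_lip_mul {f g : X → ℝ} (hf : GloballyLipschitz f) (hfb : BoundedFunction f)
    (hg : GloballyLipschitz g) (hgb : BoundedFunction g) :
    GloballyLipschitz (fun x => f x * g x) := by
  obtain ⟨Lf, hLf⟩ := hf
  obtain ⟨Lg, hLg⟩ := hg
  obtain ⟨Bf, hBf⟩ := hfb
  obtain ⟨Bg, hBg⟩ := hgb
  refine ⟨Real.toNNReal (|Bg| * Lf + |Bf| * Lg), LipschitzWith.of_dist_le_mul fun x y => ?_⟩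
  have hnn : 0 ≤ |Bg| * Lf + |Bf| * Lg := by positivity
  rw [Real.coe_toNNReal _ hnn, Real.dist_eq]
  have h1 : |f x - f y| ≤ Lf * dist x y := by rw [← Real.dist_eq]; exact hLf.dist_le_mul x y
  have h2 : |g x - g y| ≤ Lg * dist x y := by rw [← Real.dist_eq]; exact hLg.dist_le_mul x y
  have h3 : f x * g x - f y * g y = g x * (f x - f y) + f y * (g x - g y) := by ring
  rw [h3]
  calc |g x * (f x - f y) + f y * (g x - g y)|
      ≤ |g x * (f x - f y)| + |f y * (g x - g y)| := abs_add_le _ _
    _ = |g x| * |f x - f y| + |f y| * |g x - g y| := by rw [abs_mul, abs_mul]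
    _ ≤ |Bg| * (Lf * dist x y) + |Bf| * (Lg * dist x y) := by
        apply add_le_add
        · exact mul_le_mul ((hBg x).trans (le_abs_self _)) h1 (abs_nonneg _) (abs_nonneg _)
        · exact mul_le_mul ((hBf y).trans (le_abs_self _)) h2 (abs_nonneg _) (abs_nonneg _)
    _ = (|Bg| * Lf + |Bf| * Lg) * dist x y := by ring

/-- Product of a Lipschitz function with a bounded Lipschitz function of bounded support.
(If `x, y ∉ supp χ` both sides vanish; if `x ∈ supp χ`:
`|χ x g x - χ y g y| ≤ |g x| |χ x - χ y| + |χ y| |g x - g y|` and `g` is bounded on the bounded set `supp χ`.) -/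
theorem rs_lip_mul_bddSupp {χ g : X → ℝ} (hχ : GloballyLipschitz χ) (hs : rs_BddSupp χ)
    (hg : GloballyLipschitz g) : GloballyLipschitz (fun x => χ x * g x) := by
  obtain ⟨Bχ, hBχ⟩ := rs_bdd_of_bddSupp hχ hs
  obtain ⟨Lχ, hLχ⟩ := hχ
  obtain ⟨Lg, hLg⟩ := hg
  -- `g` is bounded on the support of `χ`
  have hgb : ∃ Bg : ℝ, ∀ x ∈ Function.support χ, |g x| ≤ Bg := by
    rcases (Function.support χ).eq_empty_or_nonempty with he | ⟨o, ho⟩
    · exact ⟨0, fun x hx => by rw [he] at hx; exact absurd hx (notMem_empty x)⟩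
    · obtain ⟨C, hC⟩ := hs.subset_closedBall o
      refine ⟨|g o| + Lg * |C|, fun x hx => ?_⟩
      have h1 : dist x o ≤ C := hC hx
      have h2 : dist (g x) (g o) ≤ Lg * dist x o := hLg.dist_le_mul x o
      have h3 : |g x - g o| ≤ Lg * |C| := by
        rw [← Real.dist_eq]
        refine h2.trans (mul_le_mul_of_nonneg_left (h1.trans (le_abs_self C)) Lg.coe_nonneg)
      have h4 : |g x| ≤ |g o| + |g x - g o| := by
        have := abs_add_le (g o) (g x - g o)
        simpa using this
      linarith
  obtain ⟨Bg, hBg⟩ := hgb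
  have hnn : 0 ≤ |Bg| * Lχ + |Bχ| * Lg := by positivity
  -- the estimate when `x` lies in the support
  have key : ∀ x y, x ∈ Function.support χ →
      |χ x * g x - χ y * g y| ≤ (|Bg| * Lχ + |Bχ| * Lg) * dist x y := by
    intro x y hx
    have h1 : |χ x - χ y| ≤ Lχ * dist x y := by rw [← Real.dist_eq]; exact hLχ.dist_le_mul x y
    have h2 : |g x - g y| ≤ Lg * dist x y := by rw [← Real.dist_eq]; exact hLg.dist_le_mul x y
    have h3 : χ x * g x - χ y * g y = g x * (χ x - χ y) + χ y * (g x - g y) := by ring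
    rw [h3]
    calc |g x * (χ x - χ y) + χ y * (g x - g y)|
        ≤ |g x * (χ x - χ y)| + |χ y * (g x - g y)| := abs_add_le _ _
      _ = |g x| * |χ x - χ y| + |χ y| * |g x - g y| := by rw [abs_mul, abs_mul]
      _ ≤ |Bg| * (Lχ * dist x y) + |Bχ| * (Lg * dist x y) := by
          apply add_le_add
          · exact mul_le_mul ((hBg x hx).trans (le_abs_self _)) h1 (abs_nonneg _) (abs_nonneg _)
          · exact mul_le_mul ((hBχ y).trans (le_abs_self _)) h2 (abs_nonneg _) (abs_nonneg _)
      _ = (|Bg| * Lχ + |Bχ| * Lg) * dist x y := by ring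
  refine ⟨Real.toNNReal (|Bg| * Lχ + |Bχ| * Lg), LipschitzWith.of_dist_le_mul fun x y => ?_⟩
  rw [Real.coe_toNNReal _ hnn, Real.dist_eq]
  by_cases hx : x ∈ Function.support χ
  · exact key x y hx
  · by_cases hy : y ∈ Function.support χ
    · have := key y x hy
      rw [abs_sub_comm, dist_comm]
      exact this
    · rw [Function.notMem_support.mp hx, Function.notMem_support.mp hy]
      simp only [zero_mul, sub_self, abs_zero]
      exact mul_nonneg hnn dist_nonneg

variable [MeasurableSpace X] [BorelSpace X]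

/-- a bounded measurable function vanishing outside a measurable set of finite measure is in `L²`. -/
theorem rs_memLp_of_bdd_aux {m : Measure X} {f : X → ℝ} (hf : AEStronglyMeasurable f m) {B : ℝ}
    (hB : ∀ x, |f x| ≤ B) {S : Set X} (hS : MeasurableSet S) (hmS : m S < ∞) (h0 : ∀ x, x ∉ S → f x = 0) :
    MemLp f 2 m := by
  have h1 : MemLp (S.indicator fun _ => B) 2 m := memLp_indicator_const 2 hS B (Or.inr hmS.ne)
  refine h1.mono' hf (Eventually.of_forall fun x => ?_)
  by_cases hx : x ∈ S
  · rw [indicator_of_mem hx, Real.norm_eq_abs]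
    exact hB x
  · rw [indicator_of_notMem hx, h0 x hx, norm_zero]

/-- Lipschitz functions with bounded support are in `L²` when `m` is finite on bounded sets. -/
theorem rs_memLp_of_bddSupp {m : Measure X} (hm : FiniteOnBoundedSets m) {g : X → ℝ}
    (hg : GloballyLipschitz g) (hs : rs_BddSupp g) : MemLp g 2 m := by
  obtain ⟨B, hB⟩ := rs_bdd_of_bddSupp hg hs
  obtain ⟨L, hL⟩ := hg
  have hc : Continuous g := hL.continuous
  refine rs_memLp_of_bdd_aux hc.aestronglyMeasurable hB
    (S := closure (Function.support g)) isClosed_closure.measurableSet (hm _ hs.closure) fun x hx => ?_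
  by_contra hne
  exact hx (subset_closure hne)

/-- ... and so are their slopes (`rs_lip g ≤ L`, and `rs_lip g = 0` outside the closure of the support). -/
theorem rs_memLp_lip_of_bddSupp {m : Measure X} (hm : FiniteOnBoundedSets m) {g : X → ℝ}
    (hg : GloballyLipschitz g) (hs : rs_BddSupp g) : MemLp (rs_lip g) 2 m := by
  obtain ⟨L, hL⟩ := hg
  have hc : Continuous g := hL.continuous
  refine rs_memLp_of_bdd_aux (B := L) (rs_lip_measurable hc).aestronglyMeasurable
    (fun x => by rw [abs_of_nonneg (rs_lip_nonneg g x)]; exact rs_lip_le hL x)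
    (S := closure (Function.support g)) isClosed_closure.measurableSet (hm _ hs.closure) fun x hx => ?_
  have hopen : (closure (Function.support g))ᶜ ∈ 𝓝 x := isClosed_closure.isOpen_compl.mem_nhds hx
  have hz : ∀ y, y ∈ (closure (Function.support g))ᶜ → g y = 0 := by
    intro y hy
    by_contra hne
    exact hy (subset_closure hne)
  have h0 : localSlope g x = 0 := by
    refine rs_ls_eq_zero ?_
    filter_upwards [hopen] with y hy
    rw [hz y hy, hz x hx]
  unfold rs_lip
  rw [h0]
  rfl

/-- Tails of an `L²` function (dominated convergence). -/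
theorem rs_tail {m : Measure X} {g : X → ℝ} (hg : MemLp g 2 m) (o : X) :
    Tendsto (fun n : ℕ => eLpNorm ((Metric.ball o (n : ℝ))ᶜ.indicator g) 2 m) atTop (𝓝 0) := by
  have h2 : (2 : ℝ≥0∞) ≠ 0 := by norm_num
  have h2' : (2 : ℝ≥0∞) ≠ ∞ := by norm_num
  have hfin : ∫⁻ a, ‖g a‖ₑ ^ (2 : ℝ≥0∞).toReal ∂m ≠ ∞ :=
    (lintegral_rpow_enorm_lt_top_of_eLpNorm_lt_top h2 h2' hg.eLpNorm_lt_top).ne
  have hlim : Tendsto (fun n : ℕ => ∫⁻ a, ‖(Metric.ball o (n : ℝ))ᶜ.indicator g a‖ₑ ^ (2 : ℝ≥0∞).toReal ∂m)
      atTop (𝓝 (∫⁻ _, (0 : ℝ≥0∞) ∂m)) := by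
    refine tendsto_lintegral_of_dominated_convergence' (fun a => ‖g a‖ₑ ^ (2 : ℝ≥0∞).toReal) ?_ ?_ hfin ?_
    · intro n
      exact ((hg.aestronglyMeasurable.indicator
        Metric.isOpen_ball.measurableSet.compl).enorm).pow_const _
    · intro n
      refine Eventually.of_forall fun a => ?_
      refine ENNReal.rpow_le_rpow ?_ (by norm_num)
      by_cases ha : a ∈ (Metric.ball o (n : ℝ))ᶜ
      · rw [indicator_of_mem ha]
      · rw [indicator_of_notMem ha]
        simp
    · refine Eventually.of_forall fun a => ?_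
      refine tendsto_const_nhds.congr' ?_
      obtain ⟨N, hN⟩ := exists_nat_gt (dist a o)
      filter_upwards [eventually_ge_atTop N] with n hn
      have hmem : a ∉ (Metric.ball o (n : ℝ))ᶜ := by
        intro hc
        apply hc
        rw [Metric.mem_ball]
        exact hN.trans_le (by exact_mod_cast hn)
      rw [indicator_of_notMem hmem]
      simp
  rw [lintegral_zero] at hlim
  have h3 := (ENNReal.continuous_rpow_const (y := 1 / (2 : ℝ≥0∞).toReal)).tendsto 0 |>.comp hlim
  have h4 : (0 : ℝ≥0∞) ^ (1 / (2 : ℝ≥0∞).toReal) = 0 := by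
    rw [ENNReal.zero_rpow_of_pos]
    norm_num
  rw [h4] at h3
  refine h3.congr fun n => ?_
  rw [eLpNorm_eq_lintegral_rpow_enorm_toReal h2 h2']
  rfl

/-- (C) CUT-OFF LEMMA.  `g' = rs_cut o R * g`, `G' = G + (|g| + |G|) 1_{(ball o R)ᶜ}` (the `|G|` because `G` may be negative), `R = n` large.
`localSlope g' ≤ χ localSlope g + |g| localSlope χ` (`rs_ls_mul_le`, `rs_cut_ls_le`), `‖g' - g‖, ‖G' - G‖ ≤`
tail of `g` (`rs_tail`).  (`X` empty: trivial.) -/
theorem rs_adm_cutoff {m : Measure X} {g G : X → ℝ} (h : rs_Adm m g G) {ε : ℝ≥0∞} (hε : ε ≠ 0) :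
    ∃ g' G' : X → ℝ, rs_Adm m g' G' ∧ rs_BddSupp g' ∧ (∀ x, |g' x| ≤ |g x|) ∧
      eLpNorm (fun x => g' x - g x) 2 m ≤ ε ∧ eLpNorm (fun x => G' x - G x) 2 m ≤ ε := by
  obtain ⟨hgL, hg2, hG2, hdom⟩ := h
  rcases isEmpty_or_nonempty X with hX | ⟨⟨o⟩⟩
  · refine ⟨g, G, ⟨hgL, hg2, hG2, hdom⟩, ?_, fun x => le_rfl, ?_, ?_⟩
    · unfold rs_BddSupp
      rw [Set.eq_empty_of_isEmpty (Function.support g)]
      exact Bornology.isBounded_empty
    · simp
    · simp
  have hε2 : 0 < ε / 2 := ENNReal.half_pos hε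
  have e1 := (tendsto_order.1 (rs_tail hg2 o)).2 _ hε2
  have e2 := (tendsto_order.1 (rs_tail hG2 o)).2 _ hε2
  obtain ⟨n, hn1, hn2⟩ := (e1.and e2).exists
  set S : Set X := (Metric.ball o (n : ℝ))ᶜ with hS
  have hSm : MeasurableSet S := Metric.isOpen_ball.measurableSet.compl
  set χ : X → ℝ := rs_cut o (n : ℝ) with hχ
  have hχL : GloballyLipschitz χ := ⟨1, rs_cut_lipschitz o n⟩
  have hχ0 : ∀ x, 0 ≤ χ x := rs_cut_nonneg o n
  have hχ1 : ∀ x, χ x ≤ 1 := rs_cut_le_one o n
  have hg'L : GloballyLipschitz (fun x => χ x * g x) :=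
    rs_lip_mul_bddSupp hχL (rs_cut_bddSupp o n) hgL
  have habs : ∀ x, |χ x * g x| ≤ |g x| := by
    intro x
    rw [abs_mul, abs_of_nonneg (hχ0 x)]
    exact mul_le_of_le_one_left (abs_nonneg _) (hχ1 x)
  have hmI1 : MemLp (S.indicator fun x => |g x|) 2 m := by
    have := hg2.norm.indicator hSm
    simpa [Real.norm_eq_abs] using this
  have hmI2 : MemLp (S.indicator fun x => |G x|) 2 m := by
    have := hG2.norm.indicator hSm
    simpa [Real.norm_eq_abs] using this
  have hI1 : eLpNorm (S.indicator fun x => |g x|) 2 m ≤ eLpNorm (S.indicator g) 2 m := by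
    refine eLpNorm_mono fun x => ?_
    by_cases hx : x ∈ S
    · rw [indicator_of_mem hx, indicator_of_mem hx]; simp
    · rw [indicator_of_notMem hx, indicator_of_notMem hx]
  have hI2 : eLpNorm (S.indicator fun x => |G x|) 2 m ≤ eLpNorm (S.indicator G) 2 m := by
    refine eLpNorm_mono fun x => ?_
    by_cases hx : x ∈ S
    · rw [indicator_of_mem hx, indicator_of_mem hx]; simp
    · rw [indicator_of_notMem hx, indicator_of_notMem hx]
  refine ⟨fun x => χ x * g x,
    fun x => G x + (S.indicator (fun x => |g x|) x + S.indicator (fun x => |G x|) x),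
    ⟨hg'L, ?_, ?_, ?_⟩, ?_, habs, ?_, ?_⟩
  · obtain ⟨L, hL⟩ := hg'L
    refine hg2.mono hL.continuous.aestronglyMeasurable (Eventually.of_forall fun x => ?_)
    rw [Real.norm_eq_abs, Real.norm_eq_abs]
    exact habs x
  · exact hG2.add (hmI1.add hmI2)
  · filter_upwards [hdom] with x hx0
    obtain ⟨hxn, hx⟩ := hx0
    refine ⟨by
      have a1 : 0 ≤ S.indicator (fun x => |g x|) x := indicator_nonneg (fun _ _ => abs_nonneg _) x
      have a2 : 0 ≤ S.indicator (fun x => |G x|) x := indicator_nonneg (fun _ _ => abs_nonneg _) x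
      linarith, ?_⟩
    have h1 := rs_ls_mul_le (f := χ) (g := g) (x := x) (rs_ls_lt_top hχL x) (rs_ls_lt_top hgL x)
    have h2 := rs_cut_ls_le o (n : ℝ) x
    refine h1.trans ?_
    have h3 : ENNReal.ofReal |χ x| * localSlope g x ≤ ENNReal.ofReal (G x) := by
      calc ENNReal.ofReal |χ x| * localSlope g x ≤ 1 * localSlope g x := by
            gcongr
            rw [abs_of_nonneg (hχ0 x)]
            exact ENNReal.ofReal_le_one.2 (hχ1 x)
        _ = localSlope g x := one_mul _
        _ ≤ _ := hx
    by_cases hxS : x ∈ S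
    · rw [indicator_of_mem hxS, indicator_of_mem hxS]
      rw [indicator_of_mem hxS] at h2
      have h4 : ENNReal.ofReal |g x| * localSlope χ x ≤ ENNReal.ofReal |g x| := by
        calc ENNReal.ofReal |g x| * localSlope χ x ≤ ENNReal.ofReal |g x| * ENNReal.ofReal 1 := by
              gcongr
          _ = _ := by simp
      have h5 : ENNReal.ofReal (G x) ≤ ENNReal.ofReal (G x + |G x|) :=
        ENNReal.ofReal_le_ofReal (by linarith [abs_nonneg (G x)])
      calc ENNReal.ofReal |χ x| * localSlope g x + ENNReal.ofReal |g x| * localSlope χ x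
          ≤ ENNReal.ofReal (G x + |G x|) + ENNReal.ofReal |g x| := add_le_add (h3.trans h5) h4
        _ = ENNReal.ofReal (G x + |G x| + |g x|) :=
            (ENNReal.ofReal_add (by linarith [neg_abs_le (G x)]) (abs_nonneg _)).symm
        _ = _ := by congr 1; ring
    · rw [indicator_of_notMem hxS, indicator_of_notMem hxS]
      rw [indicator_of_notMem hxS] at h2
      have h4 : localSlope χ x = 0 := by simpa using h2
      rw [h4, mul_zero, add_zero, add_zero, add_zero]
      exact h3
  · exact (rs_cut_bddSupp o n).subset (Function.support_mul_subset_left _ _)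
  · refine le_trans (le_trans ?_ hn1.le) ENNReal.half_le_self
    refine eLpNorm_mono fun x => ?_
    by_cases hx : x ∈ S
    · show ‖χ x * g x - g x‖ ≤ ‖S.indicator g x‖
      rw [indicator_of_mem hx, Real.norm_eq_abs, Real.norm_eq_abs]
      have : χ x * g x - g x = -((1 - χ x) * g x) := by ring
      rw [this, abs_neg, abs_mul, abs_of_nonneg (by linarith [hχ1 x])]
      exact mul_le_of_le_one_left (abs_nonneg _) (by linarith [hχ0 x])
    · have hx' : dist x o ≤ n := by
        have : x ∈ Metric.ball o (n : ℝ) := by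
          by_contra hc
          exact hx hc
        exact (Metric.mem_ball.1 this).le
      have : χ x = 1 := rs_cut_eq_one hx'
      show ‖χ x * g x - g x‖ ≤ ‖S.indicator g x‖
      rw [this]
      simp
  · have he : (fun x => G x + (S.indicator (fun x => |g x|) x + S.indicator (fun x => |G x|) x) - G x)
        = (S.indicator fun x => |g x|) + (S.indicator fun x => |G x|) := by
      funext x
      simp
    rw [he]
    calc eLpNorm ((S.indicator fun x => |g x|) + (S.indicator fun x => |G x|)) 2 m
        ≤ eLpNorm (S.indicator fun x => |g x|) 2 m + eLpNorm (S.indicator fun x => |G x|) 2 m :=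
          eLpNorm_add_le hmI1.aestronglyMeasurable hmI2.aestronglyMeasurable (by norm_num)
      _ ≤ ε / 2 + ε / 2 := add_le_add (hI1.trans hn1.le) (hI2.trans hn2.le)
      _ = ε := ENNReal.add_halves ε

end

end Claimed.Agent.R210.RS.Cut
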