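/-
Row 210, layer RS: the closed convex cone `rs_graph m ⊆ L² × L²` and the dictionary with plain functions.
Blueprint: `git show origin/helper875:docs/R210_RS.md`, section B.
-/
import Claimed.Agent.R210.RS.Cut

set_option autoImplicit false

open Claims.C0366 Claims.C0366.WeakHessian
open Claimed.Agent.R210.RS.Defs Claimed.Agent.R210.RS.Slope Claimed.Agent.R210.RS.Cut
open Set Filter MeasureTheory
open scoped ENNReal NNReal Topology

namespace Claimed.Agent.R210.RS.Base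

variable {X : Type*} [MetricSpace X] [MeasurableSpace X] [BorelSpace X] {m : Measure X}

/-! ### dictionary -/

/-- `L²` convergence of plain functions = convergence in `Lp`. -/
theorem rs_L2Lim_iff {fs : ℕ → X → ℝ} {f : X → ℝ} (hfs : ∀ n, MemLp (fs n) 2 m) (hf : MemLp f 2 m) :
    rs_L2Lim m fs f ↔ Tendsto (fun n => (hfs n).toLp (fs n)) atTop (𝓝 (hf.toLp f)) := by
  rw [Lp.tendsto_Lp_iff_tendsto_eLpNorm'' fs hfs f hf]
  rfl

theorem rs_adm_mem_base {g G : X → ℝ} (h : rs_Adm m g G) :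
    (h.2.1.toLp g, h.2.2.1.toLp G) ∈ rs_base m := by
  refine ⟨g, h.1, h.2.1.coeFn_toLp, ?_⟩
  filter_upwards [h.2.2.2, h.2.2.1.coeFn_toLp] with x hx hx2
  simpa [hx2] using hx

/-- every element of `rs_base` comes from an admissible pair of plain functions. -/
theorem rs_base_exists {p : Lp ℝ 2 m × Lp ℝ 2 m} (hp : p ∈ rs_base m) :
    ∃ g : X → ℝ, rs_Adm m g (p.2 : X → ℝ) ∧ (p.1 : X → ℝ) =ᵐ[m] g := by
  obtain ⟨g, hg, hpg, hs⟩ := hp
  exact ⟨g, ⟨hg, (memLp_congr_ae hpg).1 (Lp.memLp p.1), Lp.memLp p.2, hs⟩, hpg⟩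

/-- (B0) the dictionary (`mem_closure_iff_seq_limit`, `rs_L2Lim_iff`, `rs_base_exists`). -/
theorem rs_isRelaxed_iff {f G : X → ℝ} :
    rs_IsRelaxed m f G ↔
      ∃ (hf : MemLp f 2 m) (hG : MemLp G 2 m), (hf.toLp f, hG.toLp G) ∈ rs_graph m := by
  constructor
  · rintro ⟨hf, hG, gs, Gs, hadm, hl1, hl2⟩
    refine ⟨hf, hG, ?_⟩
    refine mem_closure_iff_seq_limit.2
      ⟨fun n => ((hadm n).2.1.toLp (gs n), (hadm n).2.2.1.toLp (Gs n)), fun n => rs_adm_mem_base (hadm n), ?_⟩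
    exact ((rs_L2Lim_iff (fun n => (hadm n).2.1) hf).1 hl1).prodMk_nhds
      ((rs_L2Lim_iff (fun n => (hadm n).2.2.1) hG).1 hl2)
  · rintro ⟨hf, hG, hmem⟩
    obtain ⟨p, hp, hlim⟩ := mem_closure_iff_seq_limit.1 hmem
    choose g hg hpg using fun n => rs_base_exists (hp n)
    refine ⟨hf, hG, g, fun n => ((p n).2 : X → ℝ), hg, ?_, ?_⟩
    · rw [rs_L2Lim_iff (fun n => (hg n).2.1) hf]
      have h1 : Tendsto (fun n => (p n).1) atTop (𝓝 (hf.toLp f)) :=
        (continuous_fst.tendsto _).comp hlim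
      refine h1.congr fun n => ?_
      apply Lp.ext
      exact (hpg n).trans ((hg n).2.1.coeFn_toLp).symm
    · rw [rs_L2Lim_iff (fun n => (hg n).2.2.1) hG]
      have h2 : Tendsto (fun n => (p n).2) atTop (𝓝 (hG.toLp G)) :=
        (continuous_snd.tendsto _).comp hlim
      refine h2.congr fun n => ?_
      exact (Lp.toLp_coeFn _ _).symm

theorem rs_isRelaxed_coe_iff {u G : Lp ℝ 2 m} :
    rs_IsRelaxed m (u : X → ℝ) (G : X → ℝ) ↔ (u, G) ∈ rs_graph m := by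
  rw [rs_isRelaxed_iff]
  constructor
  · rintro ⟨hf, hG, h⟩
    rwa [Lp.toLp_coeFn, Lp.toLp_coeFn] at h
  · intro h
    refine ⟨Lp.memLp u, Lp.memLp G, ?_⟩
    rwa [Lp.toLp_coeFn, Lp.toLp_coeFn]

/-! ### the cone -/

theorem rs_base_add {p q : Lp ℝ 2 m × Lp ℝ 2 m} (hp : p ∈ rs_base m) (hq : q ∈ rs_base m) :
    p + q ∈ rs_base m := by
  obtain ⟨g, ⟨L, hL⟩, hpg, hs⟩ := hp
  obtain ⟨g', ⟨L', hL'⟩, hqg, hs'⟩ := hq
  refine ⟨fun x => g x + g' x, ⟨L + L', hL.add hL'⟩, ?_, ?_⟩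
  · filter_upwards [Lp.coeFn_add p.1 q.1, hpg, hqg] with x h1 h2 h3
    simp only [Prod.fst_add, h1, Pi.add_apply, h2, h3]
  · filter_upwards [Lp.coeFn_add p.2 q.2, hs, hs'] with x h1 h2 h3
    simp only [Prod.snd_add, h1, Pi.add_apply]
    refine ⟨add_nonneg h2.1 h3.1, (rs_ls_add_le g g' x).trans ?_⟩
    rw [ENNReal.ofReal_add h2.1 h3.1]
    exact add_le_add h2.2 h3.2

theorem rs_base_smul {u G : Lp ℝ 2 m} (c : ℝ) (h : (u, G) ∈ rs_base m) :
    (c • u, |c| • G) ∈ rs_base m := by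
  obtain ⟨g, ⟨L, hL⟩, hpg, hs⟩ := h
  refine ⟨fun x => c * g x, ⟨Real.toNNReal |c| * L, ?_⟩, ?_, ?_⟩
  · refine LipschitzWith.of_dist_le_mul fun x y => ?_
    have h1 := hL.dist_le_mul x y
    rw [Real.dist_eq] at h1 ⊢
    rw [← mul_sub, abs_mul, NNReal.coe_mul, Real.coe_toNNReal _ (abs_nonneg c), mul_assoc]
    exact mul_le_mul_of_nonneg_left h1 (abs_nonneg c)
  · filter_upwards [Lp.coeFn_smul c u, hpg] with x h1 h2
    simp only [h1, Pi.smul_apply, smul_eq_mul]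
    rw [h2]
  · filter_upwards [Lp.coeFn_smul |c| G, hs] with x h1 h2
    simp only [h1, Pi.smul_apply, smul_eq_mul]
    refine ⟨mul_nonneg (abs_nonneg c) h2.1, ?_⟩
    rw [rs_ls_const_mul, ENNReal.ofReal_mul (abs_nonneg c)]
    exact mul_le_mul_right h2.2 _

theorem rs_base_mono {u G G' : Lp ℝ 2 m} (h : (u, G) ∈ rs_base m)
    (hle : (G : X → ℝ) ≤ᵐ[m] (G' : X → ℝ)) : (u, G') ∈ rs_base m := by
  obtain ⟨g, hg, hpg, hs⟩ := h
  refine ⟨g, hg, hpg, ?_⟩
  filter_upwards [hs, hle] with x h1 h2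
  exact ⟨h1.1.trans h2, h1.2.trans (ENNReal.ofReal_le_ofReal h2)⟩

theorem rs_base_zero : ((0, 0) : Lp ℝ 2 m × Lp ℝ 2 m) ∈ rs_base m := by
  refine ⟨fun _ => 0, ⟨0, LipschitzWith.const 0⟩, Lp.coeFn_zero _ _ _, ?_⟩
  filter_upwards [Lp.coeFn_zero ℝ 2 m] with x hx
  have h0 : localSlope (fun _ : X => (0 : ℝ)) x = 0 := rs_ls_eq_zero (Eventually.of_forall fun _ => rfl)
  simp only [hx, Pi.zero_apply, le_refl, true_and, h0]
  exact bot_le

theorem rs_graph_isClosed : IsClosed (rs_graph m) := isClosed_closure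

theorem rs_base_subset_graph : rs_base m ⊆ rs_graph m := subset_closure

/-- closure of a set stable under `+` (`map_mem_closure₂ continuous_add`). -/
theorem rs_graph_add {p q : Lp ℝ 2 m × Lp ℝ 2 m} (hp : p ∈ rs_graph m) (hq : q ∈ rs_graph m) :
    p + q ∈ rs_graph m :=
  map_mem_closure₂ continuous_add hp hq fun _ ha _ hb => rs_base_add ha hb

theorem rs_graph_smul {u G : Lp ℝ 2 m} (c : ℝ) (h : (u, G) ∈ rs_graph m) :
    (c • u, |c| • G) ∈ rs_graph m := by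
  have hc : Continuous (fun p : Lp ℝ 2 m × Lp ℝ 2 m => (c • p.1, |c| • p.2)) :=
    (continuous_fst.const_smul c).prodMk (continuous_snd.const_smul |c|)
  have := map_mem_closure hc h (t := rs_base m) fun p hp => rs_base_smul (u := p.1) (G := p.2) c hp
  exact this

theorem rs_graph_convex : Convex ℝ (rs_graph m) := by
  intro p hp q hq a b ha hb _
  have h1 : a • p ∈ rs_graph m := by
    have := rs_graph_smul (u := p.1) (G := p.2) a hp
    rwa [abs_of_nonneg ha] at this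
  have h2 : b • q ∈ rs_graph m := by
    have := rs_graph_smul (u := q.1) (G := q.2) b hq
    rwa [abs_of_nonneg hb] at this
  exact rs_graph_add h1 h2

/-- `(u, G_n + (G' - G)) → (u, G')`... apply `rs_base_mono` to `G_n + (G' - G) ≥ G_n`. -/
theorem rs_graph_mono {u G G' : Lp ℝ 2 m} (h : (u, G) ∈ rs_graph m)
    (hle : (G : X → ℝ) ≤ᵐ[m] (G' : X → ℝ)) : (u, G') ∈ rs_graph m := by
  have hc : Continuous (fun p : Lp ℝ 2 m × Lp ℝ 2 m => (p.1, p.2 + (G' - G))) :=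
    continuous_fst.prodMk (continuous_snd.add continuous_const)
  have := map_mem_closure hc h (t := rs_base m) fun p hp => by
    refine rs_base_mono (u := p.1) (G := p.2) hp ?_
    filter_upwards [Lp.coeFn_add p.2 (G' - G), Lp.coeFn_sub G' G, hle] with x h1 h2 h3
    rw [h1, Pi.add_apply, h2, Pi.sub_apply]
    linarith
  have e : (u, G + (G' - G)) = (u, G') := by rw [add_sub_cancel]
  rw [← e]
  exact this

/-- `{G | 0 ≤ G}` is closed in `L²`. -/
theorem rs_graph_nonneg {u G : Lp ℝ 2 m} (h : (u, G) ∈ rs_graph m) :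
    ∀ᵐ x ∂m, 0 ≤ (G : X → ℝ) x := by
  have hcl : IsClosed {p : Lp ℝ 2 m × Lp ℝ 2 m | 0 ≤ p.2} :=
    isClosed_le continuous_const continuous_snd
  have hsub : rs_base m ⊆ {p : Lp ℝ 2 m × Lp ℝ 2 m | 0 ≤ p.2} := by
    rintro p ⟨g, _, _, hs⟩
    show 0 ≤ p.2
    rw [← Lp.coeFn_nonneg]
    filter_upwards [hs] with x hx
    exact hx.1
  have h0 : (0 : Lp ℝ 2 m) ≤ G := closure_minimal hsub hcl h
  rw [← Lp.coeFn_nonneg] at h0
  exact h0

/-! ### the same for plain functions -/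

theorem rs_relaxed_of_adm {g G : X → ℝ} (h : rs_Adm m g G) : rs_IsRelaxed m g G := by
  refine ⟨h.2.1, h.2.2.1, fun _ => g, fun _ => G, fun _ => h, ?_, ?_⟩ <;>
  · simp [rs_L2Lim]

theorem rs_relaxed_congr {f f' G G' : X → ℝ} (hf : f =ᵐ[m] f') (hG : G =ᵐ[m] G')
    (h : rs_IsRelaxed m f G) : rs_IsRelaxed m f' G' := by
  obtain ⟨h1, h2, gs, Gs, ha, hl1, hl2⟩ := h
  refine ⟨(memLp_congr_ae hf).1 h1, (memLp_congr_ae hG).1 h2, gs, Gs, ha, ?_, ?_⟩
  · have : (fun n => eLpNorm (fun x => gs n x - f' x) 2 m)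
        = fun n => eLpNorm (fun x => gs n x - f x) 2 m := by
      funext n
      apply eLpNorm_congr_ae
      filter_upwards [hf] with x hx
      rw [hx]
    unfold rs_L2Lim
    rw [this]
    exact hl1
  · have : (fun n => eLpNorm (fun x => Gs n x - G' x) 2 m)
        = fun n => eLpNorm (fun x => Gs n x - G x) 2 m := by
      funext n
      apply eLpNorm_congr_ae
      filter_upwards [hG] with x hx
      rw [hx]
    unfold rs_L2Lim
    rw [this]
    exact hl2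

theorem rs_relaxed_add {f g F G : X → ℝ} (hf : rs_IsRelaxed m f F) (hg : rs_IsRelaxed m g G) :
    rs_IsRelaxed m (fun x => f x + g x) (fun x => F x + G x) := by
  obtain ⟨hf1, hF1, h1⟩ := rs_isRelaxed_iff.1 hf
  obtain ⟨hg1, hG1, h2⟩ := rs_isRelaxed_iff.1 hg
  refine rs_isRelaxed_iff.2 ⟨hf1.add hg1, hF1.add hG1, ?_⟩
  have h3 := rs_graph_add h1 h2
  rw [Prod.mk_add_mk, ← MemLp.toLp_add, ← MemLp.toLp_add] at h3
  exact h3

theorem rs_relaxed_const_mul {f F : X → ℝ} (c : ℝ) (hf : rs_IsRelaxed m f F) :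
    rs_IsRelaxed m (fun x => c * f x) (fun x => |c| * F x) := by
  obtain ⟨hf1, hF1, h1⟩ := rs_isRelaxed_iff.1 hf
  refine rs_isRelaxed_iff.2 ⟨hf1.const_smul c, hF1.const_smul |c|, ?_⟩
  have h3 := rs_graph_smul c h1
  rw [← MemLp.toLp_const_smul, ← MemLp.toLp_const_smul] at h3
  exact h3

theorem rs_relaxed_neg {f F : X → ℝ} (hf : rs_IsRelaxed m f F) :
    rs_IsRelaxed m (fun x => - f x) F := by
  have h := rs_relaxed_const_mul (-1) hf
  refine rs_relaxed_congr ?_ ?_ h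
  · exact Filter.Eventually.of_forall fun x => by simp
  · exact Filter.Eventually.of_forall fun x => by simp

theorem rs_relaxed_sub {f g F G : X → ℝ} (hf : rs_IsRelaxed m f F) (hg : rs_IsRelaxed m g G) :
    rs_IsRelaxed m (fun x => f x - g x) (fun x => F x + G x) := by
  have h := rs_relaxed_add hf (rs_relaxed_neg hg)
  simpa only [sub_eq_add_neg] using h

theorem rs_relaxed_mono {f F F' : X → ℝ} (hf : rs_IsRelaxed m f F) (hF' : MemLp F' 2 m)
    (hle : F ≤ᵐ[m] F') : rs_IsRelaxed m f F' := by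
  obtain ⟨hf1, hF1, h1⟩ := rs_isRelaxed_iff.1 hf
  refine rs_isRelaxed_iff.2 ⟨hf1, hF', rs_graph_mono h1 ?_⟩
  filter_upwards [hle, hF1.coeFn_toLp, hF'.coeFn_toLp] with x h2 h3 h4
  rw [h3, h4]
  exact h2

theorem rs_relaxed_nonneg {f F : X → ℝ} (hf : rs_IsRelaxed m f F) : ∀ᵐ x ∂m, 0 ≤ F x := by
  obtain ⟨hf1, hF1, h1⟩ := rs_isRelaxed_iff.1 hf
  filter_upwards [rs_graph_nonneg h1, hF1.coeFn_toLp] with x h2 h3
  rw [← h3]
  exact h2

/-- closure property (RS4). -/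
theorem rs_relaxed_closed {fs Gs : ℕ → X → ℝ} {f G : X → ℝ} (h : ∀ n, rs_IsRelaxed m (fs n) (Gs n))
    (hf : MemLp f 2 m) (hG : MemLp G 2 m) (hfl : rs_L2Lim m fs f) (hGl : rs_L2Lim m Gs G) :
    rs_IsRelaxed m f G := by
  have hfs : ∀ n, MemLp (fs n) 2 m := fun n => (h n).1
  have hGs : ∀ n, MemLp (Gs n) 2 m := fun n => (h n).2.1
  refine rs_isRelaxed_iff.2 ⟨hf, hG, ?_⟩
  have h1 := (rs_L2Lim_iff hfs hf).1 hfl
  have h2 := (rs_L2Lim_iff hGs hG).1 hGl
  refine rs_graph_isClosed.mem_of_tendsto (h1.prodMk_nhds h2) (Filter.Eventually.of_forall fun n => ?_)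
  obtain ⟨_, _, h3⟩ := rs_isRelaxed_iff.1 (h n)
  exact h3

/-- approximating sequences may be taken with bounded supports (`rs_adm_cutoff` with `ε = 1/(n+1)`). -/
theorem rs_relaxed_seq_bddSupp {f G : X → ℝ} (h : rs_IsRelaxed m f G) :
    ∃ gs Gs : ℕ → X → ℝ, (∀ n, rs_Adm m (gs n) (Gs n) ∧ rs_BddSupp (gs n)) ∧
      rs_L2Lim m gs f ∧ rs_L2Lim m Gs G := by
  obtain ⟨hf, hG, gs, Gs, hadm, hl1, hl2⟩ := h
  have hε : ∀ n : ℕ, (((n + 1 : ℕ) : ℝ≥0∞)⁻¹) ≠ 0 := fun n =>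
    ENNReal.inv_ne_zero.2 (ENNReal.natCast_ne_top _)
  choose g' G' h1 h2 _ h4 h5 using fun n => rs_adm_cutoff (hadm n) (hε n)
  have hlim : Tendsto (fun n : ℕ => (((n + 1 : ℕ) : ℝ≥0∞)⁻¹)) atTop (𝓝 0) :=
    ENNReal.tendsto_inv_nat_nhds_zero.comp (tendsto_add_atTop_nat 1)
  have key : ∀ (a b : ℕ → X → ℝ) (c : X → ℝ), (∀ n, MemLp (a n) 2 m) → (∀ n, MemLp (b n) 2 m) → MemLp c 2 m →
      (∀ n, eLpNorm (fun x => a n x - b n x) 2 m ≤ ((n + 1 : ℕ) : ℝ≥0∞)⁻¹) → rs_L2Lim m b c → rs_L2Lim m a c := by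
    intro a b c ha hb hc hab hbc
    unfold rs_L2Lim at hbc ⊢
    have hsum : Tendsto (fun n : ℕ => (((n + 1 : ℕ) : ℝ≥0∞)⁻¹) + eLpNorm (fun x => b n x - c x) 2 m) atTop (𝓝 0) := by
      simpa using hlim.add hbc
    refine tendsto_of_tendsto_of_tendsto_of_le_of_le tendsto_const_nhds hsum (fun n => zero_le) (fun n => ?_)
    have e : (fun x => a n x - c x) = (fun x => a n x - b n x) + (fun x => b n x - c x) := by
      ext x
      simp
    show eLpNorm (fun x => a n x - c x) 2 m ≤ _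
    rw [e]
    refine (eLpNorm_add_le ((ha n).sub (hb n)).aestronglyMeasurable ((hb n).sub hc).aestronglyMeasurable
      (by norm_num)).trans ?_
    exact add_le_add (hab n) le_rfl
  refine ⟨g', G', fun n => ⟨h1 n, h2 n⟩, ?_, ?_⟩
  · exact key g' gs f (fun n => (h1 n).2.1) (fun n => (hadm n).2.1) hf h4 hl1
  · exact key G' Gs G (fun n => (h1 n).2.2.1) (fun n => (hadm n).2.2.1) hG h5 hl2

end Claimed.Agent.R210.RS.Base
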