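/-
Row 210, layer RS: abstract Hilbert space lemmas replacing weak compactness + Mazur.
`T ⊆ H₁ × H₂` closed convex; sections `{G | (u, G) ∈ T}`.
Blueprint: `git show origin/helper875:docs/R210_RS.md`, section H.
-/
import Mathlib

set_option autoImplicit false

open Set Filter
open scoped Topology

namespace Claimed.Agent.R210.RS.Hilb

variable {H₁ H₂ : Type*} [NormedAddCommGroup H₁] [NormedSpace ℝ H₁]
  [NormedAddCommGroup H₂] [InnerProductSpace ℝ H₂] [CompleteSpace H₂]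

/-- A nonempty closed convex subset of a Hilbert space has an element of minimal norm. -/
theorem rs_hilb_min_of_closed_convex {D : Set H₂} (hne : D.Nonempty) (hc : IsClosed D)
    (hv : Convex ℝ D) : ∃ h ∈ D, ∀ w ∈ D, ‖h‖ ≤ ‖w‖ := by
  obtain ⟨G, hG, hmin⟩ := exists_norm_eq_iInf_of_complete_convex hne hc.isComplete hv (0 : H₂)
  refine ⟨G, hG, fun G' hG' => ?_⟩
  have h1 : ‖(0 : H₂) - G‖ ≤ ‖(0 : H₂) - G'‖ := by
    rw [hmin]
    exact ciInf_le ⟨0, by rintro _ ⟨w, rfl⟩; exact norm_nonneg _⟩ (⟨G', hG'⟩ : D)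
  simpa using h1

omit [CompleteSpace H₂] in
/-- Distance to an element of minimal norm of a convex set (parallelogram law). -/
theorem rs_hilb_dist_sq_le {D : Set H₂} (hv : Convex ℝ D) {h w : H₂} (hh : h ∈ D)
    (hmin : ∀ w ∈ D, ‖h‖ ≤ ‖w‖) (hw : w ∈ D) : ‖w - h‖ ^ 2 ≤ 2 * (‖w‖ ^ 2 - ‖h‖ ^ 2) := by
  have hmid : (1 / 2 : ℝ) • w + (1 / 2 : ℝ) • h ∈ D :=
    hv hw hh (by norm_num) (by norm_num) (by norm_num)
  have h1 : ‖h‖ ≤ ‖(1 / 2 : ℝ) • w + (1 / 2 : ℝ) • h‖ := hmin _ hmid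
  have h2 : (1 / 2 : ℝ) • w + (1 / 2 : ℝ) • h = (1 / 2 : ℝ) • (w + h) := by rw [smul_add]
  rw [h2, norm_smul] at h1
  have h3 : 2 * ‖h‖ ≤ ‖w + h‖ := by
    have : ‖(1 / 2 : ℝ)‖ = 1 / 2 := by norm_num
    rw [this] at h1; linarith
  have h4 : 4 * ‖h‖ ^ 2 ≤ ‖w + h‖ ^ 2 := by
    have := pow_le_pow_left₀ (by positivity : (0 : ℝ) ≤ 2 * ‖h‖) h3 2
    nlinarith [this]
  have h5 := parallelogram_law_with_norm ℝ w h
  nlinarith [h5, h4]

omit [CompleteSpace H₂] in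
theorem rs_hilb_section_convex {T : Set (H₁ × H₂)} (hTv : Convex ℝ T) (u : H₁) :
    Convex ℝ {G : H₂ | (u, G) ∈ T} := by
  intro a ha b hb s t hs ht hst
  have h := hTv ha hb hs ht hst
  have h2 : s • (u, a) + t • (u, b) = (u, s • a + t • b) := by
    ext1
    · simp [← add_smul, hst]
    · simp
  rw [h2] at h
  exact h

/-- (H0) A nonempty section of a closed convex set has an element of minimal norm.
Proof: the section is the preimage of `T` under the continuous affine map `G ↦ (u, G)`, hence closed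
and convex; `exists_norm_eq_iInf_of_complete_convex` at the point `0`. -/
theorem rs_hilb_exists_min {T : Set (H₁ × H₂)} (hTc : IsClosed T) (hTv : Convex ℝ T) {u : H₁}
    (hne : ∃ G, (u, G) ∈ T) :
    ∃ G, (u, G) ∈ T ∧ ∀ G', (u, G') ∈ T → ‖G‖ ≤ ‖G'‖ := by
  have hKc : IsClosed {G : H₂ | (u, G) ∈ T} :=
    hTc.preimage (by fun_prop : Continuous fun G : H₂ => (u, G))
  obtain ⟨G, hG, hmin⟩ := rs_hilb_min_of_closed_convex (D := {G : H₂ | (u, G) ∈ T}) hne hKc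
    (rs_hilb_section_convex hTv u)
  exact ⟨G, hG, fun G' hG' => hmin G' hG'⟩

omit [CompleteSpace H₂] in
/-- (H0') The element of minimal norm is unique (parallelogram law on the midpoint). -/
theorem rs_hilb_min_unique {T : Set (H₁ × H₂)} (hTv : Convex ℝ T) {u : H₁} {G G' : H₂}
    (hG : (u, G) ∈ T ∧ ∀ G'', (u, G'') ∈ T → ‖G‖ ≤ ‖G''‖)
    (hG' : (u, G') ∈ T ∧ ∀ G'', (u, G'') ∈ T → ‖G'‖ ≤ ‖G''‖) : G = G' := by
  have h1 := rs_hilb_dist_sq_le (D := {G : H₂ | (u, G) ∈ T}) (rs_hilb_section_convex hTv u)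
    hG'.1 (fun w hw => hG'.2 w hw) hG.1
  have h2 : ‖G‖ = ‖G'‖ := le_antisymm (hG.2 _ hG'.1) (hG'.2 _ hG.1)
  rw [h2] at h1
  have h3 : ‖G - G'‖ ^ 2 ≤ 0 := by linarith
  have h4 : ‖G - G'‖ = 0 := by
    have := sq_nonneg ‖G - G'‖
    exact pow_eq_zero_iff (two_ne_zero) |>.1 (le_antisymm h3 this)
  exact sub_eq_zero.1 (norm_eq_zero.1 h4)

/-- (H) "weak compactness + Mazur" without weak topology.
Proof.  For `k : ℕ` let `S k = {G | ∃ v, ‖v - u‖ ≤ 1/(k+1) ∧ (v, G) ∈ T}` (convex, antitone in `k`,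
contains some `ss n` with `‖ss n‖ ≤ c`), `D k = closure (S k)`, `h k` the element of minimal norm of
`D k` (`exists_norm_eq_iInf_of_complete_convex`).  Then `‖h k‖ ≤ c`, `‖h k‖` is monotone, and for
`k ≤ j` the midpoint of `h j, h k` lies in `D k`, so the parallelogram law gives
`‖h j - h k‖² ≤ 2 (‖h j‖² - ‖h k‖²)`: Cauchy.  Let `G = lim h k`, `‖G‖ ≤ c`.  Choose `(v k, G k) ∈ T`
with `‖v k - u‖ ≤ 1/(k+1)`, `‖G k - h k‖ ≤ 1/(k+1)`; `(v k, G k) → (u, G)`, `T` closed. -/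
theorem rs_hilb_limit {T : Set (H₁ × H₂)} (hTc : IsClosed T) (hTv : Convex ℝ T) {u : H₁}
    {us : ℕ → H₁} {ss : ℕ → H₂} (hmem : ∀ n, (us n, ss n) ∈ T) (hu : Tendsto us atTop (𝓝 u))
    {c : ℝ} (hc : ∃ᶠ n in atTop, ‖ss n‖ ≤ c) :
    ∃ G, (u, G) ∈ T ∧ ‖G‖ ≤ c := by
  set S : ℕ → Set H₂ := fun k => {G | ∃ v, ‖v - u‖ ≤ 1 / ((k : ℝ) + 1) ∧ (v, G) ∈ T} with hS
  have hpos : ∀ k : ℕ, (0 : ℝ) < 1 / ((k : ℝ) + 1) := fun k => by positivity
  -- convexity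
  have hSv : ∀ k, Convex ℝ (S k) := by
    intro k a ha b hb s t hs ht hst
    obtain ⟨v, hv, hvT⟩ := ha
    obtain ⟨w, hw, hwT⟩ := hb
    refine ⟨s • v + t • w, ?_, ?_⟩
    · have e : s • v + t • w - u = s • (v - u) + t • (w - u) := by
        have : u = s • u + t • u := by rw [← add_smul, hst, one_smul]
        conv_lhs => rw [this]
        simp only [smul_sub]; abel
      rw [e]
      calc ‖s • (v - u) + t • (w - u)‖ ≤ ‖s • (v - u)‖ + ‖t • (w - u)‖ := norm_add_le _ _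
        _ = s * ‖v - u‖ + t * ‖w - u‖ := by
            rw [norm_smul, norm_smul, Real.norm_of_nonneg hs, Real.norm_of_nonneg ht]
        _ ≤ s * (1 / ((k : ℝ) + 1)) + t * (1 / ((k : ℝ) + 1)) := by gcongr
        _ = 1 / ((k : ℝ) + 1) := by rw [← add_mul, hst, one_mul]
    · have := hTv hvT hwT hs ht hst
      simpa using this
  -- antitone
  have hSanti : ∀ {k j : ℕ}, k ≤ j → S j ⊆ S k := by
    intro k j hkj G hG
    obtain ⟨v, hv, hvT⟩ := hG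
    refine ⟨v, hv.trans ?_, hvT⟩
    have : (k : ℝ) ≤ j := by exact_mod_cast hkj
    apply one_div_le_one_div_of_le (by positivity); linarith
  -- small elements
  have hSsmall : ∀ k, ∃ G ∈ S k, ‖G‖ ≤ c := by
    intro k
    have h1 : ∀ᶠ n in atTop, ‖us n - u‖ ≤ 1 / ((k : ℝ) + 1) := by
      have := (Metric.tendsto_nhds.1 hu) _ (hpos k)
      filter_upwards [this] with n hn
      rw [← dist_eq_norm]; exact hn.le
    obtain ⟨n, hn1, hn2⟩ := (hc.and_eventually h1).exists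
    exact ⟨ss n, ⟨us n, hn2, hmem n⟩, hn1⟩
  -- minimal elements
  have hD : ∀ k, ∃ h ∈ closure (S k), ∀ w ∈ closure (S k), ‖h‖ ≤ ‖w‖ := fun k =>
    rs_hilb_min_of_closed_convex
      (let ⟨G, hG, _⟩ := hSsmall k; ⟨G, subset_closure hG⟩) isClosed_closure (hSv k).closure
  choose h hhD hhmin using hD
  have hhc : ∀ k, ‖h k‖ ≤ c := fun k => by
    obtain ⟨G, hG, hGc⟩ := hSsmall k
    exact (hhmin k G (subset_closure hG)).trans hGc
  have hDanti : ∀ {k j : ℕ}, k ≤ j → closure (S j) ⊆ closure (S k) :=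
    fun hkj => closure_mono (hSanti hkj)
  have hmono : Monotone fun k => ‖h k‖ ^ 2 := by
    intro k j hkj
    exact pow_le_pow_left₀ (norm_nonneg _) (hhmin k _ (hDanti hkj (hhD j))) 2
  have hc0 : 0 ≤ c := (norm_nonneg _).trans (hhc 0)
  have hbdd : BddAbove (range fun k => ‖h k‖ ^ 2) :=
    ⟨c ^ 2, by rintro _ ⟨k, rfl⟩; exact pow_le_pow_left₀ (norm_nonneg _) (hhc k) 2⟩
  have hlim := tendsto_atTop_ciSup hmono hbdd
  set L := ⨆ k, ‖h k‖ ^ 2 with hL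
  have hdist : ∀ {k j : ℕ}, k ≤ j → ‖h j - h k‖ ^ 2 ≤ 2 * (L - ‖h k‖ ^ 2) := by
    intro k j hkj
    have h1 := rs_hilb_dist_sq_le (hSv k).closure (hhD k) (hhmin k) (hDanti hkj (hhD j))
    have h2 : ‖h j‖ ^ 2 ≤ L := le_ciSup hbdd j
    linarith
  have hcau : CauchySeq h := by
    refine cauchySeq_of_le_tendsto_0 (fun N => 2 * Real.sqrt (2 * (L - ‖h N‖ ^ 2))) ?_ ?_
    · intro n m' N hn hm'
      have e1 : dist (h n) (h N) ≤ Real.sqrt (2 * (L - ‖h N‖ ^ 2)) := by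
        rw [dist_eq_norm]; exact Real.le_sqrt_of_sq_le (hdist hn)
      have e2 : dist (h m') (h N) ≤ Real.sqrt (2 * (L - ‖h N‖ ^ 2)) := by
        rw [dist_eq_norm]; exact Real.le_sqrt_of_sq_le (hdist hm')
      calc dist (h n) (h m') ≤ dist (h n) (h N) + dist (h m') (h N) := dist_triangle_right _ _ _
        _ ≤ _ := by linarith
    · have t1 : Tendsto (fun N => 2 * (L - ‖h N‖ ^ 2)) atTop (𝓝 (2 * (L - L))) :=
        (tendsto_const_nhds.sub hlim).const_mul 2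
      have t2 := (t1.sqrt).const_mul 2
      simpa using t2
  obtain ⟨G, hG⟩ := cauchySeq_tendsto_of_complete hcau
  have hGc : ‖G‖ ≤ c := le_of_tendsto (hG.norm) (Eventually.of_forall hhc)
  -- approximants
  have happ : ∀ k, ∃ G' ∈ S k, dist (h k) G' < 1 / ((k : ℝ) + 1) := fun k =>
    Metric.mem_closure_iff.1 (hhD k) _ (hpos k)
  choose G' hG'S hG'd using happ
  choose v hv hvT using hG'S
  have hz : Tendsto (fun k : ℕ => 1 / ((k : ℝ) + 1)) atTop (𝓝 0) := tendsto_one_div_add_atTop_nhds_zero_nat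
  have hvlim : Tendsto v atTop (𝓝 u) := by
    rw [tendsto_iff_dist_tendsto_zero]
    refine squeeze_zero (fun _ => dist_nonneg) (fun k => ?_) hz
    rw [dist_eq_norm]; exact hv k
  have hG'lim : Tendsto G' atTop (𝓝 G) := by
    rw [tendsto_iff_dist_tendsto_zero]
    have t : Tendsto (fun k : ℕ => 1 / ((k : ℝ) + 1) + dist (h k) G) atTop (𝓝 (0 + 0)) :=
      hz.add (tendsto_iff_dist_tendsto_zero.1 hG)
    rw [add_zero] at t
    refine squeeze_zero (fun _ => dist_nonneg) (fun k => ?_) t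
    calc dist (G' k) G ≤ dist (G' k) (h k) + dist (h k) G := dist_triangle _ _ _
      _ ≤ _ := by rw [dist_comm (G' k)]; linarith [(hG'd k).le]
  exact ⟨G, hTc.mem_of_tendsto (hvlim.prodMk_nhds hG'lim) (Eventually.of_forall hvT), hGc⟩

/-- (H') Strong convergence to the element of minimal norm.
Proof.  Put `d = ‖G‖`.  If the claim fails there are `δ > 0` and infinitely many `n` with
`‖ss n - G‖ ≥ δ`.  The pairs `((us n + u)/2, (ss n + G)/2)` are in `T`, the first components tend to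
`u`, and by the parallelogram law `‖(ss n + G)/2‖² = (‖ss n‖² + d²)/2 - ‖ss n - G‖²/4
≤ ((d+ε)² + d²)/2 - δ²/4 ≤ d² - δ²/8` frequently (`ε` small).  `rs_hilb_limit` gives `G'` in the section
with `‖G'‖² ≤ d² - δ²/8 < d²`: contradiction with minimality. -/
theorem rs_hilb_strong {T : Set (H₁ × H₂)} (hTc : IsClosed T) (hTv : Convex ℝ T) {u : H₁} {G : H₂}
    (hG : (u, G) ∈ T) (hmin : ∀ G', (u, G') ∈ T → ‖G‖ ≤ ‖G'‖)
    {us : ℕ → H₁} {ss : ℕ → H₂} (hmem : ∀ n, (us n, ss n) ∈ T) (hu : Tendsto us atTop (𝓝 u))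
    (hn : ∀ ε > 0, ∀ᶠ n in atTop, ‖ss n‖ ≤ ‖G‖ + ε) :
    Tendsto ss atTop (𝓝 G) := by
  by_contra hcon
  rw [Metric.tendsto_nhds] at hcon
  push Not at hcon
  obtain ⟨δ, hδ, hfreq⟩ := hcon
  have hfreq' : ∃ᶠ n in atTop, δ ≤ ‖ss n - G‖ := by
    refine hfreq.mono fun n hn' => ?_
    rw [← dist_eq_norm]; exact hn'
  set d := ‖G‖ with hd
  have hd0 : 0 ≤ d := norm_nonneg _
  -- choose ε
  obtain ⟨ε, hε, hεs⟩ : ∃ ε > 0, (d + ε) ^ 2 ≤ d ^ 2 + δ ^ 2 / 4 := by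
    refine ⟨min 1 (δ ^ 2 / (4 * (2 * d + 1))), by positivity, ?_⟩
    set ε := min 1 (δ ^ 2 / (4 * (2 * d + 1))) with hεdef
    have h1 : ε ≤ 1 := min_le_left _ _
    have h2 : ε ≤ δ ^ 2 / (4 * (2 * d + 1)) := min_le_right _ _
    have h0 : 0 < ε := by positivity
    have h3 : ε * (4 * (2 * d + 1)) ≤ δ ^ 2 := by
      rwa [le_div_iff₀ (by positivity)] at h2
    nlinarith
  -- the midpoints
  have hmid : ∀ n, ((1 / 2 : ℝ) • us n + (1 / 2 : ℝ) • u, (1 / 2 : ℝ) • ss n + (1 / 2 : ℝ) • G) ∈ T := by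
    intro n
    have := hTv (hmem n) hG (by norm_num : (0 : ℝ) ≤ 1 / 2) (by norm_num : (0 : ℝ) ≤ 1 / 2)
      (by norm_num)
    simpa using this
  have hulim : Tendsto (fun n => (1 / 2 : ℝ) • us n + (1 / 2 : ℝ) • u) atTop (𝓝 u) := by
    have t := (hu.const_smul (1 / 2 : ℝ)).add (tendsto_const_nhds (x := (1 / 2 : ℝ) • u))
    have e : (1 / 2 : ℝ) • u + (1 / 2 : ℝ) • u = u := by rw [← add_smul]; norm_num
    rwa [e] at t
  have hnorm2 : ∃ᶠ n in atTop,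
      ‖(1 / 2 : ℝ) • ss n + (1 / 2 : ℝ) • G‖ ^ 2 ≤ d ^ 2 - δ ^ 2 / 8 := by
    refine (hfreq'.and_eventually (hn ε hε)).mono fun n hn' => ?_
    obtain ⟨h1, h2⟩ := hn'
    have e : (1 / 2 : ℝ) • ss n + (1 / 2 : ℝ) • G = (1 / 2 : ℝ) • (ss n + G) := by rw [smul_add]
    rw [e, norm_smul]
    have e2 : ‖(1 / 2 : ℝ)‖ = 1 / 2 := by norm_num
    rw [e2]
    have p := parallelogram_law_with_norm ℝ (ss n) G
    have h3 : ‖ss n‖ ^ 2 ≤ (d + ε) ^ 2 := pow_le_pow_left₀ (norm_nonneg _) h2 2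
    have h4 : δ ^ 2 ≤ ‖ss n - G‖ ^ 2 := pow_le_pow_left₀ hδ.le h1 2
    nlinarith
  have hnonneg : 0 ≤ d ^ 2 - δ ^ 2 / 8 := by
    obtain ⟨n, hn'⟩ := hnorm2.exists
    exact (sq_nonneg _).trans hn'
  have hnorm : ∃ᶠ n in atTop,
      ‖(1 / 2 : ℝ) • ss n + (1 / 2 : ℝ) • G‖ ≤ Real.sqrt (d ^ 2 - δ ^ 2 / 8) :=
    hnorm2.mono fun n hn' => Real.le_sqrt_of_sq_le hn'
  obtain ⟨G', hG'T, hG'n⟩ := rs_hilb_limit hTc hTv hmid hulim hnorm
  have h5 : d ≤ Real.sqrt (d ^ 2 - δ ^ 2 / 8) := (hmin G' hG'T).trans hG'n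
  have h6 : d ^ 2 ≤ d ^ 2 - δ ^ 2 / 8 := by
    have := pow_le_pow_left₀ hd0 h5 2
    rwa [Real.sq_sqrt hnonneg] at this
  nlinarith

end Claimed.Agent.R210.RS.Hilb
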