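/-
Row 210, layer RS: representation of the frozen Cheeger energy, `Ch f = ½ ∫ rs_slope²` (RS1, RS2).
Blueprint: `git show origin/helper875:docs/R210_RS.md`, section R.
-/
import Claimed.Agent.R210.RS.Base
import Claimed.Agent.R210.RS.Hilb

set_option autoImplicit false

open Claims.C0366 Claims.C0366.WeakHessian
open Claimed.Agent.R210.RS.Defs Claimed.Agent.R210.RS.Slope Claimed.Agent.R210.RS.Cut
  Claimed.Agent.R210.RS.Base Claimed.Agent.R210.RS.Hilb
open Set Filter MeasureTheory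
open scoped ENNReal NNReal Topology

namespace Claimed.Agent.R210.RS.Rep

variable {X : Type*} [MetricSpace X] [MeasurableSpace X] [BorelSpace X] {m : Measure X}

/-- (R0) the frozen energy depends only on the a.e. class. -/
theorem rs_cheeger_congr {f g : X → ℝ} (h : f =ᵐ[m] g) : cheegerEnergy m f = cheegerEnergy m g := by
  have h1 : MemLp f 2 m ↔ MemLp g 2 m := memLp_congr_ae h
  have h2 : ∀ (fs : ℕ → X → ℝ) (n : ℕ),
      eLpNorm (fun x => fs n x - f x) 2 m = eLpNorm (fun x => fs n x - g x) 2 m := by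
    intro fs n
    apply eLpNorm_congr_ae
    filter_upwards [h] with x hx
    rw [hx]
  unfold cheegerEnergy
  simp only [h2]
  by_cases hf : MemLp f 2 m
  · rw [if_pos hf, if_pos (h1.1 hf)]
  · rw [if_neg hf, if_neg (fun hg => hf (h1.2 hg))]

theorem rs_memLp_of_cheeger {f : X → ℝ} (h : cheegerEnergy m f < ∞) : MemLp f 2 m := by
  by_contra hf
  unfold cheegerEnergy at h
  rw [if_neg hf] at h
  exact lt_irrefl _ h

theorem rs_ChL2_toLp {f : X → ℝ} (hf : MemLp f 2 m) : ChL2 m (hf.toLp f) = cheegerEnergy m f := by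
  exact rs_cheeger_congr hf.coeFn_toLp

/-- norm dictionary: `∫⁻ ofReal(G)² ≤ ofReal ‖G‖²`. -/
theorem rs_lintegral_sq_le (G : Lp ℝ 2 m) :
    ∫⁻ x, (ENNReal.ofReal ((G : X → ℝ) x)) ^ 2 ∂m ≤ ENNReal.ofReal (‖G‖ ^ 2) := by
  have hint : Integrable (fun x => ((G : X → ℝ) x) ^ 2) m := (Lp.memLp G).integrable_sq
  have hn : ‖G‖ ^ 2 = ∫ x, ((G : X → ℝ) x) ^ 2 ∂m := by
    rw [← real_inner_self_eq_norm_sq G, L2.inner_def]
    refine integral_congr_ae (Eventually.of_forall fun x => ?_)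
    simp [pow_two]
  rw [hn, ofReal_integral_eq_lintegral_ofReal hint (Eventually.of_forall fun x => sq_nonneg _)]
  refine lintegral_mono fun x => ?_
  rcases le_total 0 ((G : X → ℝ) x) with h0 | h0
  · rw [ENNReal.ofReal_pow h0]
  · rw [ENNReal.ofReal_of_nonpos h0]
    simp

/-- norm dictionary: `‖G‖² = ∫ G²`. -/
theorem rs_norm_sq_eq (G : Lp ℝ 2 m) : ‖G‖ ^ 2 = ∫ x, ((G : X → ℝ) x) ^ 2 ∂m := by
  rw [← real_inner_self_eq_norm_sq G, L2.inner_def]
  refine integral_congr_ae (Eventually.of_forall fun x => ?_)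
  simp [pow_two]

/-- a Lipschitz `L²` function whose slope has finite `∫⁻ slope²` gives an element of `rs_base`
of the corresponding norm. -/
theorem rs_base_of_lip {g : X → ℝ} (hg : GloballyLipschitz g) (hg2 : MemLp g 2 m) {c : ℝ}
    (hc : ∫⁻ x, (localSlope g x) ^ 2 ∂m ≤ ENNReal.ofReal (c ^ 2)) (hc0 : 0 ≤ c) :
    ∃ S : Lp ℝ 2 m, (hg2.toLp g, S) ∈ rs_base m ∧ ‖S‖ ≤ c ∧ (S : X → ℝ) =ᵐ[m] rs_lip g := by
  obtain ⟨L, hL⟩ := id hg
  have hmeas : Measurable (rs_lip g) := rs_lip_measurable hL.continuous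
  have hsq : ∀ x, ENNReal.ofReal ((rs_lip g x) ^ 2) = (localSlope g x) ^ 2 := by
    intro x
    rw [ENNReal.ofReal_pow (rs_lip_nonneg g x), rs_ofReal_lip hg x]
  have hint : Integrable (fun x => (rs_lip g x) ^ 2) m := by
    refine ⟨(hmeas.pow_const 2).aestronglyMeasurable, ?_⟩
    rw [hasFiniteIntegral_iff_ofReal (Eventually.of_forall fun x => sq_nonneg _)]
    simp only [hsq]
    exact lt_of_le_of_lt hc ENNReal.ofReal_lt_top
  have hmem : MemLp (rs_lip g) 2 m := (memLp_two_iff_integrable_sq hmeas.aestronglyMeasurable).2 hint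
  have hS : ((hmem.toLp (rs_lip g) : Lp ℝ 2 m) : X → ℝ) =ᵐ[m] rs_lip g := hmem.coeFn_toLp
  refine ⟨hmem.toLp (rs_lip g), ⟨g, hg, hg2.coeFn_toLp, ?_⟩, ?_, hS⟩
  · filter_upwards [hS] with x hx
    show 0 ≤ ((hmem.toLp (rs_lip g) : Lp ℝ 2 m) : X → ℝ) x ∧
      localSlope g x ≤ ENNReal.ofReal (((hmem.toLp (rs_lip g) : Lp ℝ 2 m) : X → ℝ) x)
    rw [hx, rs_ofReal_lip hg x]
    exact ⟨rs_lip_nonneg g x, le_rfl⟩
  · have h1 : ‖hmem.toLp (rs_lip g)‖ ^ 2 = ∫ x, (rs_lip g x) ^ 2 ∂m := by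
      rw [rs_norm_sq_eq]
      refine integral_congr_ae ?_
      filter_upwards [hS] with x hx
      rw [hx]
    have h2 : ENNReal.ofReal (‖hmem.toLp (rs_lip g)‖ ^ 2) ≤ ENNReal.ofReal (c ^ 2) := by
      rw [h1, ofReal_integral_eq_lintegral_ofReal hint (Eventually.of_forall fun x => sq_nonneg _)]
      simp only [hsq]
      exact hc
    have h3 : ‖hmem.toLp (rs_lip g)‖ ^ 2 ≤ c ^ 2 := (ENNReal.ofReal_le_ofReal_iff (sq_nonneg c)).1 h2
    exact (pow_le_pow_iff_left₀ (norm_nonneg _) hc0 two_ne_zero).1 h3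

/-- (R1) upper bound.  Take `(g_n, G_n) ∈ rs_base → (u, G)` with Lipschitz representatives `g_n`; the number
`a = liminf ½ ∫⁻ slope(g_n)²` belongs to the set in the definition of `cheegerEnergy`, and
`a ≤ liminf ½ ofReal ‖G_n‖² = ½ ofReal ‖G‖²` (`rs_lintegral_sq_le`, continuity of the norm). -/
theorem rs_ChL2_le_of_graph {u G : Lp ℝ 2 m} (h : (u, G) ∈ rs_graph m) :
    ChL2 m u ≤ ENNReal.ofReal (‖G‖ ^ 2 / 2) := by
  obtain ⟨p, hp, hlim⟩ := mem_closure_iff_seq_limit.1 h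
  choose g hgL hge hgs using hp
  have hlim1 : Tendsto (fun n => (p n).1) atTop (𝓝 u) := (continuous_fst.tendsto _).comp hlim
  have hlim2 : Tendsto (fun n => (p n).2) atTop (𝓝 G) := (continuous_snd.tendsto _).comp hlim
  have hhalf : ∀ x : ℝ, (2 : ℝ≥0∞)⁻¹ * ENNReal.ofReal x = ENNReal.ofReal (x / 2) := by
    intro x
    rw [ENNReal.ofReal_div_of_pos (by norm_num : (0 : ℝ) < 2), ENNReal.ofReal_ofNat, div_eq_mul_inv,
      mul_comm]
  have hb : ∀ n, (2 : ℝ≥0∞)⁻¹ * ∫⁻ x, (localSlope (g n) x) ^ 2 ∂m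
      ≤ ENNReal.ofReal (‖(p n).2‖ ^ 2 / 2) := by
    intro n
    rw [← hhalf]
    gcongr
    refine le_trans (lintegral_mono_ae ?_) (rs_lintegral_sq_le (p n).2)
    filter_upwards [hgs n] with x hx
    have hx2 := hx.2
    gcongr
  have hblim : Tendsto (fun n => ENNReal.ofReal (‖(p n).2‖ ^ 2 / 2)) atTop
      (𝓝 (ENNReal.ofReal (‖G‖ ^ 2 / 2))) :=
    (ENNReal.continuous_ofReal.tendsto _).comp ((hlim2.norm.pow 2).div_const 2)
  have hle : Filter.liminf (fun n => (2 : ℝ≥0∞)⁻¹ * ∫⁻ x, (localSlope (g n) x) ^ 2 ∂m) atTop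
      ≤ ENNReal.ofReal (‖G‖ ^ 2 / 2) := by
    rw [← hblim.liminf_eq]
    exact Filter.liminf_le_liminf (Eventually.of_forall hb)
  refine le_trans ?_ hle
  unfold ChL2 cheegerEnergy
  rw [if_pos (Lp.memLp u)]
  refine sInf_le ⟨g, fun n => ⟨hgL n, (Lp.memLp (p n).1).ae_eq (hge n)⟩, ?_, rfl⟩
  have h0 := (Lp.tendsto_Lp_iff_tendsto_eLpNorm' (fun n => (p n).1) u).1 hlim1
  refine h0.congr fun n => ?_
  refine eLpNorm_congr_ae ?_
  filter_upwards [hge n] with x hx
  simp only [Pi.sub_apply, hx]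

/-- (R2) lower bound.  `sInf < ofReal (c²/2)` gives `fs` with `liminf ½∫⁻ slope(fs n)² < ofReal (c²/2)`,
hence frequently `∫⁻ slope(fs n)² ≤ ofReal c²` (`frequently_lt_of_liminf_lt`); extract a subsequence
(`extraction_of_frequently_atTop`), use `rs_base_of_lip` and `rs_hilb_limit` with `T = rs_graph m`. -/
theorem rs_exists_graph_of_ChL2_lt {u : Lp ℝ 2 m} {c : ℝ} (hc0 : 0 ≤ c)
    (h : ChL2 m u < ENNReal.ofReal (c ^ 2 / 2)) : ∃ G, (u, G) ∈ rs_graph m ∧ ‖G‖ ≤ c := by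
  have hu : MemLp (u : X → ℝ) 2 m := Lp.memLp u
  unfold ChL2 cheegerEnergy at h
  rw [if_pos hu, sInf_lt_iff] at h
  obtain ⟨a, ⟨fs, hfs, hlim, rfl⟩, ha⟩ := h
  have hfreq := frequently_lt_of_liminf_lt (by isBoundedDefault) ha
  obtain ⟨φ, hφ, hP⟩ := extraction_of_frequently_atTop hfreq
  have hb : ∀ n, ∫⁻ x, (localSlope (fs (φ n)) x) ^ 2 ∂m ≤ ENNReal.ofReal (c ^ 2) := by
    intro n
    have h1 := hP n
    have e : ENNReal.ofReal (c ^ 2 / 2) = (2 : ℝ≥0∞)⁻¹ * ENNReal.ofReal (c ^ 2) := by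
      rw [div_eq_inv_mul, ENNReal.ofReal_mul (by norm_num), ENNReal.ofReal_inv_of_pos (by norm_num)]
      norm_num
    rw [e] at h1
    by_contra hcon
    rw [not_le] at hcon
    exact absurd h1 (not_lt.2 (by gcongr))
  choose S hS1 hS2 _ using fun n => rs_base_of_lip (hfs (φ n)).1 (hfs (φ n)).2 (hb n) hc0
  have hl : rs_L2Lim m (fun n => fs (φ n)) (u : X → ℝ) := hlim.comp hφ.tendsto_atTop
  have ht := (rs_L2Lim_iff (fun n => (hfs (φ n)).2) hu).1 hl
  rw [Lp.toLp_coeFn] at ht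
  exact rs_hilb_limit rs_graph_isClosed rs_graph_convex
    (fun n => rs_base_subset_graph (hS1 n)) ht (Frequently.of_forall hS2)

theorem rs_ChL2_lt_top_iff {u : Lp ℝ 2 m} : ChL2 m u < ∞ ↔ ∃ G, (u, G) ∈ rs_graph m := by
  constructor
  · intro h
    have h0 : (0 : ℝ) ≤ 2 * ((ChL2 m u).toReal + 1) := by positivity
    have h1 : ChL2 m u < ENNReal.ofReal (Real.sqrt (2 * ((ChL2 m u).toReal + 1)) ^ 2 / 2) := by
      rw [Real.sq_sqrt h0, mul_div_cancel_left₀ _ (two_ne_zero)]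
      conv_lhs => rw [← ENNReal.ofReal_toReal h.ne]
      exact (ENNReal.ofReal_lt_ofReal_iff (by positivity)).2 (by linarith)
    obtain ⟨G, hG, _⟩ := rs_exists_graph_of_ChL2_lt (Real.sqrt_nonneg _) h1
    exact ⟨G, hG⟩
  · rintro ⟨G, hG⟩
    exact (rs_ChL2_le_of_graph hG).trans_lt ENNReal.ofReal_lt_top

/-- (`rs_hilb_exists_min`, `Classical.choose_spec`) -/
theorem rs_isMin_slopeLp {u : Lp ℝ 2 m} (h : ChL2 m u < ∞) : rs_IsMin m u (rs_slopeLp m u) := by
  have hex : ∃ G, rs_IsMin m u G :=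
    rs_hilb_exists_min rs_graph_isClosed rs_graph_convex (rs_ChL2_lt_top_iff.1 h)
  unfold rs_slopeLp
  rw [dif_pos hex]
  exact Classical.choose_spec hex

theorem rs_slopeLp_eq_zero {u : Lp ℝ 2 m} (h : ChL2 m u = ∞) : rs_slopeLp m u = 0 := by
  have hne : ¬ ∃ G, rs_IsMin m u G := by
    rintro ⟨G, hG, -⟩
    have hlt := rs_ChL2_lt_top_iff.2 ⟨G, hG⟩
    rw [h] at hlt
    exact lt_irrefl _ hlt
  unfold rs_slopeLp
  rw [dif_neg hne]

theorem rs_isMin_unique {u G G' : Lp ℝ 2 m} (h : rs_IsMin m u G) (h' : rs_IsMin m u G') : G = G' :=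
  rs_hilb_min_unique rs_graph_convex h h'

/-- (R3) representation in `L²`. -/
theorem rs_ChL2_eq {u : Lp ℝ 2 m} (h : ChL2 m u < ∞) :
    ChL2 m u = ENNReal.ofReal (‖rs_slopeLp m u‖ ^ 2 / 2) := by
  have hmin := rs_isMin_slopeLp h
  refine le_antisymm (rs_ChL2_le_of_graph hmin.1) ?_
  refine le_of_forall_gt_imp_ge_of_dense fun b hb => ?_
  rcases eq_or_ne b ∞ with rfl | hbt
  · exact le_top
  have hc0 : 0 ≤ Real.sqrt (2 * b.toReal) := Real.sqrt_nonneg _
  have hc2 : Real.sqrt (2 * b.toReal) ^ 2 / 2 = b.toReal := by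
    rw [Real.sq_sqrt (by positivity)]
    ring
  have hb' : ENNReal.ofReal (Real.sqrt (2 * b.toReal) ^ 2 / 2) = b := by
    rw [hc2, ENNReal.ofReal_toReal hbt]
  obtain ⟨G, hG, hGc⟩ := rs_exists_graph_of_ChL2_lt hc0 (by rw [hb']; exact hb)
  have h1 : ‖rs_slopeLp m u‖ ≤ Real.sqrt (2 * b.toReal) := (hmin.2 G hG).trans hGc
  rw [← hb']
  apply ENNReal.ofReal_le_ofReal
  have h2 := pow_le_pow_left₀ (norm_nonneg _) h1 2
  linarith

/-! ### plain functions -/

theorem rs_slope_nonneg (m : Measure X) (f : X → ℝ) (x : X) : 0 ≤ rs_slope m f x := by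
  unfold rs_slope
  split_ifs with h
  · exact abs_nonneg _
  · exact le_rfl

theorem rs_slope_measurable (m : Measure X) (f : X → ℝ) : Measurable (rs_slope m f) := by
  unfold rs_slope
  split_ifs with h
  · exact continuous_abs.measurable.comp (Lp.stronglyMeasurable _).measurable
  · exact measurable_zero

theorem rs_slope_memLp (m : Measure X) (f : X → ℝ) : MemLp (rs_slope m f) 2 m := by
  unfold rs_slope
  split_ifs with h
  · exact (Lp.memLp (rs_slopeLp m (h.toLp f))).norm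
  · exact MemLp.zero

theorem rs_slope_congr {f g : X → ℝ} (h : f =ᵐ[m] g) : rs_slope m f = rs_slope m g := by
  by_cases hf : MemLp f 2 m
  · have hg : MemLp g 2 m := (memLp_congr_ae h).1 hf
    unfold rs_slope
    rw [dif_pos hf, dif_pos hg, MemLp.toLp_congr hf hg h]
  · have hg : ¬ MemLp g 2 m := fun hg => hf ((memLp_congr_ae h).2 hg)
    unfold rs_slope
    rw [dif_neg hf, dif_neg hg]

/-- the minimal relaxed slope in `L²` is a.e. nonnegative. -/
theorem rs_slopeLp_nonneg_ae (u : Lp ℝ 2 m) : ∀ᵐ x ∂m, 0 ≤ (rs_slopeLp m u : X → ℝ) x := by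
  by_cases h : ChL2 m u < ∞
  · exact rs_graph_nonneg (rs_isMin_slopeLp h).1
  · rw [rs_slopeLp_eq_zero (not_lt_top_iff.1 h)]
    filter_upwards [Lp.coeFn_zero ℝ 2 m] with x hx
    rw [hx]; exact le_rfl

theorem rs_slope_ae_eq {f : X → ℝ} (hf : MemLp f 2 m) :
    rs_slope m f =ᵐ[m] (rs_slopeLp m (hf.toLp f) : X → ℝ) := by
  filter_upwards [rs_slopeLp_nonneg_ae (hf.toLp f)] with x hx
  unfold rs_slope
  rw [dif_pos hf]
  exact abs_of_nonneg hx

theorem rs_slope_coe_ae_eq (u : Lp ℝ 2 m) :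
    rs_slope m (u : X → ℝ) =ᵐ[m] (rs_slopeLp m u : X → ℝ) := by
  have h := rs_slope_ae_eq (Lp.memLp u)
  rwa [Lp.toLp_coeFn u (Lp.memLp u)] at h

theorem rs_slope_isRelaxed {f : X → ℝ} (h : cheegerEnergy m f < ∞) :
    rs_IsRelaxed m f (rs_slope m f) := by
  have hf : MemLp f 2 m := rs_memLp_of_cheeger h
  have hu : ChL2 m (hf.toLp f) < ∞ := by rw [rs_ChL2_toLp hf]; exact h
  have h1 : rs_IsRelaxed m (hf.toLp f : X → ℝ) (rs_slopeLp m (hf.toLp f) : X → ℝ) :=
    rs_isRelaxed_coe_iff.2 (rs_isMin_slopeLp hu).1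
  exact rs_relaxed_congr hf.coeFn_toLp (rs_slope_ae_eq hf).symm h1

theorem rs_cheeger_lt_top_iff {f : X → ℝ} : cheegerEnergy m f < ∞ ↔ ∃ G, rs_IsRelaxed m f G := by
  constructor
  · intro h
    exact ⟨rs_slope m f, rs_slope_isRelaxed h⟩
  · rintro ⟨G, hG⟩
    obtain ⟨hf, hG', hmem⟩ := rs_isRelaxed_iff.1 hG
    rw [← rs_ChL2_toLp hf]
    exact rs_ChL2_lt_top_iff.2 ⟨_, hmem⟩

/-- `∫ rs_slope² = ‖rs_slopeLp‖²`. -/
theorem rs_integral_slope_sq {f : X → ℝ} (hf : MemLp f 2 m) :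
    ∫ x, rs_slope m f x ^ 2 ∂m = ‖rs_slopeLp m (hf.toLp f)‖ ^ 2 := by
  rw [rs_norm_sq_eq]
  refine integral_congr_ae ?_
  filter_upwards [rs_slope_ae_eq hf] with x hx
  rw [hx]

/-- `∫ G² = ‖toLp G‖²`. -/
theorem rs_integral_sq_toLp {G : X → ℝ} (hG : MemLp G 2 m) :
    ∫ x, G x ^ 2 ∂m = ‖hG.toLp G‖ ^ 2 := by
  rw [rs_norm_sq_eq]
  refine integral_congr_ae ?_
  filter_upwards [hG.coeFn_toLp] with x hx
  rw [hx]

theorem rs_cheeger_eq {f : X → ℝ} (h : cheegerEnergy m f < ∞) :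
    cheegerEnergy m f = ENNReal.ofReal ((∫ x, rs_slope m f x ^ 2 ∂m) / 2) := by
  have hf : MemLp f 2 m := rs_memLp_of_cheeger h
  have h1 : ChL2 m (hf.toLp f) = cheegerEnergy m f := rs_ChL2_toLp hf
  have h2 : ChL2 m (hf.toLp f) < ∞ := by rw [h1]; exact h
  rw [← h1, rs_ChL2_eq h2, rs_integral_slope_sq hf]

/-- unconditional (both sides vanish if the energy is infinite). -/
theorem rs_cheeger_toReal (m : Measure X) (f : X → ℝ) :
    (cheegerEnergy m f).toReal = (∫ x, rs_slope m f x ^ 2 ∂m) / 2 := by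
  by_cases h : cheegerEnergy m f < ∞
  · rw [rs_cheeger_eq h, ENNReal.toReal_ofReal]
    exact div_nonneg (integral_nonneg fun x => sq_nonneg _) (by norm_num)
  · have htop : cheegerEnergy m f = ∞ := by simpa using h
    rw [htop, ENNReal.toReal_top]
    by_cases hf : MemLp f 2 m
    · have h1 : ChL2 m (hf.toLp f) = ∞ := by rw [rs_ChL2_toLp hf, htop]
      rw [rs_integral_slope_sq hf, rs_slopeLp_eq_zero h1]
      simp
    · have : rs_slope m f = 0 := by
        unfold rs_slope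
        rw [dif_neg hf]
      simp [this]

theorem rs_cheeger_le_of_relaxed {f G : X → ℝ} (h : rs_IsRelaxed m f G) :
    cheegerEnergy m f ≤ ENNReal.ofReal ((∫ x, G x ^ 2 ∂m) / 2) := by
  obtain ⟨hf, hG, hmem⟩ := rs_isRelaxed_iff.1 h
  rw [← rs_ChL2_toLp hf, rs_integral_sq_toLp hG]
  exact rs_ChL2_le_of_graph hmem

theorem rs_cheeger_toReal_le_of_relaxed {f G : X → ℝ} (h : rs_IsRelaxed m f G) :
    (cheegerEnergy m f).toReal ≤ (∫ x, G x ^ 2 ∂m) / 2 := by
  have h0 : 0 ≤ (∫ x, G x ^ 2 ∂m) / 2 :=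
    div_nonneg (integral_nonneg fun x => sq_nonneg _) (by norm_num)
  have := ENNReal.toReal_mono ENNReal.ofReal_ne_top (rs_cheeger_le_of_relaxed h)
  rwa [ENNReal.toReal_ofReal h0] at this

/-- a relaxed slope with the minimal norm is the minimal one. -/
theorem rs_slope_eq_of_norm_le {f G : X → ℝ} (h : rs_IsRelaxed m f G)
    (hn : ∫ x, G x ^ 2 ∂m ≤ ∫ x, rs_slope m f x ^ 2 ∂m) : G =ᵐ[m] rs_slope m f := by
  obtain ⟨hf, hG, hmem⟩ := rs_isRelaxed_iff.1 h
  have hfin : cheegerEnergy m f < ∞ := rs_cheeger_lt_top_iff.2 ⟨G, h⟩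
  have h2 : ChL2 m (hf.toLp f) < ∞ := by rw [rs_ChL2_toLp hf]; exact hfin
  have hmin := rs_isMin_slopeLp h2
  rw [rs_integral_sq_toLp hG, rs_integral_slope_sq hf] at hn
  have hle : ‖hG.toLp G‖ ≤ ‖rs_slopeLp m (hf.toLp f)‖ := le_of_sq_le_sq hn (norm_nonneg _)
  have hmin' : rs_IsMin m (hf.toLp f) (hG.toLp G) :=
    ⟨hmem, fun G' hG' => hle.trans (hmin.2 G' hG')⟩
  have heq : hG.toLp G = rs_slopeLp m (hf.toLp f) := rs_isMin_unique hmin' hmin
  filter_upwards [hG.coeFn_toLp, rs_slope_ae_eq hf] with x hx1 hx3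
  rw [← hx1, hx3, heq]

/-! ### RS1: structural properties of the energy -/

theorem rs_cheeger_zero : cheegerEnergy m (fun _ => (0 : ℝ)) = 0 := by
  have h0 : rs_IsRelaxed m (((0 : Lp ℝ 2 m) : X → ℝ)) (((0 : Lp ℝ 2 m) : X → ℝ)) :=
    rs_isRelaxed_coe_iff.2 (rs_base_subset_graph rs_base_zero)
  have h1 : rs_IsRelaxed m (fun _ => (0 : ℝ)) (fun _ => (0 : ℝ)) :=
    rs_relaxed_congr (Lp.coeFn_zero ℝ 2 m) (Lp.coeFn_zero ℝ 2 m) h0
  have h2 := rs_cheeger_le_of_relaxed h1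
  simpa using h2

/-- one inequality of `rs_cheeger_const_mul`. -/
theorem rs_cheeger_const_mul_le (c : ℝ) {f : X → ℝ} (h : cheegerEnergy m f < ∞) :
    cheegerEnergy m (fun x => c * f x) ≤ ENNReal.ofReal (c ^ 2) * cheegerEnergy m f := by
  have h1 := rs_cheeger_le_of_relaxed (rs_relaxed_const_mul c (rs_slope_isRelaxed h))
  have h2 : (∫ x, (|c| * rs_slope m f x) ^ 2 ∂m) / 2 = c ^ 2 * ((∫ x, rs_slope m f x ^ 2 ∂m) / 2) := by
    have : ∀ x, (|c| * rs_slope m f x) ^ 2 = c ^ 2 * rs_slope m f x ^ 2 := by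
      intro x
      rw [mul_pow, sq_abs]
    simp only [this]
    rw [integral_const_mul]
    ring
  rw [h2, ENNReal.ofReal_mul (sq_nonneg c), ← rs_cheeger_eq h] at h1
  exact h1

theorem rs_cheeger_const_mul (c : ℝ) {f : X → ℝ} (h : cheegerEnergy m f < ∞) :
    cheegerEnergy m (fun x => c * f x) = ENNReal.ofReal (c ^ 2) * cheegerEnergy m f := by
  refine le_antisymm (rs_cheeger_const_mul_le c h) ?_
  by_cases hc : c = 0
  · subst hc
    simp
  have hfin : cheegerEnergy m (fun x => c * f x) < ∞ :=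
    lt_of_le_of_lt (rs_cheeger_const_mul_le c h) (ENNReal.mul_lt_top ENNReal.ofReal_lt_top h)
  have h1 := rs_cheeger_const_mul_le c⁻¹ hfin
  have h2 : (fun x => c⁻¹ * (c * f x)) = f := by
    funext x
    rw [← mul_assoc, inv_mul_cancel₀ hc, one_mul]
  rw [h2] at h1
  calc ENNReal.ofReal (c ^ 2) * cheegerEnergy m f
      ≤ ENNReal.ofReal (c ^ 2) * (ENNReal.ofReal (c⁻¹ ^ 2) * cheegerEnergy m (fun x => c * f x)) := by
        gcongr
    _ = cheegerEnergy m (fun x => c * f x) := by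
        rw [← mul_assoc, ← ENNReal.ofReal_mul (sq_nonneg c), ← mul_pow, mul_inv_cancel₀ hc]
        simp

theorem rs_slope_const_mul (c : ℝ) {f : X → ℝ} (h : cheegerEnergy m f < ∞) :
    rs_slope m (fun x => c * f x) =ᵐ[m] fun x => |c| * rs_slope m f x := by
  have hrel := rs_relaxed_const_mul c (rs_slope_isRelaxed h)
  refine (rs_slope_eq_of_norm_le hrel (le_of_eq ?_)).symm
  have h1 := rs_cheeger_toReal m (fun x => c * f x)
  have h2 := rs_cheeger_toReal m f
  rw [rs_cheeger_const_mul c h, ENNReal.toReal_mul, ENNReal.toReal_ofReal (sq_nonneg c), h2] at h1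
  have h3 : ∀ x, (|c| * rs_slope m f x) ^ 2 = c ^ 2 * rs_slope m f x ^ 2 := by
    intro x
    rw [mul_pow, sq_abs]
  simp only [h3]
  rw [integral_const_mul]
  linarith

theorem rs_cheeger_add_lt_top {f g : X → ℝ} (hf : cheegerEnergy m f < ∞)
    (hg : cheegerEnergy m g < ∞) : cheegerEnergy m (fun x => f x + g x) < ∞ :=
  rs_cheeger_lt_top_iff.2 ⟨_, rs_relaxed_add (rs_slope_isRelaxed hf) (rs_slope_isRelaxed hg)⟩

theorem rs_cheeger_sub_lt_top {f g : X → ℝ} (hf : cheegerEnergy m f < ∞)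
    (hg : cheegerEnergy m g < ∞) : cheegerEnergy m (fun x => f x - g x) < ∞ :=
  rs_cheeger_lt_top_iff.2 ⟨_, rs_relaxed_sub (rs_slope_isRelaxed hf) (rs_slope_isRelaxed hg)⟩

theorem rs_cheeger_const_mul_lt_top (c : ℝ) {f : X → ℝ} (hf : cheegerEnergy m f < ∞) :
    cheegerEnergy m (fun x => c * f x) < ∞ :=
  rs_cheeger_lt_top_iff.2 ⟨_, rs_relaxed_const_mul c (rs_slope_isRelaxed hf)⟩

/-- convexity. -/
theorem rs_cheeger_convex {f g : X → ℝ} {a b : ℝ} (ha : 0 ≤ a) (hb : 0 ≤ b) (hab : a + b = 1) :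
    cheegerEnergy m (fun x => a * f x + b * g x) ≤
      ENNReal.ofReal a * cheegerEnergy m f + ENNReal.ofReal b * cheegerEnergy m g := by
  rcases ha.eq_or_lt with rfl | ha'
  · have hb1 : b = 1 := by linarith
    subst hb1
    simp
  rcases hb.eq_or_lt with rfl | hb'
  · have ha1 : a = 1 := by linarith
    subst ha1
    simp
  by_cases hf : cheegerEnergy m f < ∞
  swap
  · rw [not_lt, top_le_iff] at hf
    rw [hf, ENNReal.mul_top (by simpa using ha'), top_add]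
    exact le_top
  by_cases hg : cheegerEnergy m g < ∞
  swap
  · rw [not_lt, top_le_iff] at hg
    rw [hg, ENNReal.mul_top (by simpa using hb'), add_top]
    exact le_top
  have hrel := rs_relaxed_add (rs_relaxed_const_mul a (rs_slope_isRelaxed hf))
    (rs_relaxed_const_mul b (rs_slope_isRelaxed hg))
  have h1 := rs_cheeger_le_of_relaxed hrel
  have hif : Integrable (fun x => rs_slope m f x ^ 2) m := (rs_slope_memLp m f).integrable_sq
  have hig : Integrable (fun x => rs_slope m g x ^ 2) m := (rs_slope_memLp m g).integrable_sq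
  have hint : ∫ x, (|a| * rs_slope m f x + |b| * rs_slope m g x) ^ 2 ∂m ≤
      a * ∫ x, rs_slope m f x ^ 2 ∂m + b * ∫ x, rs_slope m g x ^ 2 ∂m := by
    rw [← integral_const_mul, ← integral_const_mul, ← integral_add (hif.const_mul a) (hig.const_mul b)]
    refine integral_mono_of_nonneg (Eventually.of_forall fun x => sq_nonneg _)
      ((hif.const_mul a).add (hig.const_mul b)) (Eventually.of_forall fun x => ?_)
    show (|a| * rs_slope m f x + |b| * rs_slope m g x) ^ 2 ≤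
      a * rs_slope m f x ^ 2 + b * rs_slope m g x ^ 2
    rw [abs_of_nonneg ha, abs_of_nonneg hb]
    have hb1 : b = 1 - a := by linarith
    subst hb1
    nlinarith [mul_nonneg (mul_nonneg ha hb) (sq_nonneg (rs_slope m f x - rs_slope m g x))]
  refine h1.trans ?_
  rw [rs_cheeger_eq hf, rs_cheeger_eq hg, ← ENNReal.ofReal_mul ha, ← ENNReal.ofReal_mul hb,
    ← ENNReal.ofReal_add (by positivity) (by positivity)]
  apply ENNReal.ofReal_le_ofReal
  linarith

/-- lower semicontinuity (closed sublevel sets: `lowerSemicontinuous_iff_isClosed_preimage`,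
`rs_hilb_limit` applied to `(u_n, rs_slopeLp m u_n)`). -/
theorem rs_ChL2_lsc : LowerSemicontinuous (ChL2 m) := by
  rw [lowerSemicontinuous_iff_isClosed_preimage]
  intro y
  refine IsSeqClosed.isClosed ?_
  intro us u hus hu
  simp only [mem_preimage, mem_Iic] at hus ⊢
  refine le_of_forall_gt_imp_ge_of_dense fun z hz => ?_
  rcases eq_or_ne z ∞ with rfl | hztop
  · exact le_top
  set c : ℝ := Real.sqrt (2 * z.toReal) with hc
  have hc0 : 0 ≤ c := Real.sqrt_nonneg _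
  have hc2 : c ^ 2 / 2 = z.toReal := by
    rw [hc, Real.sq_sqrt (by positivity)]; ring
  have hcz : ENNReal.ofReal (c ^ 2 / 2) = z := by rw [hc2, ENNReal.ofReal_toReal hztop]
  have hex : ∀ n, ∃ G, (us n, G) ∈ rs_graph m ∧ ‖G‖ ≤ c := fun n =>
    rs_exists_graph_of_ChL2_lt hc0 (by rw [hcz]; exact (hus n).trans_lt hz)
  choose Gs hGs hGc using hex
  obtain ⟨G, hG, hGn⟩ := rs_hilb_limit rs_graph_isClosed rs_graph_convex hGs hu
    (Eventually.of_forall hGc).frequently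
  refine (rs_ChL2_le_of_graph hG).trans ?_
  rw [← hcz]
  refine ENNReal.ofReal_le_ofReal ?_
  have := pow_le_pow_left₀ (norm_nonneg G) hGn 2
  linarith

/-- sequential form for plain functions. -/
theorem rs_cheeger_le_liminf {fs : ℕ → X → ℝ} {f : X → ℝ} (hf : MemLp f 2 m)
    (hl : rs_L2Lim m fs f) : cheegerEnergy m f ≤ liminf (fun n => cheegerEnergy m (fs n)) atTop := by
  classical
  set u : Lp ℝ 2 m := hf.toLp f with hu
  set gs : ℕ → X → ℝ := fun n => if MemLp (fs n) 2 m then fs n else f with hgs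
  have hgm : ∀ n, MemLp (gs n) 2 m := by
    intro n
    simp only [hgs]
    split_ifs with h
    · exact h
    · exact hf
  have hle : ∀ n, cheegerEnergy m (gs n) ≤ cheegerEnergy m (fs n) := by
    intro n
    simp only [hgs]
    split_ifs with h
    · exact le_rfl
    · have : cheegerEnergy m (fs n) = ∞ := by
        unfold cheegerEnergy
        rw [if_neg h]
      rw [this]; exact le_top
  have hgl : rs_L2Lim m gs f := by
    unfold rs_L2Lim at hl ⊢
    refine tendsto_of_tendsto_of_tendsto_of_le_of_le tendsto_const_nhds hl (fun _ => zero_le) ?_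
    intro n
    simp only [hgs]
    split_ifs with h
    · exact le_rfl
    · simp
  have hlim : Tendsto (fun n => (hgm n).toLp (gs n)) atTop (𝓝 u) := (rs_L2Lim_iff hgm hf).1 hgl
  have h1 : ChL2 m u ≤ liminf (fun n => ChL2 m ((hgm n).toLp (gs n))) atTop := by
    refine le_of_forall_lt_imp_le_of_dense fun y hy => ?_
    have := (rs_ChL2_lsc (m := m) u y hy)
    exact le_liminf_of_le (by isBoundedDefault) ((hlim.eventually this).mono fun n hn => hn.le)
  rw [rs_ChL2_toLp hf] at h1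
  refine h1.trans (liminf_le_liminf (Eventually.of_forall fun n => ?_))
  rw [rs_ChL2_toLp (hgm n)]
  exact hle n

/-- the energy of a Lipschitz function is bounded by the integral of its slope. -/
theorem rs_cheeger_le_of_lip {g : X → ℝ} (hg : GloballyLipschitz g) (hg2 : MemLp g 2 m) :
    cheegerEnergy m g ≤ (2 : ℝ≥0∞)⁻¹ * ∫⁻ x, (localSlope g x) ^ 2 ∂m := by
  unfold cheegerEnergy
  rw [if_pos hg2]
  refine sInf_le ⟨fun _ => g, fun _ => ⟨hg, hg2⟩, ?_, ?_⟩
  · simp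
  · simp

theorem rs_cheeger_lt_top_of_bddSupp (hm : FiniteOnBoundedSets m) {g : X → ℝ}
    (hg : GloballyLipschitz g) (hs : rs_BddSupp g) : cheegerEnergy m g < ∞ := by
  have hg2 : MemLp g 2 m := rs_memLp_of_bddSupp hm hg hs
  have hl2 : MemLp (rs_lip g) 2 m := rs_memLp_lip_of_bddSupp hm hg hs
  refine (rs_cheeger_le_of_lip hg hg2).trans_lt ?_
  refine ENNReal.mul_lt_top (by simp) ?_
  have h1 : ∫⁻ x, (localSlope g x) ^ 2 ∂m = ∫⁻ x, ‖rs_lip g x‖ₑ ^ (2 : ℝ) ∂m := by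
    refine lintegral_congr fun x => ?_
    rw [← rs_ofReal_lip hg x, Real.enorm_eq_ofReal (rs_lip_nonneg g x)]
    norm_cast
  rw [h1]
  have := lintegral_rpow_enorm_lt_top_of_eLpNorm_lt_top (p := 2) (by norm_num) (by norm_num) hl2.2
  simpa using this

end Claimed.Agent.R210.RS.Rep
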