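/-
Row 210, layer RS: strong approximation by Lipschitz functions (RS3).
Blueprint: `git show origin/helper875:docs/R210_RS.md`, section A.
-/
import Claimed.Agent.R210.RS.Rep

set_option autoImplicit false

open Claims.C0366 Claims.C0366.WeakHessian
open Claimed.Agent.R210.RS.Defs Claimed.Agent.R210.RS.Slope Claimed.Agent.R210.RS.Cut
  Claimed.Agent.R210.RS.Base Claimed.Agent.R210.RS.Hilb Claimed.Agent.R210.RS.Rep
open Set Filter MeasureTheory
open scoped ENNReal NNReal Topology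

namespace Claimed.Agent.R210.RS.Approx

variable {X : Type*} [MetricSpace X] [MeasurableSpace X] [BorelSpace X] {m : Measure X}

/-- norm dictionary for `toLp`. -/
theorem rs_norm_sq_toLp {G : X → ℝ} (hG : MemLp G 2 m) : ‖hG.toLp G‖ ^ 2 = ∫ x, G x ^ 2 ∂m := by
  rw [rs_norm_sq_eq]
  refine integral_congr_ae ?_
  filter_upwards [hG.coeFn_toLp] with x hx
  rw [hx]

/-- (A0) strong convergence criterion = `rs_hilb_strong` for `T = rs_graph m`, in plain functions. -/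
theorem rs_strong_of_norm {f : X → ℝ} (hf : cheegerEnergy m f < ∞) {gs Gs : ℕ → X → ℝ}
    (h : ∀ n, rs_IsRelaxed m (gs n) (Gs n)) (hl : rs_L2Lim m gs f)
    (hn : ∀ ε > 0, ∀ᶠ n in atTop, ∫ x, Gs n x ^ 2 ∂m ≤ ∫ x, rs_slope m f x ^ 2 ∂m + ε) :
    rs_L2Lim m Gs (rs_slope m f) := by
  have hf2 : MemLp f 2 m := rs_memLp_of_cheeger hf
  have hgs : ∀ n, MemLp (gs n) 2 m := fun n => (h n).1
  have hGs : ∀ n, MemLp (Gs n) 2 m := fun n => (h n).2.1
  have hS : MemLp (rs_slope m f) 2 m := rs_slope_memLp m f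
  have hCh : ChL2 m (hf2.toLp f) < ∞ := by rw [rs_ChL2_toLp hf2]; exact hf
  have hmin := rs_isMin_slopeLp hCh
  have hSeq : hS.toLp (rs_slope m f) = rs_slopeLp m (hf2.toLp f) :=
    Lp.ext (hS.coeFn_toLp.trans (rs_slope_ae_eq hf2))
  have hmem : ∀ n, ((hgs n).toLp (gs n), (hGs n).toLp (Gs n)) ∈ rs_graph m := by
    intro n
    obtain ⟨_, _, h3⟩ := rs_isRelaxed_iff.1 (h n)
    exact h3
  rw [rs_L2Lim_iff hGs hS, hSeq]
  refine rs_hilb_strong rs_graph_isClosed rs_graph_convex hmin.1 hmin.2 hmem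
    ((rs_L2Lim_iff hgs hf2).1 hl) ?_
  intro ε hε
  filter_upwards [hn (ε ^ 2) (by positivity)] with n hn'
  rw [← rs_norm_sq_toLp (hGs n), ← rs_norm_sq_toLp hS, hSeq] at hn'
  have h0 := norm_nonneg (rs_slopeLp m (hf2.toLp f))
  refine abs_le_of_sq_le_sq' ?_ (by positivity) |>.2
  nlinarith

/-- the slope of an admissible function is itself admissible, with smaller norm. -/
theorem rs_adm_lip {g G : X → ℝ} (h : rs_Adm m g G) :
    rs_Adm m g (rs_lip g) ∧ ∫ x, rs_lip g x ^ 2 ∂m ≤ ∫ x, G x ^ 2 ∂m := by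
  obtain ⟨hg, hg2, hG, hle⟩ := h
  have hcont : Continuous g := by
    obtain ⟨L, hL⟩ := hg
    exact hL.continuous
  have hmeas : Measurable (rs_lip g) := rs_lip_measurable hcont
  have hle' : ∀ᵐ x ∂m, rs_lip g x ≤ |G x| := by
    filter_upwards [hle] with x hx
    have h1 : rs_lip g x ≤ (ENNReal.ofReal (G x)).toReal :=
      ENNReal.toReal_mono ENNReal.ofReal_ne_top hx.2
    rw [ENNReal.toReal_ofReal'] at h1
    exact h1.trans (max_le (le_abs_self _) (abs_nonneg _))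
  have hlip2 : MemLp (rs_lip g) 2 m := by
    refine hG.mono hmeas.aestronglyMeasurable ?_
    filter_upwards [hle'] with x hx
    rw [Real.norm_eq_abs, Real.norm_eq_abs, abs_of_nonneg (rs_lip_nonneg g x)]
    exact hx
  refine ⟨⟨hg, hg2, hlip2, ?_⟩, ?_⟩
  · exact Eventually.of_forall fun x => ⟨rs_lip_nonneg g x, (rs_ofReal_lip hg x).ge⟩
  · refine integral_mono_ae hlip2.integrable_sq hG.integrable_sq ?_
    filter_upwards [hle'] with x hx
    have h0 := rs_lip_nonneg g x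
    calc rs_lip g x ^ 2 ≤ |G x| ^ 2 := pow_le_pow_left₀ h0 hx 2
      _ = G x ^ 2 := sq_abs _

/-- `L²` convergence implies convergence of `∫ (·)²`. -/
theorem rs_L2Lim_integral_sq {Gs : ℕ → X → ℝ} {G : X → ℝ} (hGs : ∀ n, MemLp (Gs n) 2 m)
    (hG : MemLp G 2 m) (hl : rs_L2Lim m Gs G) :
    Tendsto (fun n => ∫ x, Gs n x ^ 2 ∂m) atTop (𝓝 (∫ x, G x ^ 2 ∂m)) := by
  have h1 := ((rs_L2Lim_iff hGs hG).1 hl).norm.pow 2
  simp only [rs_norm_sq_toLp] at h1
  exact h1

/-- (A1) master version of RS3: every sequence of admissible pairs converging to `(f, rs_slope m f)`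
has slopes converging strongly to `rs_slope m f`. -/
theorem rs_lip_L2Lim {f : X → ℝ} (hf : cheegerEnergy m f < ∞) {gs Gs : ℕ → X → ℝ}
    (h : ∀ n, rs_Adm m (gs n) (Gs n)) (hl : rs_L2Lim m gs f) (hGl : rs_L2Lim m Gs (rs_slope m f)) :
    rs_L2Lim m (fun n => rs_lip (gs n)) (rs_slope m f) := by
  refine rs_strong_of_norm hf (fun n => rs_relaxed_of_adm (rs_adm_lip (h n)).1) hl (fun ε hε => ?_)
  have ht := rs_L2Lim_integral_sq (fun n => (h n).2.2.1) (rs_slope_memLp m f) hGl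
  have hev : ∀ᶠ n in atTop, ∫ x, Gs n x ^ 2 ∂m < ∫ x, rs_slope m f x ^ 2 ∂m + ε :=
    ht.eventually_lt_const (by linarith)
  filter_upwards [hev] with n hn
  exact (rs_adm_lip (h n)).2.trans hn.le

/-- (RS3) -/
theorem rs_approx {f : X → ℝ} (hf : cheegerEnergy m f < ∞) :
    ∃ gs : ℕ → X → ℝ, (∀ n, rs_Adm m (gs n) (rs_lip (gs n))) ∧ rs_L2Lim m gs f ∧
      rs_L2Lim m (fun n => rs_lip (gs n)) (rs_slope m f) := by
  obtain ⟨_, _, gs, Gs, h, hl, hGl⟩ := rs_slope_isRelaxed hf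
  exact ⟨gs, fun n => (rs_adm_lip (h n)).1, hl, rs_lip_L2Lim hf h hl hGl⟩

/-- (RS3, bounded supports) -/
theorem rs_approx_bddSupp {f : X → ℝ} (hf : cheegerEnergy m f < ∞) :
    ∃ gs : ℕ → X → ℝ, (∀ n, rs_Adm m (gs n) (rs_lip (gs n)) ∧ rs_BddSupp (gs n)) ∧
      rs_L2Lim m gs f ∧ rs_L2Lim m (fun n => rs_lip (gs n)) (rs_slope m f) := by
  obtain ⟨gs, Gs, h, hl, hGl⟩ := rs_relaxed_seq_bddSupp (rs_slope_isRelaxed hf)
  exact ⟨gs, fun n => ⟨(rs_adm_lip (h n).1).1, (h n).2⟩, hl, rs_lip_L2Lim hf (fun n => (h n).1) hl hGl⟩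

/-- the clamp. -/
theorem rs_clamp_lipschitz (B : ℝ) : LipschitzWith 1 (fun r : ℝ => max (-B) (min B r)) := by
  have h1 : LipschitzWith 1 (fun r : ℝ => min B r) := LipschitzWith.id.const_min B
  exact h1.const_max (-B)

theorem rs_clamp_abs_le {B : ℝ} (hB0 : 0 ≤ B) (r : ℝ) : |max (-B) (min B r)| ≤ B := by
  rw [abs_le]
  exact ⟨le_max_left _ _, max_le (by linarith) (min_le_left _ _)⟩

theorem rs_clamp_abs_le_abs {B : ℝ} (hB0 : 0 ≤ B) (r : ℝ) : |max (-B) (min B r)| ≤ |r| := by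
  have h := (rs_clamp_lipschitz B).dist_le_mul r 0
  have h0 : max (-B) (min B (0 : ℝ)) = 0 := by
    rw [min_eq_right hB0, max_eq_right (by linarith)]
  simp only [h0, Real.dist_eq, sub_zero, NNReal.coe_one, one_mul] at h
  exact h

theorem rs_clamp_eq {B r : ℝ} (h : |r| ≤ B) : max (-B) (min B r) = r := by
  rw [abs_le] at h
  rw [min_eq_right h.2, max_eq_right h.1]

/-- (RS3, bounded supports and sup bound).  Replace `gs n` of `rs_approx_bddSupp` by
`max (-B) (min B (gs n))`: the clamp is `1`-Lipschitz, fixes `f` a.e., does not increase slopes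
(`rs_ls_comp_le_of_lipschitz`) nor supports (`0 ≤ B`); conclude by `rs_strong_of_norm`. -/
theorem rs_approx_bdd {f : X → ℝ} (hf : cheegerEnergy m f < ∞) {B : ℝ}
    (hB : ∀ᵐ x ∂m, |f x| ≤ B) (hB0 : 0 ≤ B) :
    ∃ gs : ℕ → X → ℝ, (∀ n, rs_Adm m (gs n) (rs_lip (gs n)) ∧ rs_BddSupp (gs n) ∧
        ∀ x, |gs n x| ≤ B) ∧
      rs_L2Lim m gs f ∧ rs_L2Lim m (fun n => rs_lip (gs n)) (rs_slope m f) := by
  obtain ⟨gs, h1, hl, hGl⟩ := rs_approx_bddSupp hf
  set cl : ℝ → ℝ := fun r => max (-B) (min B r) with hcl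
  have hclL : LipschitzWith 1 cl := rs_clamp_lipschitz B
  set hs : ℕ → X → ℝ := fun n x => cl (gs n x) with hhs
  have hlipG : ∀ n, GloballyLipschitz (hs n) := by
    intro n
    obtain ⟨L, hL⟩ := (h1 n).1.1
    exact ⟨1 * L, hclL.comp hL⟩
  have hcont : ∀ n, Continuous (hs n) := by
    intro n
    obtain ⟨L, hL⟩ := hlipG n
    exact hL.continuous
  have hslope : ∀ n x, rs_lip (hs n) x ≤ rs_lip (gs n) x := by
    intro n x
    have h := rs_ls_comp_le_of_lipschitz hclL (gs n) x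
    rw [ENNReal.coe_one, one_mul] at h
    exact ENNReal.toReal_mono (rs_ls_lt_top (h1 n).1.1 x).ne h
  have hmem : ∀ n, MemLp (hs n) 2 m := by
    intro n
    refine (h1 n).1.2.1.mono (hcont n).aestronglyMeasurable (Eventually.of_forall fun x => ?_)
    rw [Real.norm_eq_abs, Real.norm_eq_abs]
    exact rs_clamp_abs_le_abs hB0 _
  have hmemS : ∀ n, MemLp (rs_lip (hs n)) 2 m := by
    intro n
    refine (h1 n).1.2.2.1.mono (rs_lip_measurable (hcont n)).aestronglyMeasurable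
      (Eventually.of_forall fun x => ?_)
    rw [Real.norm_eq_abs, Real.norm_eq_abs, abs_of_nonneg (rs_lip_nonneg _ _),
      abs_of_nonneg (rs_lip_nonneg _ _)]
    exact hslope n x
  have hadm : ∀ n, rs_Adm m (hs n) (rs_lip (hs n)) := fun n =>
    ⟨hlipG n, hmem n, hmemS n,
      Eventually.of_forall fun x => ⟨rs_lip_nonneg _ x, (rs_ofReal_lip (hlipG n) x).ge⟩⟩
  have hlim : rs_L2Lim m hs f := by
    unfold rs_L2Lim at hl ⊢
    refine tendsto_of_tendsto_of_tendsto_of_le_of_le tendsto_const_nhds hl (fun _ => bot_le) (fun n => ?_)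
    refine eLpNorm_mono_ae ?_
    filter_upwards [hB] with x hx
    have h := hclL.dist_le_mul (gs n x) (f x)
    rw [show cl (f x) = f x from rs_clamp_eq hx] at h
    simpa [Real.dist_eq, Real.norm_eq_abs] using h
  refine ⟨hs, fun n => ⟨hadm n, ?_, fun x => rs_clamp_abs_le hB0 _⟩, hlim, ?_⟩
  · refine (h1 n).2.subset ?_
    intro x hx
    rw [Function.mem_support] at hx ⊢
    intro h0
    apply hx
    have h2 : |hs n x| ≤ |gs n x| := rs_clamp_abs_le_abs hB0 (gs n x)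
    rw [h0, abs_zero] at h2
    exact abs_eq_zero.1 (le_antisymm h2 (abs_nonneg _))
  · refine rs_strong_of_norm hf (fun n => rs_relaxed_of_adm (hadm n)) hlim ?_
    intro ε hε
    have ht := rs_L2Lim_integral_sq (fun n => (h1 n).1.2.2.1) (rs_slope_memLp m f) hGl
    have hev : ∀ᶠ n in atTop, ∫ x, rs_lip (gs n) x ^ 2 ∂m < ∫ x, rs_slope m f x ^ 2 ∂m + ε :=
      ht.eventually (gt_mem_nhds (by linarith))
    filter_upwards [hev] with n hn
    refine le_trans ?_ hn.le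
    refine integral_mono (hmemS n).integrable_sq ((h1 n).1.2.2.1).integrable_sq (fun x => ?_)
    exact pow_le_pow_left₀ (rs_lip_nonneg _ _) (hslope n x) 2

end Claimed.Agent.R210.RS.Approx
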