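/-
Row 210, layer RS: chain rule and Leibniz inequalities for relaxed slopes (RS5).
Blueprint: `git show origin/helper875:docs/R210_RS.md`, section K.
-/
import Claimed.Agent.R210.RS.Approx

set_option autoImplicit false

open Claims.C0366 Claims.C0366.WeakHessian
open Claimed.Agent.R210.RS.Defs Claimed.Agent.R210.RS.Slope Claimed.Agent.R210.RS.Cut
  Claimed.Agent.R210.RS.Base Claimed.Agent.R210.RS.Rep Claimed.Agent.R210.RS.Approx
open Set Filter MeasureTheory
open scoped ENNReal NNReal Topology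

namespace Claimed.Agent.R210.RS.Calc

variable {X : Type*} [MetricSpace X] [MeasurableSpace X] [BorelSpace X] {m : Measure X}

/-- (K0) a subsequence converges a.e. (`MeasureTheory.tendstoInMeasure_of_tendsto_eLpNorm`,
`TendstoInMeasure.exists_seq_tendsto_ae`). -/
theorem rs_L2Lim_subseq_ae {gs : ℕ → X → ℝ} {f : X → ℝ} (hgs : ∀ n, MemLp (gs n) 2 m)
    (hf : MemLp f 2 m) (hl : rs_L2Lim m gs f) :
    ∃ φ : ℕ → ℕ, StrictMono φ ∧ ∀ᵐ x ∂m, Tendsto (fun n => gs (φ n) x) atTop (𝓝 (f x)) := by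
  have h := tendstoInMeasure_of_tendsto_eLpNorm (p := 2) (by norm_num)
    (fun n => (hgs n).aestronglyMeasurable) hf.aestronglyMeasurable (l := atTop) hl
  exact h.exists_seq_tendsto_ae

/-- dominated convergence in `L²`: `b_n` uniformly bounded, measurable, `b_n → 0` a.e. imply `b_n G → 0` in `L²`. -/
theorem rs_L2Lim_mul_aux {bs : ℕ → X → ℝ} {G : X → ℝ} {M : ℝ}
    (hbs : ∀ n, AEStronglyMeasurable (bs n) m) (hM : ∀ n, ∀ᵐ x ∂m, |bs n x| ≤ M)
    (hae : ∀ᵐ x ∂m, Tendsto (fun n => bs n x) atTop (𝓝 0)) (hG : MemLp G 2 m) :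
    Tendsto (fun n => eLpNorm (fun x => bs n x * G x) 2 m) atTop (𝓝 0) := by
  have h2 : (2 : ℝ≥0∞) ≠ 0 := by norm_num
  have h2' : (2 : ℝ≥0∞) ≠ ∞ := by norm_num
  have hfin : ∫⁻ x, ‖G x‖ₑ ^ (2 : ℝ) ∂m < ∞ := by
    have := lintegral_rpow_enorm_lt_top_of_eLpNorm_lt_top h2 h2' hG.2
    simpa using this
  have key : Tendsto (fun n => ∫⁻ x, ‖bs n x * G x‖ₑ ^ (2 : ℝ) ∂m) atTop
      (𝓝 (∫⁻ _, (0 : ℝ≥0∞) ∂m)) := by
    refine tendsto_lintegral_of_dominated_convergence'
      (fun x => ENNReal.ofReal M ^ (2 : ℝ) * ‖G x‖ₑ ^ (2 : ℝ)) ?_ ?_ ?_ ?_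
    · intro n
      exact (((hbs n).mul hG.aestronglyMeasurable).enorm).pow_const _
    · intro n
      filter_upwards [hM n] with x hx
      rw [enorm_mul, ENNReal.mul_rpow_of_nonneg _ _ (by norm_num : (0 : ℝ) ≤ 2)]
      gcongr
      rw [Real.enorm_eq_ofReal_abs]
      exact ENNReal.ofReal_le_ofReal hx
    · rw [lintegral_const_mul' _ _ (ENNReal.rpow_ne_top_of_nonneg (by norm_num) ENNReal.ofReal_ne_top)]
      exact ENNReal.mul_ne_top (ENNReal.rpow_ne_top_of_nonneg (by norm_num) ENNReal.ofReal_ne_top)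
        hfin.ne
    · filter_upwards [hae] with x hx
      have h1 : Tendsto (fun n => bs n x * G x) atTop (𝓝 (0 * G x)) := hx.mul_const _
      rw [zero_mul] at h1
      have h3 : Tendsto (fun n => ‖bs n x * G x‖ₑ) atTop (𝓝 ‖(0 : ℝ)‖ₑ) :=
        (continuous_enorm.tendsto _).comp h1
      rw [enorm_zero] at h3
      have h4 := (ENNReal.continuous_rpow_const (y := (2 : ℝ))).tendsto 0 |>.comp h3
      rw [ENNReal.zero_rpow_of_pos (by norm_num)] at h4
      exact h4
  rw [lintegral_zero] at key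
  have h5 := (ENNReal.continuous_rpow_const (y := (1 / 2 : ℝ))).tendsto 0 |>.comp key
  rw [ENNReal.zero_rpow_of_pos (by norm_num)] at h5
  refine h5.congr fun n => ?_
  rw [eLpNorm_eq_lintegral_rpow_enorm_toReal h2 h2']
  simp

/-- (K0') products: `a_n` uniformly bounded, measurable, `a_n → a` a.e., `G_n → G` in `L²` imply `a_n G_n → a G` in `L²`
(`‖a_n G_n - a G‖ ≤ M ‖G_n - G‖ + ‖(a_n - a) G‖`, dominated convergence for the last term). -/
theorem rs_L2Lim_mul {as Gs : ℕ → X → ℝ} {a G : X → ℝ} {M : ℝ}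
    (has : ∀ n, AEStronglyMeasurable (as n) m) (hM : ∀ n x, |as n x| ≤ M)
    (hae : ∀ᵐ x ∂m, Tendsto (fun n => as n x) atTop (𝓝 (a x)))
    (hGs : ∀ n, MemLp (Gs n) 2 m) (hG : MemLp G 2 m) (hl : rs_L2Lim m Gs G) :
    rs_L2Lim m (fun n x => as n x * Gs n x) (fun x => a x * G x) := by
  have ha : AEStronglyMeasurable a m := aestronglyMeasurable_of_tendsto_ae atTop has hae
  have haM : ∀ᵐ x ∂m, |a x| ≤ M := by
    filter_upwards [hae] with x hx
    exact le_of_tendsto hx.abs (Eventually.of_forall fun n => hM n x)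
  have h1 : Tendsto (fun n => eLpNorm (fun x => (as n x - a x) * G x) 2 m) atTop (𝓝 0) := by
    refine rs_L2Lim_mul_aux (M := M + M) (fun n => (has n).sub ha) (fun n => ?_) ?_ hG
    · filter_upwards [haM] with x hx
      exact (abs_sub _ _).trans (add_le_add (hM n x) hx)
    · filter_upwards [hae] with x hx
      have := hx.sub_const (a x)
      rwa [sub_self] at this
  have h2 : Tendsto (fun n => ENNReal.ofReal M * eLpNorm (fun x => Gs n x - G x) 2 m) atTop (𝓝 0) := by
    have := ENNReal.Tendsto.const_mul (a := ENNReal.ofReal M) hl (Or.inr ENNReal.ofReal_ne_top)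
    rwa [mul_zero] at this
  have h3 := h2.add h1
  rw [add_zero] at h3
  refine tendsto_of_tendsto_of_tendsto_of_le_of_le tendsto_const_nhds h3 (fun _ => zero_le) fun n => ?_
  have e : (fun x => as n x * Gs n x - a x * G x) =
      (fun x => as n x * (Gs n x - G x)) + fun x => (as n x - a x) * G x := by
    funext x
    simp only [Pi.add_apply]
    ring
  show eLpNorm (fun x => as n x * Gs n x - a x * G x) 2 m ≤ _
  rw [e]
  refine (eLpNorm_add_le ((has n).mul ((hGs n).aestronglyMeasurable.sub hG.aestronglyMeasurable))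
    (((has n).sub ha).mul hG.aestronglyMeasurable) (by norm_num)).trans ?_
  refine add_le_add ?_ le_rfl
  refine eLpNorm_le_mul_eLpNorm_of_ae_le_mul (Eventually.of_forall fun x => ?_) 2
  show ‖as n x * (Gs n x - G x)‖ ≤ M * ‖Gs n x - G x‖
  rw [norm_mul, Real.norm_eq_abs]
  exact mul_le_mul_of_nonneg_right (hM n x) (norm_nonneg _)

/-- subsequences of `L²`-convergent sequences converge. -/
theorem rs_L2Lim_comp_strictMono {gs : ℕ → X → ℝ} {f : X → ℝ} (hl : rs_L2Lim m gs f)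
    {φ : ℕ → ℕ} (hφ : StrictMono φ) : rs_L2Lim m (fun n => gs (φ n)) f :=
  Tendsto.comp (f := φ) (g := fun n => eLpNorm (fun x => gs n x - f x) 2 m) hl hφ.tendsto_atTop

/-- a `C¹` function with bounded derivative is Lipschitz. -/
theorem rs_lipschitz_of_deriv_le {ψ : ℝ → ℝ} (hψ : ContDiff ℝ 1 ψ) {M : ℝ}
    (hM : ∀ t, |deriv ψ t| ≤ M) : LipschitzWith M.toNNReal ψ := by
  have hM0 : 0 ≤ M := (abs_nonneg _).trans (hM 0)
  refine lipschitzWith_of_nnnorm_deriv_le (hψ.differentiable (by norm_num)) (fun t => ?_)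
  rw [← NNReal.coe_le_coe, coe_nnnorm, Real.norm_eq_abs, Real.coe_toNNReal _ hM0]
  exact hM t

/-- (RS5a) chain rule inequality, for an arbitrary relaxed slope `G`.
`(g_n, G_n) → (f, G)` admissible, w.l.o.g. `g_n → f` a.e.; `(ψ∘g_n, |ψ'(g_n)| G_n)` is admissible
(`rs_ls_comp_le`; `|ψ t| ≤ M |t|`), `ψ∘g_n → ψ∘f` in `L²` (`ψ` is `M`-Lipschitz), `|ψ'(g_n)| G_n → |ψ'(f)| G` by `rs_L2Lim_mul`. -/
theorem rs_relaxed_comp {ψ : ℝ → ℝ} (hψ : ContDiff ℝ 1 ψ) {M : ℝ} (hM : ∀ t, |deriv ψ t| ≤ M)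
    (h0 : ψ 0 = 0) {f G : X → ℝ} (h : rs_IsRelaxed m f G) :
    rs_IsRelaxed m (fun x => ψ (f x)) (fun x => |deriv ψ (f x)| * G x) := by
  obtain ⟨hf, hG, gs, Gs, hadm, hgl, hGl⟩ := h
  have hM0 : 0 ≤ M := (abs_nonneg _).trans (hM 0)
  have hLip : LipschitzWith M.toNNReal ψ := rs_lipschitz_of_deriv_le hψ hM
  have hψc : Continuous ψ := hψ.continuous
  have hdc : Continuous (deriv ψ) := hψ.continuous_deriv (by norm_num)
  have hdiff : Differentiable ℝ ψ := hψ.differentiable (by norm_num)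
  have hbd : ∀ s t, |ψ s - ψ t| ≤ M * |s - t| := by
    intro s t
    have := hLip.dist_le_mul s t
    rwa [Real.dist_eq, Real.dist_eq, Real.coe_toNNReal _ hM0] at this
  have hbd0 : ∀ t, |ψ t| ≤ M * |t| := by
    intro t
    have := hbd t 0
    simpa [h0] using this
  -- memLp of compositions
  have hcomp : ∀ {u : X → ℝ}, MemLp u 2 m → MemLp (fun x => ψ (u x)) 2 m := by
    intro u hu
    refine MemLp.of_le_mul (c := M) hu (hψc.comp_aestronglyMeasurable hu.1) ?_
    exact Eventually.of_forall (fun x => by simpa [Real.norm_eq_abs] using hbd0 (u x))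
  have hmul : ∀ {u U : X → ℝ}, MemLp u 2 m → MemLp U 2 m →
      MemLp (fun x => |deriv ψ (u x)| * U x) 2 m := by
    intro u U hu hU
    refine MemLp.of_le_mul (c := M) hU ?_ ?_
    · exact ((continuous_abs.comp hdc).comp_aestronglyMeasurable hu.1).mul hU.1
    · refine Eventually.of_forall (fun x => ?_)
      rw [norm_mul, Real.norm_eq_abs, abs_abs]
      exact mul_le_mul_of_nonneg_right (hM _) (norm_nonneg _)
  obtain ⟨φ, hφ, hae⟩ := rs_L2Lim_subseq_ae (fun n => (hadm n).2.1) hf hgl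
  refine ⟨hcomp hf, hmul hf hG, fun n x => ψ (gs (φ n) x),
    fun n x => |deriv ψ (gs (φ n) x)| * Gs (φ n) x, ?_, ?_, ?_⟩
  · intro n
    obtain ⟨⟨L, hL⟩, hg2, hG2, hsl⟩ := hadm (φ n)
    refine ⟨⟨M.toNNReal * L, hLip.comp hL⟩, hcomp hg2, hmul hg2 hG2, ?_⟩
    filter_upwards [hsl] with x hx0
    obtain ⟨hxn, hx⟩ := hx0
    refine ⟨mul_nonneg (abs_nonneg _) hxn, ?_⟩
    have hfin : localSlope (gs (φ n)) x < ∞ := rs_ls_lt_top ⟨L, hL⟩ x
    calc localSlope (fun x => ψ (gs (φ n) x)) x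
        ≤ ENNReal.ofReal |deriv ψ (gs (φ n) x)| * localSlope (gs (φ n)) x :=
          rs_ls_comp_le (hdiff _) hfin
      _ ≤ ENNReal.ofReal |deriv ψ (gs (φ n) x)| * ENNReal.ofReal (Gs (φ n) x) := by gcongr
      _ = ENNReal.ofReal (|deriv ψ (gs (φ n) x)| * Gs (φ n) x) :=
          (ENNReal.ofReal_mul (abs_nonneg _)).symm
  · -- `ψ ∘ g_n → ψ ∘ f`
    have hsub := rs_L2Lim_comp_strictMono hgl hφ
    have hle : ∀ n, eLpNorm (fun x => ψ (gs (φ n) x) - ψ (f x)) 2 m ≤
        ENNReal.ofReal M * eLpNorm (fun x => gs (φ n) x - f x) 2 m := by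
      intro n
      refine eLpNorm_le_mul_eLpNorm_of_ae_le_mul (Eventually.of_forall (fun x => ?_)) 2
      simpa [Real.norm_eq_abs] using hbd (gs (φ n) x) (f x)
    have hlim : Tendsto (fun n => ENNReal.ofReal M * eLpNorm (fun x => gs (φ n) x - f x) 2 m)
        atTop (𝓝 0) := by
      have := ENNReal.Tendsto.const_mul (a := ENNReal.ofReal M) hsub
        (Or.inr ENNReal.ofReal_ne_top)
      simpa using this
    exact tendsto_of_tendsto_of_tendsto_of_le_of_le tendsto_const_nhds hlim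
      (fun _ => zero_le) hle
  · refine rs_L2Lim_mul (M := M) (fun n => ?_) (fun n x => ?_) ?_ (fun n => (hadm (φ n)).2.2.1) hG
      (rs_L2Lim_comp_strictMono hGl hφ)
    · exact (continuous_abs.comp hdc).comp_aestronglyMeasurable (hadm (φ n)).2.1.1
    · rw [abs_abs]; exact hM _
    · filter_upwards [hae] with x hx
      exact ((continuous_abs.comp hdc).tendsto (f x)).comp hx

/-- (RS5b) -/
theorem rs_relaxed_comp_lip {ψ : ℝ → ℝ} (hψ : LipschitzWith 1 ψ) (h0 : ψ 0 = 0) {f G : X → ℝ}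
    (h : rs_IsRelaxed m f G) : rs_IsRelaxed m (fun x => ψ (f x)) G := by
  obtain ⟨hf, hG, gs, Gs, hadm, hl1, hl2⟩ := h
  have hle : ∀ a b : ℝ, |ψ a - ψ b| ≤ |a - b| := by
    intro a b
    have := hψ.dist_le_mul a b
    simpa [Real.dist_eq] using this
  have hle0 : ∀ a : ℝ, |ψ a| ≤ |a| := by
    intro a
    have := hle a 0
    simpa [h0] using this
  have hmem : ∀ u : X → ℝ, MemLp u 2 m → MemLp (fun x => ψ (u x)) 2 m := by
    intro u hu
    refine hu.mono (hψ.continuous.comp_aestronglyMeasurable hu.aestronglyMeasurable)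
      (Eventually.of_forall fun x => ?_)
    rw [Real.norm_eq_abs, Real.norm_eq_abs]
    exact hle0 _
  refine ⟨hmem f hf, hG, fun n x => ψ (gs n x), Gs, fun n => ?_, ?_, hl2⟩
  · obtain ⟨⟨L, hL⟩, h2, h3, h4⟩ := hadm n
    refine ⟨⟨1 * L, hψ.comp hL⟩, hmem _ h2, h3, ?_⟩
    filter_upwards [h4] with x hx
    have := rs_ls_comp_le_of_lipschitz hψ (gs n) x
    simp only [ENNReal.coe_one, one_mul] at this
    exact ⟨hx.1, this.trans hx.2⟩
  · refine tendsto_of_tendsto_of_tendsto_of_le_of_le tendsto_const_nhds hl1 (fun _ => zero_le) fun n => ?_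
    refine eLpNorm_mono fun x => ?_
    rw [Real.norm_eq_abs, Real.norm_eq_abs]
    exact hle _ _

theorem rs_cheeger_comp_le {ψ : ℝ → ℝ} (hψ : LipschitzWith 1 ψ) (h0 : ψ 0 = 0) (f : X → ℝ) :
    cheegerEnergy m (fun x => ψ (f x)) ≤ cheegerEnergy m f := by
  rcases eq_or_lt_of_le (le_top : cheegerEnergy m f ≤ ∞) with h | h
  · rw [h]
    exact le_top
  · have h1 := rs_relaxed_comp_lip hψ h0 (rs_slope_isRelaxed h)
    rw [rs_cheeger_eq h]
    exact rs_cheeger_le_of_relaxed h1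

/-- `L²` convergence from a pointwise bound by two `L²` convergent sequences. -/
theorem rs_L2Lim_of_le_two {us as bs : ℕ → X → ℝ} {u a b : X → ℝ} {B L : ℝ} (hB : 0 ≤ B) (hL : 0 ≤ L)
    (has : ∀ n, AEStronglyMeasurable (as n) m) (ha : AEStronglyMeasurable a m)
    (hbs : ∀ n, AEStronglyMeasurable (bs n) m) (hb : AEStronglyMeasurable b m)
    (hle : ∀ n x, |us n x - u x| ≤ B * |as n x - a x| + L * |bs n x - b x|)
    (hla : rs_L2Lim m as a) (hlb : rs_L2Lim m bs b) : rs_L2Lim m us u := by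
  have hlim : Tendsto (fun n => ENNReal.ofReal B * eLpNorm (fun x => as n x - a x) 2 m
      + ENNReal.ofReal L * eLpNorm (fun x => bs n x - b x) 2 m) atTop (𝓝 0) := by
    have h1 := ENNReal.Tendsto.const_mul (a := ENNReal.ofReal B) hla (Or.inr ENNReal.ofReal_ne_top)
    have h2 := ENNReal.Tendsto.const_mul (a := ENNReal.ofReal L) hlb (Or.inr ENNReal.ofReal_ne_top)
    have h3 := h1.add h2
    simpa using h3
  refine tendsto_of_tendsto_of_tendsto_of_le_of_le tendsto_const_nhds hlim (fun _ => zero_le) fun n => ?_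
  have m1 : AEStronglyMeasurable (fun x => B * |as n x - a x|) m :=
    (((has n).sub ha).norm).const_mul B
  have m2 : AEStronglyMeasurable (fun x => L * |bs n x - b x|) m :=
    (((hbs n).sub hb).norm).const_mul L
  calc eLpNorm (fun x => us n x - u x) 2 m
      ≤ eLpNorm (fun x => B * |as n x - a x| + L * |bs n x - b x|) 2 m := by
        refine eLpNorm_mono fun x => ?_
        rw [Real.norm_eq_abs]
        exact (hle n x).trans (le_abs_self _)
    _ ≤ eLpNorm (fun x => B * |as n x - a x|) 2 m + eLpNorm (fun x => L * |bs n x - b x|) 2 m :=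
        eLpNorm_add_le m1 m2 (by norm_num)
    _ ≤ ENNReal.ofReal B * eLpNorm (fun x => as n x - a x) 2 m
        + ENNReal.ofReal L * eLpNorm (fun x => bs n x - b x) 2 m := by
        refine add_le_add ?_ ?_
        · refine eLpNorm_le_mul_eLpNorm_of_ae_le_mul (Eventually.of_forall fun x => ?_) 2
          rw [Real.norm_eq_abs, Real.norm_eq_abs, abs_mul, abs_abs, abs_of_nonneg hB]
        · refine eLpNorm_le_mul_eLpNorm_of_ae_le_mul (Eventually.of_forall fun x => ?_) 2
          rw [Real.norm_eq_abs, Real.norm_eq_abs, abs_mul, abs_abs, abs_of_nonneg hL]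

/-- (RS5c) Leibniz inequality, for an arbitrary relaxed slope `G` of `f`; `g` bounded Lipschitz.
Use approximating pairs with bounded supports (`rs_relaxed_seq_bddSupp`), so that `g_n g` is Lipschitz
(`rs_lip_mul`, `rs_bdd_of_bddSupp`); `rs_ls_mul_le`. -/
theorem rs_relaxed_mul {g : X → ℝ} (hg : GloballyLipschitz g) (hgb : BoundedFunction g)
    {f G : X → ℝ} (h : rs_IsRelaxed m f G) :
    rs_IsRelaxed m (fun x => f x * g x) (fun x => |g x| * G x + |f x| * rs_lip g x) := by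
  have hf := h.1
  have hG := h.2.1
  have hGnn := rs_relaxed_nonneg h
  obtain ⟨gs, Gs, hadm, hl1, hl2⟩ := rs_relaxed_seq_bddSupp h
  obtain ⟨B, hB⟩ := hgb
  obtain ⟨L, hL⟩ := hg
  have hB' : ∀ x, |g x| ≤ |B| := fun x => (hB x).trans (le_abs_self B)
  have hgc : Continuous g := hL.continuous
  have hlipm : Measurable (rs_lip g) := rs_lip_measurable hgc
  have hlip0 : ∀ x, 0 ≤ rs_lip g x := rs_lip_nonneg g
  have hlipL : ∀ x, rs_lip g x ≤ L := rs_lip_le hL
  have mem1 : ∀ u : X → ℝ, MemLp u 2 m → MemLp (fun x => u x * g x) 2 m := by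
    intro u hu
    refine MemLp.of_le_mul (c := |B|) hu (hu.aestronglyMeasurable.mul hgc.aestronglyMeasurable)
      (Eventually.of_forall fun x => ?_)
    rw [Real.norm_eq_abs, Real.norm_eq_abs, abs_mul, mul_comm]
    exact mul_le_mul_of_nonneg_right (hB' x) (abs_nonneg _)
  have mem2 : ∀ u v : X → ℝ, MemLp u 2 m → MemLp v 2 m →
      MemLp (fun x => |g x| * |v x| + |u x| * rs_lip g x) 2 m := by
    intro u v hu hv
    refine MemLp.add ?_ ?_
    · refine MemLp.of_le_mul (c := |B|) hv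
        (hgc.aestronglyMeasurable.norm.mul hv.aestronglyMeasurable.norm) (Eventually.of_forall fun x => ?_)
      rw [Real.norm_eq_abs, Real.norm_eq_abs, abs_mul, abs_abs, abs_abs]
      exact mul_le_mul_of_nonneg_right (hB' x) (abs_nonneg _)
    · refine MemLp.of_le_mul (c := L) hu
        (hu.aestronglyMeasurable.norm.mul hlipm.aestronglyMeasurable) (Eventually.of_forall fun x => ?_)
      rw [Real.norm_eq_abs, Real.norm_eq_abs, abs_mul, abs_abs, abs_of_nonneg (hlip0 x), mul_comm]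
      exact mul_le_mul_of_nonneg_right (hlipL x) (abs_nonneg _)
  have key : rs_IsRelaxed m (fun x => f x * g x) (fun x => |g x| * |G x| + |f x| * rs_lip g x) := by
    refine ⟨mem1 f hf, mem2 f G hf hG, fun n x => gs n x * g x,
      fun n x => |g x| * |Gs n x| + |gs n x| * rs_lip g x, fun n => ?_, ?_, ?_⟩
    · obtain ⟨⟨hl, h2, h3, h4⟩, hs⟩ := hadm n
      refine ⟨rs_lip_mul hl (rs_bdd_of_bddSupp hl hs) ⟨L, hL⟩ ⟨B, hB⟩, mem1 _ h2, mem2 _ _ h2 h3, ?_⟩
      filter_upwards [h4] with x hx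
      have h5 := rs_ls_mul_le (f := gs n) (g := g) (x := x) (rs_ls_lt_top hl x) (rs_ls_lt_top ⟨L, hL⟩ x)
      refine ⟨add_nonneg (by positivity) (mul_nonneg (abs_nonneg _) (hlip0 x)), h5.trans ?_⟩
      rw [← rs_ofReal_lip ⟨L, hL⟩ x, ENNReal.ofReal_add (by positivity) (mul_nonneg (abs_nonneg _) (hlip0 x)),
        ENNReal.ofReal_mul (abs_nonneg _), ENNReal.ofReal_mul (abs_nonneg _), add_comm]
      refine add_le_add ?_ le_rfl
      have h6 : localSlope (gs n) x ≤ ENNReal.ofReal |Gs n x| := hx.2.trans (ENNReal.ofReal_le_ofReal (le_abs_self _))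
      gcongr
    · refine rs_L2Lim_of_le_two (B := |B|) (L := 0) (abs_nonneg _) le_rfl
        (fun n => (hadm n).1.2.1.aestronglyMeasurable) hf.aestronglyMeasurable
        (fun n => (hadm n).1.2.1.aestronglyMeasurable) hf.aestronglyMeasurable (fun n x => ?_) hl1 hl1
      rw [zero_mul, add_zero, ← sub_mul, abs_mul, mul_comm]
      exact mul_le_mul_of_nonneg_right (hB' x) (abs_nonneg _)
    · refine rs_L2Lim_of_le_two (B := |B|) (L := L) (abs_nonneg _) L.2
        (fun n => (hadm n).1.2.2.1.aestronglyMeasurable) hG.aestronglyMeasurable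
        (fun n => (hadm n).1.2.1.aestronglyMeasurable) hf.aestronglyMeasurable (fun n x => ?_) hl2 hl1
      have e : |g x| * |Gs n x| + |gs n x| * rs_lip g x - (|g x| * |G x| + |f x| * rs_lip g x)
          = |g x| * (|Gs n x| - |G x|) + rs_lip g x * (|gs n x| - |f x|) := by ring
      rw [e]
      refine (abs_add_le _ _).trans (add_le_add ?_ ?_)
      · rw [abs_mul, abs_abs]
        exact mul_le_mul (hB' x) (abs_abs_sub_abs_le_abs_sub _ _) (abs_nonneg _) (abs_nonneg _)
      · rw [abs_mul, abs_of_nonneg (hlip0 x)]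
        exact mul_le_mul (hlipL x) (abs_abs_sub_abs_le_abs_sub _ _) (abs_nonneg _) L.2
  refine rs_relaxed_congr (Filter.EventuallyEq.refl _ _) ?_ key
  filter_upwards [hGnn] with x hx
  rw [abs_of_nonneg hx]

end Claimed.Agent.R210.RS.Calc
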