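/-
Row 210, layer RS: Lipschitz functions with bounded support are dense in `L²(μ)`.
Blueprint: `git show origin/helper875:docs/R210_RS.md`, section D.
-/
import Claimed.Agent.R210.RS.Cut

set_option autoImplicit false

open Claims.C0366 Claims.C0366.WeakHessian
open Claimed.Agent.R210.RS.Defs Claimed.Agent.R210.RS.Slope Claimed.Agent.R210.RS.Cut
open Set Filter MeasureTheory
open scoped ENNReal NNReal Topology

namespace Claimed.Agent.R210.RS.Dense

variable {X : Type*} [MetricSpace X] [MeasurableSpace X] [BorelSpace X]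
  [TopologicalSpace.SeparableSpace X]

/-- (D0) approximation of the indicator of a measurable set of finite measure.
`μ` is locally finite on a second countable metric space, hence weakly regular: choose a closed `F ⊆ s` with
`μ (s \ F)` small (`MeasurableSet.exists_isClosed_lt_add` or `..._diff_lt`), intersect with a large closed
ball, and take `g x = c * max 0 (1 - infDist x F / δ)`; `μ (cthickening δ F \ F) → 0` as `δ → 0`
(continuity from above, the thickenings are bounded hence of finite measure). -/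
theorem rs_dense_indicator {μ : Measure X} (hμ : FiniteOnBoundedSets μ) (c : ℝ) {s : Set X}
    (hs : MeasurableSet s) (hfin : μ s < ∞) {ε : ℝ≥0∞} (hε : ε ≠ 0) :
    ∃ g : X → ℝ, eLpNorm (g - s.indicator fun _ => c) 2 μ ≤ ε ∧
      (GloballyLipschitz g ∧ rs_BddSupp g) := by
  rcases isEmpty_or_nonempty X with hX | ⟨⟨o⟩⟩
  · refine ⟨0, ?_, ⟨0, LipschitzWith.const 0⟩, ?_⟩
    · rw [Measure.eq_zero_of_isEmpty μ]; simp
    · simp [rs_BddSupp]
  have : SecondCountableTopology X := UniformSpace.secondCountable_of_separable X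
  have : IsLocallyFiniteMeasure μ :=
    ⟨fun x => ⟨Metric.ball x 1, Metric.ball_mem_nhds x one_pos, hμ _ Metric.isBounded_ball⟩⟩
  obtain ⟨η, hη0, hη⟩ := exists_eLpNorm_indicator_le (μ := μ) (p := 2) (by norm_num) c hε
  have hη3 : ((η : ℝ≥0∞) / 3) ≠ 0 := by
    simp [hη0.ne']
  have hη3' : 0 < ((η : ℝ≥0∞) / 3) := pos_iff_ne_zero.2 hη3
  -- step 1: a large ball
  have h1 : Tendsto (μ ∘ fun n : ℕ => s \ Metric.closedBall o n) atTop
      (𝓝 (μ (⋂ n : ℕ, s \ Metric.closedBall o n))) :=
    tendsto_measure_iInter_atTop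
      (fun n => (hs.diff Metric.isClosed_closedBall.measurableSet).nullMeasurableSet)
      (fun a b hab => sdiff_subset_sdiff_right (Metric.closedBall_subset_closedBall (by exact_mod_cast hab)))
      ⟨0, (lt_of_le_of_lt (measure_mono sdiff_subset) hfin).ne⟩
  have h1' : (⋂ n : ℕ, s \ Metric.closedBall o n) = ∅ := by
    apply eq_empty_of_forall_notMem
    intro z hz
    obtain ⟨n, hn⟩ := exists_nat_ge (dist z o)
    exact (mem_iInter.1 hz n).2 (Metric.mem_closedBall.2 hn)
  rw [h1', measure_empty] at h1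
  obtain ⟨n, hn⟩ := (h1.eventually (gt_mem_nhds hη3')).exists
  simp only [Function.comp] at hn
  -- step 2: a closed subset
  have hs' : MeasurableSet (s ∩ Metric.closedBall o n) := hs.inter Metric.isClosed_closedBall.measurableSet
  have hs'fin : μ (s ∩ Metric.closedBall o n) ≠ ∞ := (lt_of_le_of_lt (measure_mono inter_subset_left) hfin).ne
  obtain ⟨F, hFs, hFc, hF⟩ := hs'.exists_isClosed_sdiff_lt hs'fin hη3
  have hFb : Bornology.IsBounded F := Metric.isBounded_closedBall.subset (hFs.trans inter_subset_right)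
  have hFfin : μ F ≠ ∞ := (hμ _ hFb).ne
  -- step 3: a small thickening
  have h3 : Tendsto (fun r => μ (Metric.thickening r F)) (𝓝[>] 0) (𝓝 (μ F)) :=
    tendsto_measure_thickening_of_isClosed ⟨1, one_pos, (hμ _ hFb.thickening).ne⟩ hFc
  have h3' : ∀ᶠ r in 𝓝[>] (0 : ℝ), μ (Metric.thickening r F) < μ F + η / 3 :=
    h3.eventually (gt_mem_nhds (ENNReal.lt_add_right hFfin hη3))
  obtain ⟨δ, hδ1, hδ⟩ := (h3'.and (eventually_mem_nhdsWithin (a := (0 : ℝ)) (s := Ioi 0))).exists
  have hδ : 0 < δ := hδ
  have hT : μ (Metric.thickening δ F \ F) < η / 3 :=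
    measure_sdiff_lt_of_lt_add hFc.nullMeasurableSet (Metric.self_subset_thickening hδ F) hFfin hδ1
  -- the function
  set χ : X → ℝ := fun z => (thickenedIndicator hδ F z : ℝ) with hχ
  have hχ0 : ∀ z, 0 ≤ χ z := fun z => NNReal.coe_nonneg _
  have hχ1 : ∀ z, χ z ≤ 1 := fun z => by exact_mod_cast thickenedIndicator_le_one hδ F z
  have hχF : ∀ z ∈ F, χ z = 1 := fun z hz => by
    simp only [hχ, thickenedIndicator_one hδ F hz, NNReal.coe_one]
  have hχT : ∀ z, z ∉ Metric.thickening δ F → χ z = 0 := fun z hz => by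
    simp only [hχ, thickenedIndicator_zero hδ F hz, NNReal.coe_zero]
  have hχL : LipschitzWith δ.toNNReal⁻¹ χ := by
    have := NNReal.isometry_coe.lipschitz.comp (lipschitzWith_thickenedIndicator hδ F)
    rw [one_mul] at this
    exact this
  set D : Set X := (Metric.thickening δ F \ F) ∪ ((s ∩ Metric.closedBall o n) \ F) ∪ (s \ Metric.closedBall o n)
    with hD
  have hDμ : μ D ≤ η := by
    calc μ D ≤ μ (Metric.thickening δ F \ F) + μ ((s ∩ Metric.closedBall o n) \ F)
          + μ (s \ Metric.closedBall o n) :=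
          (measure_union_le _ _).trans (add_le_add_left (measure_union_le _ _) _)
      _ ≤ η / 3 + η / 3 + η / 3 := add_le_add (add_le_add hT.le hF.le) hn.le
      _ = η := ENNReal.add_thirds _
  refine ⟨fun z => c * χ z, ?_, ?_, ?_⟩
  · refine le_trans (eLpNorm_mono ?_) (hη D hDμ)
    intro z
    simp only [Pi.sub_apply]
    by_cases hzD : z ∈ D
    · rw [indicator_of_mem hzD]
      by_cases hzs : z ∈ s
      · rw [indicator_of_mem hzs]
        have : c * χ z - c = c * (χ z - 1) := by ring
        rw [this, norm_mul]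
        apply mul_le_of_le_one_right (norm_nonneg _)
        rw [Real.norm_eq_abs, abs_le]
        constructor <;> linarith [hχ0 z, hχ1 z]
      · rw [indicator_of_notMem hzs, sub_zero, norm_mul]
        apply mul_le_of_le_one_right (norm_nonneg _)
        rw [Real.norm_eq_abs, abs_le]
        constructor <;> linarith [hχ0 z, hχ1 z]
    · rw [indicator_of_notMem hzD]
      simp only [hD, mem_union, Set.mem_sdiff, mem_inter_iff, not_or, not_and, not_not] at hzD
      obtain ⟨⟨hz1, hz2⟩, hz3⟩ := hzD
      by_cases hzs : z ∈ s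
      · have hzF : z ∈ F := hz2 ⟨hzs, hz3 hzs⟩
        rw [indicator_of_mem hzs, hχF z hzF]
        simp
      · have hzF : z ∉ F := fun h => hzs (hFs h).1
        have hzT : z ∉ Metric.thickening δ F := fun h => hzF (hz1 h)
        rw [indicator_of_notMem hzs, hχT z hzT]
        simp
  · refine ⟨‖c‖₊ * δ.toNNReal⁻¹, ?_⟩
    have := (lipschitzWith_smul c).comp hχL
    exact this
  · refine (hFb.thickening (δ := δ)).subset ?_
    intro z hz
    by_contra hzT
    exact hz (by simp only [hχT z hzT, mul_zero])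

/-- (D) density (`MemLp.induction_dense` with `P g = GloballyLipschitz g ∧ rs_BddSupp g`). -/
theorem rs_dense_lip {μ : Measure X} (hμ : FiniteOnBoundedSets μ) {f : X → ℝ} (hf : MemLp f 2 μ)
    {ε : ℝ≥0∞} (hε : ε ≠ 0) :
    ∃ g : X → ℝ, eLpNorm (f - g) 2 μ ≤ ε ∧ (GloballyLipschitz g ∧ rs_BddSupp g) := by
  refine MemLp.induction_dense (p := 2) (by norm_num)
    (fun g : X → ℝ => GloballyLipschitz g ∧ rs_BddSupp g) ?_ ?_ ?_ hf hε
  · intro c s hs hfin ε hε
    exact rs_dense_indicator hμ c hs hfin hε
  · rintro f g ⟨⟨Lf, hLf⟩, hsf⟩ ⟨⟨Lg, hLg⟩, hsg⟩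
    refine ⟨⟨Lf + Lg, hLf.add hLg⟩, ?_⟩
    exact (hsf.union hsg).subset (Function.support_add f g)
  · rintro f ⟨⟨Lf, hLf⟩, -⟩
    exact hLf.continuous.aestronglyMeasurable

/-- (D') approximation of an indicator by Lipschitz functions with values in `[0,1]`
(clamp the function given by `rs_dense_lip`: clamping does not increase the distance to an indicator). -/
theorem rs_dense_unit {μ : Measure X} [IsFiniteMeasure μ] {B : Set X} (hB : MeasurableSet B)
    {ε : ℝ≥0∞} (hε : ε ≠ 0) :
    ∃ χ : X → ℝ, GloballyLipschitz χ ∧ (∀ x, 0 ≤ χ x) ∧ (∀ x, χ x ≤ 1) ∧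
      eLpNorm (fun x => χ x - B.indicator (fun _ => (1 : ℝ)) x) 2 μ ≤ ε := by
  have hμ : FiniteOnBoundedSets μ := fun s _ => measure_lt_top μ s
  have hf : MemLp (B.indicator (fun _ => (1 : ℝ))) 2 μ :=
    (memLp_const (1 : ℝ)).indicator hB
  obtain ⟨g, hg, ⟨L, hL⟩, -⟩ := rs_dense_lip hμ hf hε
  refine ⟨fun x => max 0 (min 1 (g x)), ⟨L, ?_⟩, fun x => le_max_left _ _,
    fun x => max_le zero_le_one (min_le_left _ _), ?_⟩
  · exact (hL.const_min 1).const_max 0
  · refine le_trans (eLpNorm_mono fun x => ?_) hg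
    simp only [Pi.sub_apply, Real.norm_eq_abs]
    by_cases hx : x ∈ B
    · simp only [Set.indicator_of_mem hx]
      rcases le_total (g x) 0 with h0 | h0
      · rw [min_eq_right (h0.trans zero_le_one), max_eq_left h0, abs_sub_comm,
          abs_of_nonneg (by linarith), abs_of_nonneg (by linarith)]
        linarith
      · rcases le_total (g x) 1 with h1 | h1
        · rw [min_eq_right h1, max_eq_right h0, abs_sub_comm]
        · rw [min_eq_left h1, max_eq_right zero_le_one]
          simp
    · simp only [Set.indicator_of_notMem hx]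
      rcases le_total (g x) 0 with h0 | h0
      · rw [min_eq_right (h0.trans zero_le_one), max_eq_left h0]
        simp
      · rcases le_total (g x) 1 with h1 | h1
        · rw [min_eq_right h1, max_eq_right h0, abs_sub_comm]
        · rw [min_eq_left h1, max_eq_right zero_le_one, sub_zero, zero_sub, abs_neg,
            abs_of_nonneg zero_le_one, abs_of_nonneg h0]
          exact h1

end Claimed.Agent.R210.RS.Dense
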