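/-
Row 210, layer RS: the Cheeger energy as a closed quadratic form; the three epsilon-trick inequalities (RS6).
Blueprint: `git show origin/helper875:docs/R210_RS.md`, section F.
-/
import Claimed.Agent.R210.RS.Calc
import Claimed.Agent.R210.RS.Dense
import Claimed.Agent.R210.HS.Ifc

set_option autoImplicit false

open Claims.C0366 Claims.C0366.WeakHessian
open Claimed.Agent.R210.HS.Defs
open Claimed.Agent.R210.RS.Defs Claimed.Agent.R210.RS.Slope Claimed.Agent.R210.RS.Cut
  Claimed.Agent.R210.RS.Base Claimed.Agent.R210.RS.Rep Claimed.Agent.R210.RS.Approx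
  Claimed.Agent.R210.RS.Calc Claimed.Agent.R210.RS.Dense
open Set Filter MeasureTheory
open scoped ENNReal NNReal Topology

namespace Claimed.Agent.R210.RS.Form

variable {X : Type*} [MetricSpace X] [MeasurableSpace X] [BorelSpace X] {m : Measure X}

/-- (F0) abstract expansion of a quadratic form.  BRIDGE LEAF: follows from the bilinearity of `bil` (contract HS1);
use the exports of `Claimed/Agent/R210/HS/Ifc*.lean` as soon as they are on main.
(Direct proof: Jordan-von Neumann from `par`; Cauchy-Schwarz from `Q ≥ 0` on rational lines; then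
`c ↦ bil Q u (c • v)` is additive and `|bil Q u (c • v)| ≤ 2 |c| sqrt (Q u * Q v)` by `homog`, hence linear.) -/
theorem rs_quad_expand {H : Type*} [NormedAddCommGroup H] [InnerProductSpace ℝ H] {Q : H → ℝ≥0∞}
    (hQ : QForm Q) {u v : H} (hu : Q u < ∞) (hv : Q v < ∞) (ε : ℝ) :
    Q (u + ε • v) < ∞ ∧
    (Q (u + ε • v)).toReal = (Q u).toReal + ε * bil Q u v + ε ^ 2 * (Q v).toReal := by
  have hεv : Q (ε • v) < ∞ := Claimed.Agent.R210.HS.Ifc.hs_dom_smul hQ ε hv
  refine ⟨Claimed.Agent.R210.HS.Ifc.hs_dom_add hQ hu hεv, ?_⟩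
  rw [Claimed.Agent.R210.HS.Ifc.hs_toReal_add hQ hu hεv,
    Claimed.Agent.R210.HS.Ifc.hs_toReal_smul hQ ε v,
    Claimed.Agent.R210.HS.Ifc.hs_bil_smul_right hQ ε hu hv]
  ring

theorem rs_bil_eq (u v : Lp ℝ 2 m) : bil (ChL2 m) u v = rs_E m (u : X → ℝ) (v : X → ℝ) := by
  have h1 : cheegerEnergy m ((u + v : Lp ℝ 2 m) : X → ℝ) =
      cheegerEnergy m (fun x => (u : X → ℝ) x + (v : X → ℝ) x) :=
    rs_cheeger_congr (Lp.coeFn_add u v)
  have h2 : cheegerEnergy m ((u - v : Lp ℝ 2 m) : X → ℝ) =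
      cheegerEnergy m (fun x => (u : X → ℝ) x - (v : X → ℝ) x) :=
    rs_cheeger_congr (Lp.coeFn_sub u v)
  unfold bil rs_E ChL2
  rw [h1, h2]

theorem rs_E_congr {f f' g g' : X → ℝ} (hf : f =ᵐ[m] f') (hg : g =ᵐ[m] g') :
    rs_E m f g = rs_E m f' g' := by
  have h1 : cheegerEnergy m (fun x => f x + g x) = cheegerEnergy m (fun x => f' x + g' x) :=
    rs_cheeger_congr (hf.add hg)
  have h2 : cheegerEnergy m (fun x => f x - g x) = cheegerEnergy m (fun x => f' x - g' x) :=
    rs_cheeger_congr (hf.sub hg)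
  unfold rs_E
  rw [h1, h2]

theorem rs_E_toLp {f g : X → ℝ} (hf : MemLp f 2 m) (hg : MemLp g 2 m) :
    bil (ChL2 m) (hf.toLp f) (hg.toLp g) = rs_E m f g := by
  rw [rs_bil_eq]
  exact rs_E_congr hf.coeFn_toLp hg.coeFn_toLp

theorem rs_E_self {f : X → ℝ} (hf : cheegerEnergy m f < ∞) :
    rs_E m f f = ∫ x, rs_slope m f x ^ 2 ∂m := by
  have h1 : cheegerEnergy m (fun x => f x + f x) = ENNReal.ofReal ((2 : ℝ) ^ 2) * cheegerEnergy m f := by
    have e : (fun x => f x + f x) = fun x => 2 * f x := by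
      funext x
      ring
    rw [e]
    exact rs_cheeger_const_mul 2 hf
  have h2 : cheegerEnergy m (fun x => f x - f x) = 0 := by
    have e : (fun x => f x - f x) = fun _ => (0 : ℝ) := by
      funext x
      ring
    rw [e]
    exact rs_cheeger_zero
  unfold rs_E
  rw [h1, h2, ENNReal.toReal_mul, ENNReal.toReal_ofReal (by norm_num), rs_cheeger_toReal]
  simp only [ENNReal.toReal_zero]
  ring

theorem rs_E_neg_right (f g : X → ℝ) : rs_E m f (fun x => - g x) = - rs_E m f g := by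
  have e1 : (fun x => f x + (fun x => - g x) x) = fun x => f x - g x := by
    funext x
    ring
  have e2 : (fun x => f x - (fun x => - g x) x) = fun x => f x + g x := by
    funext x
    ring
  unfold rs_E
  rw [e1, e2]
  ring

/-- density of the finiteness domain (`rs_dense_lip`, `rs_cheeger_lt_top_of_bddSupp`). -/
theorem rs_ChL2_dense [TopologicalSpace.SeparableSpace X] (hm : FiniteOnBoundedSets m) :
    Dense {u : Lp ℝ 2 m | ChL2 m u < ∞} := by
  intro u
  rw [EMetric.mem_closure_iff]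
  intro ε hε
  obtain ⟨δ, hδ0, hδε⟩ := exists_between hε
  obtain ⟨g, hgε, hg, hs⟩ := rs_dense_lip hm (Lp.memLp u) (ε := δ) hδ0.ne'
  have hg2 : MemLp g 2 m := rs_memLp_of_bddSupp hm hg hs
  refine ⟨hg2.toLp g, ?_, ?_⟩
  · change ChL2 m (hg2.toLp g) < ∞
    rw [rs_ChL2_toLp hg2]
    exact rs_cheeger_lt_top_of_bddSupp hm hg hs
  · have h1 : edist u (hg2.toLp g) = eLpNorm ((u : X → ℝ) - g) 2 m := by
      conv_lhs => rw [← Lp.toLp_coeFn u (Lp.memLp u)]
      exact Lp.edist_toLp_toLp _ _ _ _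
    rw [h1]
    exact hgε.trans_lt hδε

/-- (RS6) the Cheeger energy is a closed densely defined quadratic form. -/
theorem rs_qform [TopologicalSpace.SeparableSpace X] (hm : FiniteOnBoundedSets m)
    (hq : QuadraticCheegerEnergy m) : QForm (ChL2 m) := by
  refine ⟨?_, ?_, ?_, rs_ChL2_lsc, rs_ChL2_dense hm⟩
  · change cheegerEnergy m ((0 : Lp ℝ 2 m) : X → ℝ) = 0
    rw [rs_cheeger_congr (Lp.coeFn_zero ℝ 2 m)]
    exact rs_cheeger_zero
  · intro u v hu hv
    change cheegerEnergy m ((u + v : Lp ℝ 2 m) : X → ℝ) + cheegerEnergy m ((u - v : Lp ℝ 2 m) : X → ℝ)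
      = 2 * cheegerEnergy m (u : X → ℝ) + 2 * cheegerEnergy m (v : X → ℝ)
    rw [rs_cheeger_congr (Lp.coeFn_add u v), rs_cheeger_congr (Lp.coeFn_sub u v)]
    exact hq _ _ hu hv
  · intro c u hu
    change cheegerEnergy m ((c • u : Lp ℝ 2 m) : X → ℝ) = ENNReal.ofReal (c ^ 2) * cheegerEnergy m (u : X → ℝ)
    rw [rs_cheeger_congr (Lp.coeFn_smul c u)]
    exact rs_cheeger_const_mul c hu

/-- (F1) expansion for plain functions (`rs_quad_expand`, `rs_qform`, `rs_E_toLp`, `rs_cheeger_congr`). -/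
theorem rs_cheeger_expand [TopologicalSpace.SeparableSpace X] (hm : FiniteOnBoundedSets m)
    (hq : QuadraticCheegerEnergy m) {u v : X → ℝ} (hu : cheegerEnergy m u < ∞)
    (hv : cheegerEnergy m v < ∞) (ε : ℝ) :
    (cheegerEnergy m (fun x => u x + ε * v x)).toReal =
      (cheegerEnergy m u).toReal + ε * rs_E m u v + ε ^ 2 * (cheegerEnergy m v).toReal := by
  have hu2 : MemLp u 2 m := rs_memLp_of_cheeger hu
  have hv2 : MemLp v 2 m := rs_memLp_of_cheeger hv
  have hQ : QForm (ChL2 m) := rs_qform hm hq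
  have hU : ChL2 m (hu2.toLp u) < ∞ := by rw [rs_ChL2_toLp hu2]; exact hu
  have hV : ChL2 m (hv2.toLp v) < ∞ := by rw [rs_ChL2_toLp hv2]; exact hv
  have h := (rs_quad_expand hQ hU hV ε).2
  rw [rs_ChL2_toLp hu2, rs_ChL2_toLp hv2, rs_E_toLp hu2 hv2] at h
  rw [← h]
  congr 1
  have hae : ((hu2.toLp u + ε • hv2.toLp v : Lp ℝ 2 m) : X → ℝ) =ᵐ[m] fun x => u x + ε * v x := by
    filter_upwards [Lp.coeFn_add (hu2.toLp u) (ε • hv2.toLp v), Lp.coeFn_smul ε (hv2.toLp v),
      hu2.coeFn_toLp, hv2.coeFn_toLp] with x h1 h2 h3 h4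
    rw [h1, Pi.add_apply, h2, Pi.smul_apply, h3, h4, smul_eq_mul]
  exact (rs_cheeger_congr hae).symm

/-- (F2) THE EPSILON TRICK.  `Ch(u+εv) ≤ ½∫(rs u + ε b)² = Ch u + ε ∫ rs u · b + ε²/2 ∫ b²` and
`Ch(u+εv) = Ch u + ε E(u,v) + ε² Ch v`; divide by `ε` and let `ε → 0`. -/
theorem rs_E_le_of_relaxed [TopologicalSpace.SeparableSpace X] (hm : FiniteOnBoundedSets m)
    (hq : QuadraticCheegerEnergy m) {u v b : X → ℝ} (hu : cheegerEnergy m u < ∞)
    (hv : cheegerEnergy m v < ∞) (hb : MemLp b 2 m) {ε₀ : ℝ} (hε₀ : 0 < ε₀)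
    (h : ∀ ε, 0 < ε → ε < ε₀ →
      rs_IsRelaxed m (fun x => u x + ε * v x) (fun x => rs_slope m u x + ε * b x)) :
    rs_E m u v ≤ ∫ x, rs_slope m u x * b x ∂m := by
  have hS : MemLp (rs_slope m u) 2 m := rs_slope_memLp m u
  have iSS : Integrable (fun x => rs_slope m u x ^ 2) m := hS.integrable_sq
  have ibb : Integrable (fun x => b x ^ 2) m := hb.integrable_sq
  have iSb : Integrable (fun x => rs_slope m u x * b x) m := hS.integrable_mul hb
  set A := ∫ x, rs_slope m u x ^ 2 ∂m with hA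
  set B := ∫ x, rs_slope m u x * b x ∂m with hB
  set D := ∫ x, b x ^ 2 ∂m with hD
  set Cv := (cheegerEnergy m v).toReal with hCv
  have key : ∀ ε, 0 < ε → ε < ε₀ → rs_E m u v - B ≤ ε * (D / 2 - Cv) := by
    intro ε h0 h1
    have h2 := rs_cheeger_toReal_le_of_relaxed (h ε h0 h1)
    rw [rs_cheeger_expand hm hq hu hv ε, rs_cheeger_toReal m u] at h2
    have h3 : ∫ x, (rs_slope m u x + ε * b x) ^ 2 ∂m = A + 2 * ε * B + ε ^ 2 * D := by
      have e : (fun x => (rs_slope m u x + ε * b x) ^ 2)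
          = fun x => rs_slope m u x ^ 2 + 2 * ε * (rs_slope m u x * b x) + ε ^ 2 * b x ^ 2 := by
        funext x
        ring
      have i1 : Integrable (fun x => 2 * ε * (rs_slope m u x * b x)) m := iSb.const_mul _
      have i2 : Integrable (fun x => ε ^ 2 * b x ^ 2) m := ibb.const_mul _
      have i3 : Integrable (fun x => rs_slope m u x ^ 2 + 2 * ε * (rs_slope m u x * b x)) m :=
        iSS.add i1
      rw [e, integral_add i3 i2, integral_add iSS i1, integral_const_mul, integral_const_mul]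
    rw [h3] at h2
    have h4 : ε * (rs_E m u v - B) ≤ ε * (ε * (D / 2 - Cv)) := by nlinarith
    exact le_of_mul_le_mul_left h4 h0
  by_contra hcon
  have hδ : 0 < rs_E m u v - B := by linarith [not_le.1 hcon]
  have hK : 0 < D / 2 - Cv := by
    have := key (ε₀ / 2) (by linarith) (by linarith)
    by_contra hK
    have hK' := not_lt.1 hK
    nlinarith
  have hε1 : 0 < min (ε₀ / 2) ((rs_E m u v - B) / (2 * (D / 2 - Cv))) :=
    lt_min (by linarith) (by positivity)
  have h5 := key _ hε1 (lt_of_le_of_lt (min_le_left _ _) (by linarith))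
  have h6 : min (ε₀ / 2) ((rs_E m u v - B) / (2 * (D / 2 - Cv))) * (D / 2 - Cv)
      ≤ (rs_E m u v - B) / (2 * (D / 2 - Cv)) * (D / 2 - Cv) :=
    mul_le_mul_of_nonneg_right (min_le_right _ _) hK.le
  have h7 : (rs_E m u v - B) / (2 * (D / 2 - Cv)) * (D / 2 - Cv) = (rs_E m u v - B) / 2 := by
    have hK0 : D / 2 - Cv ≠ 0 := hK.ne'
    generalize D / 2 - Cv = K at hK0
    field_simp
  linarith

/-- (RS6a) -/
theorem rs_E_abs_le [TopologicalSpace.SeparableSpace X] (hm : FiniteOnBoundedSets m)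
    (hq : QuadraticCheegerEnergy m) {u v G : X → ℝ} (hu : cheegerEnergy m u < ∞)
    (hv : rs_IsRelaxed m v G) : |rs_E m u v| ≤ ∫ x, rs_slope m u x * G x ∂m := by
  have hS := rs_slope_isRelaxed hu
  have hG2 : MemLp G 2 m := hv.2.1
  have hv' : rs_IsRelaxed m (fun x => - v x) G := rs_relaxed_neg hv
  have hfin : cheegerEnergy m v < ∞ := rs_cheeger_lt_top_iff.2 ⟨G, hv⟩
  have hfin' : cheegerEnergy m (fun x => - v x) < ∞ := rs_cheeger_lt_top_iff.2 ⟨G, hv'⟩
  have gen : ∀ w : X → ℝ, rs_IsRelaxed m w G → ∀ ε : ℝ, 0 < ε → ε < 1 →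
      rs_IsRelaxed m (fun x => u x + ε * w x) (fun x => rs_slope m u x + ε * G x) := by
    intro w hw ε h0 _
    have h1 := rs_relaxed_add hS (rs_relaxed_const_mul ε hw)
    rwa [abs_of_pos h0] at h1
  have h1 := rs_E_le_of_relaxed hm hq hu hfin hG2 one_pos (gen v hv)
  have h2 := rs_E_le_of_relaxed hm hq hu hfin' hG2 one_pos (gen _ hv')
  rw [rs_E_neg_right] at h2
  exact abs_le.2 ⟨by linarith, h1⟩

/-- (RS6b)  `v = -φ∘u`, `b = -φ'(u) rs u`, `ε₀ = 1/(M+1)`; `rs_relaxed_comp` with `ψ t = t - ε φ t`. -/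
theorem rs_E_comp_ge [TopologicalSpace.SeparableSpace X] (hm : FiniteOnBoundedSets m)
    (hq : QuadraticCheegerEnergy m) {φ : ℝ → ℝ} (hφ : ContDiff ℝ 1 φ) (hmono : Monotone φ) {M : ℝ}
    (hM : ∀ t, |deriv φ t| ≤ M) (h0 : φ 0 = 0) {u : X → ℝ} (hu : cheegerEnergy m u < ∞) :
    ∫ x, deriv φ (u x) * rs_slope m u x ^ 2 ∂m ≤ rs_E m u (fun x => φ (u x)) := by
  have hrel := rs_slope_isRelaxed hu
  have hM0 : 0 ≤ M := (abs_nonneg _).trans (hM 0)
  have hcomp := rs_relaxed_comp hφ hM h0 hrel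
  have hv : cheegerEnergy m (fun x => - φ (u x)) < ∞ :=
    rs_cheeger_lt_top_iff.2 ⟨_, rs_relaxed_neg hcomp⟩
  have hd0 : ∀ t, 0 ≤ deriv φ t := fun t => hmono.deriv_nonneg
  have hb : MemLp (fun x => -(deriv φ (u x) * rs_slope m u x)) 2 m := by
    have h1 := hcomp.2.1.neg
    have h2 : (-fun x => |deriv φ (u x)| * rs_slope m u x)
        = fun x => -(deriv φ (u x) * rs_slope m u x) := by
      funext x
      simp only [Pi.neg_apply, abs_of_nonneg (hd0 (u x))]
    rwa [h2] at h1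
  have hε₀ : (0 : ℝ) < 1 / (M + 1) := by positivity
  have h : ∀ ε, 0 < ε → ε < 1 / (M + 1) →
      rs_IsRelaxed m (fun x => u x + ε * (- φ (u x)))
        (fun x => rs_slope m u x + ε * (-(deriv φ (u x) * rs_slope m u x))) := by
    intro ε hε hε1
    have hεM : ε * M < 1 := by
      have h3 : ε * (M + 1) < 1 := by
        rwa [lt_div_iff₀ (by positivity)] at hε1
      nlinarith
    have hψ : ContDiff ℝ 1 (fun t => t - ε * φ t) := contDiff_id.sub (contDiff_const.mul hφ)
    have hdψ : ∀ t, deriv (fun t => t - ε * φ t) t = 1 - ε * deriv φ t := by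
      intro t
      have hdφ : HasDerivAt φ (deriv φ t) t :=
        (hφ.differentiable (by norm_num) t).hasDerivAt
      exact ((hasDerivAt_id t).sub (hdφ.const_mul ε)).deriv
    have hle : ∀ t, ε * deriv φ t ≤ ε * M := fun t =>
      mul_le_mul_of_nonneg_left ((le_abs_self _).trans (hM t)) hε.le
    have hpos : ∀ t, 0 ≤ 1 - ε * deriv φ t := fun t => by linarith [hle t]
    have hMψ : ∀ t, |deriv (fun t => t - ε * φ t) t| ≤ 1 := by
      intro t
      rw [hdψ t, abs_of_nonneg (hpos t)]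
      have := mul_nonneg hε.le (hd0 t)
      linarith
    have hψ0 : (fun t => t - ε * φ t) 0 = 0 := by simp [h0]
    have key := rs_relaxed_comp hψ hMψ hψ0 hrel
    have e1 : (fun x => (fun t => t - ε * φ t) (u x)) = fun x => u x + ε * (- φ (u x)) := by
      funext x
      ring
    have e2 : (fun x => |deriv (fun t => t - ε * φ t) (u x)| * rs_slope m u x)
        = fun x => rs_slope m u x + ε * (-(deriv φ (u x) * rs_slope m u x)) := by
      funext x
      rw [hdψ (u x), abs_of_nonneg (hpos (u x))]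
      ring
    rwa [e1, e2] at key
  have key := rs_E_le_of_relaxed hm hq hu hv hb hε₀ h
  rw [rs_E_neg_right] at key
  have e3 : ∫ x, rs_slope m u x * (-(deriv φ (u x) * rs_slope m u x)) ∂m
      = - ∫ x, deriv φ (u x) * rs_slope m u x ^ 2 ∂m := by
    rw [← integral_neg]
    congr 1
    funext x
    ring
  rw [e3] at key
  linarith

omit [MeasurableSpace X] [BorelSpace X] in
/-- aux for RS6c: `a + c w²` is bounded Lipschitz with slope `≤ 2 |c| w lip w`. -/
theorem rs_aux_quad {w : X → ℝ} (hw : GloballyLipschitz w) (hwb : BoundedFunction w)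
    (hw0 : ∀ x, 0 ≤ w x) (a c : ℝ) :
    GloballyLipschitz (fun x => a + c * w x ^ 2) ∧ BoundedFunction (fun x => a + c * w x ^ 2) ∧
      ∀ x, rs_lip (fun y => a + c * w y ^ 2) x ≤ 2 * |c| * w x * rs_lip w x := by
  obtain ⟨B, hB⟩ := hwb
  refine ⟨?_, ?_, ?_⟩
  · obtain ⟨L2, hL2⟩ := rs_lip_mul hw ⟨B, hB⟩ hw ⟨B, hB⟩
    refine ⟨‖c‖₊ * L2, LipschitzWith.of_dist_le_mul fun x y => ?_⟩
    have h1 := hL2.dist_le_mul x y
    simp only [Real.dist_eq] at h1 ⊢
    have e : a + c * w x ^ 2 - (a + c * w y ^ 2) = c * (w x * w x - w y * w y) := by ring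
    rw [e, abs_mul]
    push_cast
    rw [Real.norm_eq_abs, mul_assoc]
    exact mul_le_mul_of_nonneg_left h1 (abs_nonneg c)
  · refine ⟨|a| + |c| * B ^ 2, fun x => ?_⟩
    have h1 : w x ^ 2 ≤ B ^ 2 := by
      have := hB x
      rw [abs_of_nonneg (hw0 x)] at this
      exact pow_le_pow_left₀ (hw0 x) this 2
    calc |a + c * w x ^ 2| ≤ |a| + |c * w x ^ 2| := abs_add_le _ _
      _ = |a| + |c| * w x ^ 2 := by rw [abs_mul, abs_of_nonneg (sq_nonneg (w x))]
      _ ≤ |a| + |c| * B ^ 2 := by gcongr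
  · intro x
    have hd : HasDerivAt (fun t : ℝ => a + c * t ^ 2) (c * (2 * w x)) (w x) := by
      have := ((hasDerivAt_pow 2 (w x)).const_mul c).const_add a
      simpa using this
    have h1 := rs_ls_comp_le (ψ := fun t : ℝ => a + c * t ^ 2) (f := w) (x := x)
      hd.differentiableAt (rs_ls_lt_top hw x)
    rw [hd.deriv] at h1
    have h2 : localSlope w x ≠ ∞ := (rs_ls_lt_top hw x).ne
    have h3 := ENNReal.toReal_mono (ENNReal.mul_ne_top ENNReal.ofReal_ne_top h2) h1
    rw [ENNReal.toReal_mul, ENNReal.toReal_ofReal (abs_nonneg _)] at h3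
    have e : |c * (2 * w x)| = 2 * |c| * w x := by
      rw [abs_mul, abs_mul, abs_of_nonneg (hw0 x)]
      simp
      ring
    rw [e] at h3
    exact h3

omit [BorelSpace X] in
/-- aux: bounded measurable times `L²` is `L²`. -/
theorem rs_aux_memLp_mul {a G : X → ℝ} {M : ℝ} (ha : AEStronglyMeasurable a m) (hM : ∀ x, |a x| ≤ M)
    (hG : MemLp G 2 m) : MemLp (fun x => a x * G x) 2 m := by
  refine MemLp.of_le_mul (c := M) hG (ha.mul hG.1) (Filter.Eventually.of_forall fun x => ?_)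
  rw [Real.norm_eq_abs, Real.norm_eq_abs, abs_mul]
  exact mul_le_mul_of_nonneg_right (hM x) (abs_nonneg _)

/-- (RS6c)  `v = -u w²`, `b = -w² rs u + 2 |u| w lip w`; `rs_relaxed_mul` with `g = 1 - ε w²`, `rs_relaxed_mono`. -/
theorem rs_E_mul_sq_ge [TopologicalSpace.SeparableSpace X] (hm : FiniteOnBoundedSets m)
    (hq : QuadraticCheegerEnergy m) {w : X → ℝ} (hw : GloballyLipschitz w) (hwb : BoundedFunction w)
    (hw0 : ∀ x, 0 ≤ w x) {u : X → ℝ} (hu : cheegerEnergy m u < ∞) :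
    (∫ x, w x ^ 2 * rs_slope m u x ^ 2 ∂m) - 2 * ∫ x, |u x| * w x * rs_lip w x * rs_slope m u x ∂m
      ≤ rs_E m u (fun x => u x * w x ^ 2) := by
  obtain ⟨B, hB⟩ := id hwb
  obtain ⟨L, hL⟩ := id hw
  have hwB : ∀ x, w x ≤ |B| := fun x => (le_abs_self _).trans ((hB x).trans (le_abs_self _))
  have hwc : Continuous w := hL.continuous
  have hwm : Measurable w := hwc.measurable
  have hlm : Measurable (rs_lip w) := rs_lip_measurable hwc
  have hS2 : MemLp (rs_slope m u) 2 m := rs_slope_memLp m u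
  have hu2 : MemLp u 2 m := rs_memLp_of_cheeger hu
  have hua : MemLp (fun x => |u x|) 2 m := hu2.abs
  have hrel : rs_IsRelaxed m u (rs_slope m u) := rs_slope_isRelaxed hu
  -- the two `L²` pieces of `b`
  have hb1 : MemLp (fun x => w x ^ 2 * rs_slope m u x) 2 m :=
    rs_aux_memLp_mul (M := |B| ^ 2) (hwm.pow_const 2).aestronglyMeasurable
      (fun x => by
        rw [abs_of_nonneg (sq_nonneg _)]
        exact pow_le_pow_left₀ (hw0 x) (hwB x) 2) hS2
  have hb2 : MemLp (fun x => (w x * rs_lip w x) * |u x|) 2 m :=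
    rs_aux_memLp_mul (M := |B| * L) (hwm.mul hlm).aestronglyMeasurable
      (fun x => by
        rw [abs_of_nonneg (mul_nonneg (hw0 x) (rs_lip_nonneg w x))]
        exact mul_le_mul (hwB x) (rs_lip_le hL x) (rs_lip_nonneg w x) (abs_nonneg B)) hua
  set b : X → ℝ := fun x => -(w x ^ 2 * rs_slope m u x) + 2 * ((w x * rs_lip w x) * |u x|) with hbdef
  have hb : MemLp b 2 m := hb1.neg.add (hb2.const_mul 2)
  -- finiteness of the energy of `v`
  have hv : cheegerEnergy m (fun x => -(u x * w x ^ 2)) < ∞ := by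
    obtain ⟨g1, g2, -⟩ := rs_aux_quad hw hwb hw0 0 1
    simp only [zero_add, one_mul] at g1 g2
    exact rs_cheeger_lt_top_iff.2 ⟨_, rs_relaxed_neg (rs_relaxed_mul g1 g2 hrel)⟩
  have hε₀ : (0 : ℝ) < 1 / (|B| ^ 2 + 1) := by positivity
  have key : rs_E m u (fun x => -(u x * w x ^ 2)) ≤ ∫ x, rs_slope m u x * b x ∂m := by
    refine rs_E_le_of_relaxed hm hq hu hv hb hε₀ fun ε hε hε1 => ?_
    obtain ⟨g1, g2, g3⟩ := rs_aux_quad hw hwb hw0 1 (-ε)
    have r := rs_relaxed_mul g1 g2 hrel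
    have e : (fun x => u x * (1 + -ε * w x ^ 2)) = fun x => u x + ε * -(u x * w x ^ 2) := by
      funext x; ring
    rw [e] at r
    refine rs_relaxed_mono r (hS2.add (hb.const_mul ε)) (Filter.Eventually.of_forall fun x => ?_)
    have hg0 : 0 ≤ 1 + -ε * w x ^ 2 := by
      have h1 : w x ^ 2 ≤ |B| ^ 2 := pow_le_pow_left₀ (hw0 x) (hwB x) 2
      have h2 : ε * (|B| ^ 2 + 1) < 1 := by
        rwa [lt_div_iff₀ (by positivity)] at hε1
      nlinarith
    have h3 := g3 x
    rw [abs_neg, abs_of_pos hε] at h3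
    have h4 : |u x| * rs_lip (fun y => 1 + -ε * w y ^ 2) x ≤ |u x| * (2 * ε * w x * rs_lip w x) :=
      mul_le_mul_of_nonneg_left h3 (abs_nonneg _)
    show |1 + -ε * w x ^ 2| * rs_slope m u x + |u x| * rs_lip (fun y => 1 + -ε * w y ^ 2) x
      ≤ rs_slope m u x + ε * b x
    rw [abs_of_nonneg hg0, hbdef]
    simp only
    nlinarith
  rw [rs_E_neg_right] at key
  have i1 : Integrable (fun x => w x ^ 2 * rs_slope m u x ^ 2) m := by
    have := hb1.integrable_mul hS2
    refine this.congr (Filter.Eventually.of_forall fun x => ?_)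
    simp only [Pi.mul_apply]
    ring
  have i2 : Integrable (fun x => |u x| * w x * rs_lip w x * rs_slope m u x) m := by
    have := hb2.integrable_mul hS2
    refine this.congr (Filter.Eventually.of_forall fun x => ?_)
    simp only [Pi.mul_apply]
    ring
  have e : ∫ x, rs_slope m u x * b x ∂m
      = -(∫ x, w x ^ 2 * rs_slope m u x ^ 2 ∂m)
        + 2 * ∫ x, |u x| * w x * rs_lip w x * rs_slope m u x ∂m := by
    have i1' : Integrable (fun x => -(w x ^ 2 * rs_slope m u x ^ 2)) m := i1.neg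
    rw [← integral_neg, ← integral_const_mul, ← integral_add i1' (i2.const_mul 2)]
    refine integral_congr_ae (Filter.Eventually.of_forall fun x => ?_)
    simp only [hbdef]
    ring
  rw [e] at key
  linarith

end Claimed.Agent.R210.RS.Form
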