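/-
Row 210, layer RS: locality and pointwise minimality of the minimal relaxed slope (RS4, optional part).
Blueprint: `git show origin/helper875:docs/R210_RS.md`, section L.
-/
import Claimed.Agent.R210.RS.Approx
import Claimed.Agent.R210.RS.Dense

set_option autoImplicit false

open Claims.C0366 Claims.C0366.WeakHessian
open Claimed.Agent.R210.RS.Defs Claimed.Agent.R210.RS.Slope Claimed.Agent.R210.RS.Cut
  Claimed.Agent.R210.RS.Base Claimed.Agent.R210.RS.Rep Claimed.Agent.R210.RS.Approx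
  Claimed.Agent.R210.RS.Dense
open Set Filter MeasureTheory
open scoped ENNReal NNReal Topology

namespace Claimed.Agent.R210.RS.Local

variable {X : Type*} [MetricSpace X] [MeasurableSpace X] [BorelSpace X] {m : Measure X}

theorem rs_cutoff_squeeze {u a b : ℕ → X → ℝ} {C : ℝ} (ha : ∀ n, AEStronglyMeasurable (a n) m)
    (hb : ∀ n, AEStronglyMeasurable (b n) m)
    (hle : ∀ n, ∀ᵐ x ∂m, |u n x| ≤ C * (|a n x| + |b n x|))
    (hA : Tendsto (fun n => eLpNorm (a n) 2 m) atTop (𝓝 0))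
    (hB : Tendsto (fun n => eLpNorm (b n) 2 m) atTop (𝓝 0)) :
    Tendsto (fun n => eLpNorm (u n) 2 m) atTop (𝓝 0) := by
  have hbound : ∀ n, eLpNorm (u n) 2 m ≤
      ENNReal.ofReal C * (eLpNorm (a n) 2 m + eLpNorm (b n) 2 m) := by
    intro n
    have h1 : eLpNorm (u n) 2 m ≤ ENNReal.ofReal C * eLpNorm (fun x => |a n x| + |b n x|) 2 m := by
      refine eLpNorm_le_mul_eLpNorm_of_ae_le_mul ((hle n).mono fun x hx => ?_) 2
      rw [Real.norm_eq_abs, Real.norm_eq_abs, abs_of_nonneg (by positivity : 0 ≤ |a n x| + |b n x|)]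
      exact hx
    refine h1.trans (mul_le_mul_right ?_ _)
    have h2 : eLpNorm (fun x => |a n x| + |b n x|) 2 m ≤
        eLpNorm (fun x => |a n x|) 2 m + eLpNorm (fun x => |b n x|) 2 m :=
      eLpNorm_add_le (ha n).norm (hb n).norm (by norm_num)
    have h3 : eLpNorm (fun x => |a n x|) 2 m = eLpNorm (a n) 2 m := eLpNorm_norm (a n)
    have h4 : eLpNorm (fun x => |b n x|) 2 m = eLpNorm (b n) 2 m := eLpNorm_norm (b n)
    rwa [h3, h4] at h2
  have hlim : Tendsto (fun n => ENNReal.ofReal C * (eLpNorm (a n) 2 m + eLpNorm (b n) 2 m)) atTop (𝓝 0) := by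
    have := ENNReal.Tendsto.const_mul (a := ENNReal.ofReal C) (hA.add hB) (Or.inr ENNReal.ofReal_ne_top)
    simpa using this
  exact tendsto_of_tendsto_of_tendsto_of_le_of_le tendsto_const_nhds hlim (fun _ => bot_le) hbound

theorem rs_cutoff_memLp_mul {χ g : X → ℝ} (hχc : Continuous χ) (h0 : ∀ x, 0 ≤ χ x) (h1 : ∀ x, χ x ≤ 1)
    (hg : MemLp g 2 m) : MemLp (fun x => χ x * g x) 2 m := by
  refine MemLp.of_le_mul (c := 1) hg (hχc.aestronglyMeasurable.mul hg.aestronglyMeasurable)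
    (Eventually.of_forall fun x => ?_)
  rw [one_mul, norm_mul, Real.norm_eq_abs, abs_of_nonneg (h0 x)]
  exact mul_le_of_le_one_left (norm_nonneg _) (h1 x)

/-- (L1) Take approximating admissible pairs with bounded supports (`rs_relaxed_seq_bddSupp`)
`(g¹_n, G¹_n) → (f, G₁)`, `(g²_n, G²_n) → (f, G₂)` and `h_n = χ g¹_n + (1-χ) g²_n` (Lipschitz by `rs_lip_mul`).
`rs_ls_cutoff_le`: slope `h_n ≤ χ G¹_n + (1-χ) G²_n + L |g¹_n - g²_n|`, which tends to `χ G₁ + (1-χ) G₂`. -/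
theorem rs_relaxed_cutoff {f G₁ G₂ χ : X → ℝ} (h₁ : rs_IsRelaxed m f G₁) (h₂ : rs_IsRelaxed m f G₂)
    (hχ : GloballyLipschitz χ) (h0 : ∀ x, 0 ≤ χ x) (h1 : ∀ x, χ x ≤ 1) :
    rs_IsRelaxed m f (fun x => χ x * G₁ x + (1 - χ x) * G₂ x) := by
  obtain ⟨g1, G1, hA1, hl1, hL1⟩ := rs_relaxed_seq_bddSupp h₁
  obtain ⟨g2, G2, hA2, hl2, hL2⟩ := rs_relaxed_seq_bddSupp h₂
  have hχ' := hχ
  obtain ⟨L, hL⟩ := hχ
  have hχc : Continuous χ := hL.continuous
  have hχ1c : Continuous (fun x => 1 - χ x) := continuous_const.sub hχc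
  have h0' : ∀ x, 0 ≤ 1 - χ x := fun x => sub_nonneg.2 (h1 x)
  have h1' : ∀ x, 1 - χ x ≤ 1 := fun x => by linarith [h0 x]
  have hχb : BoundedFunction χ := ⟨1, fun x => by rw [abs_of_nonneg (h0 x)]; exact h1 x⟩
  have hχ1b : BoundedFunction (fun x => 1 - χ x) :=
    ⟨1, fun x => by rw [abs_of_nonneg (h0' x)]; exact h1' x⟩
  have hχ1 : GloballyLipschitz (fun x => 1 - χ x) :=
    ⟨L, by simpa using (LipschitzWith.const (1 : ℝ)).sub hL⟩
  have hf : MemLp f 2 m := h₁.1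
  have hG₁ : MemLp G₁ 2 m := h₁.2.1
  have hG₂ : MemLp G₂ 2 m := h₂.2.1
  have hm1 : ∀ n, AEStronglyMeasurable (fun x => g1 n x - f x) m := fun n =>
    ((hA1 n).1.2.1.sub hf).aestronglyMeasurable
  have hm2 : ∀ n, AEStronglyMeasurable (fun x => g2 n x - f x) m := fun n =>
    ((hA2 n).1.2.1.sub hf).aestronglyMeasurable
  have hM1 : ∀ n, AEStronglyMeasurable (fun x => G1 n x - G₁ x) m := fun n =>
    ((hA1 n).1.2.2.1.sub hG₁).aestronglyMeasurable
  have hM2 : ∀ n, AEStronglyMeasurable (fun x => G2 n x - G₂ x) m := fun n =>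
    ((hA2 n).1.2.2.1.sub hG₂).aestronglyMeasurable
  refine ⟨hf, (rs_cutoff_memLp_mul hχc h0 h1 hG₁).add (rs_cutoff_memLp_mul hχ1c h0' h1' hG₂),
    fun n x => χ x * g1 n x + (1 - χ x) * g2 n x,
    fun n x => χ x * |G1 n x| + (1 - χ x) * |G2 n x| + L * |g1 n x - g2 n x|, ?_, ?_, ?_⟩
  · intro n
    obtain ⟨⟨hg1L, hg1m, hG1m, hs1⟩, hb1⟩ := hA1 n
    obtain ⟨⟨hg2L, hg2m, hG2m, hs2⟩, hb2⟩ := hA2 n
    refine ⟨?_, (rs_cutoff_memLp_mul hχc h0 h1 hg1m).add (rs_cutoff_memLp_mul hχ1c h0' h1' hg2m),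
      ((rs_cutoff_memLp_mul hχc h0 h1 hG1m.norm).add (rs_cutoff_memLp_mul hχ1c h0' h1' hG2m.norm)).add
        ((hg1m.sub hg2m).norm.const_mul (L : ℝ)), ?_⟩
    · obtain ⟨K1, hK1⟩ := rs_lip_mul hχ' hχb hg1L (rs_bdd_of_bddSupp hg1L hb1)
      obtain ⟨K2, hK2⟩ := rs_lip_mul hχ1 hχ1b hg2L (rs_bdd_of_bddSupp hg2L hb2)
      exact ⟨K1 + K2, hK1.add hK2⟩
    · filter_upwards [hs1, hs2] with x hx1 hx2
      refine ⟨by have := h0 x; have := h0' x; positivity, ?_⟩
      refine (rs_ls_cutoff_le h0 h1 (rs_ls_lt_top hχ' x) (rs_ls_lt_top hg1L x)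
        (rs_ls_lt_top hg2L x)).trans ?_
      have e1 : localSlope (g1 n) x ≤ ENNReal.ofReal |G1 n x| :=
        hx1.2.trans (ENNReal.ofReal_le_ofReal (le_abs_self _))
      have e2 : localSlope (g2 n) x ≤ ENNReal.ofReal |G2 n x| :=
        hx2.2.trans (ENNReal.ofReal_le_ofReal (le_abs_self _))
      have e3 : localSlope χ x ≤ ENNReal.ofReal (L : ℝ) := by
        rw [ENNReal.ofReal_coe_nnreal]; exact rs_ls_le_of_lipschitz hL x
      rw [ENNReal.ofReal_add (by have := h0 x; have := h0' x; positivity) (by positivity),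
        ENNReal.ofReal_add (by have := h0 x; positivity) (by have := h0' x; positivity),
        ENNReal.ofReal_mul (h0 x), ENNReal.ofReal_mul (h0' x), ENNReal.ofReal_mul (NNReal.coe_nonneg L),
        mul_comm (ENNReal.ofReal (L : ℝ))]
      gcongr
  · refine rs_cutoff_squeeze (C := 1) hm1 hm2 (fun n => Eventually.of_forall fun x => ?_) hl1 hl2
    have e : χ x * g1 n x + (1 - χ x) * g2 n x - f x =
        χ x * (g1 n x - f x) + (1 - χ x) * (g2 n x - f x) := by ring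
    rw [e, one_mul]
    refine (abs_add_le _ _).trans (add_le_add ?_ ?_)
    · rw [abs_mul, abs_of_nonneg (h0 x)]
      exact mul_le_of_le_one_left (abs_nonneg _) (h1 x)
    · rw [abs_mul, abs_of_nonneg (h0' x)]
      exact mul_le_of_le_one_left (abs_nonneg _) (h1' x)
  · -- two auxiliary sequences
    have hS1 : Tendsto (fun n => eLpNorm (fun x => |G1 n x - G₁ x| + |G2 n x - G₂ x|) 2 m) atTop (𝓝 0) :=
      rs_cutoff_squeeze (C := 1) hM1 hM2 (fun n => Eventually.of_forall fun x => by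
        rw [one_mul, abs_of_nonneg (by positivity)]) hL1 hL2
    have hS2 : Tendsto (fun n => eLpNorm (fun x => |g1 n x - f x| + |g2 n x - f x|) 2 m) atTop (𝓝 0) :=
      rs_cutoff_squeeze (C := 1) hm1 hm2 (fun n => Eventually.of_forall fun x => by
        rw [one_mul, abs_of_nonneg (by positivity)]) hl1 hl2
    refine rs_cutoff_squeeze (C := 1 + L) (a := fun n x => |G1 n x - G₁ x| + |G2 n x - G₂ x|)
      (b := fun n x => |g1 n x - f x| + |g2 n x - f x|) (fun n => (hM1 n).norm.add (hM2 n).norm)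
      (fun n => (hm1 n).norm.add (hm2 n).norm) (fun n => ?_) hS1 hS2
    filter_upwards [rs_relaxed_nonneg h₁, rs_relaxed_nonneg h₂] with x hx1 hx2
    have e : χ x * |G1 n x| + (1 - χ x) * |G2 n x| + L * |g1 n x - g2 n x| -
        (χ x * G₁ x + (1 - χ x) * G₂ x) =
        χ x * (|G1 n x| - |G₁ x|) + (1 - χ x) * (|G2 n x| - |G₂ x|) + L * |g1 n x - g2 n x| := by
      rw [abs_of_nonneg hx1, abs_of_nonneg hx2]; ring
    rw [e]
    have a1 : |χ x * (|G1 n x| - |G₁ x|)| ≤ |G1 n x - G₁ x| := by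
      rw [abs_mul, abs_of_nonneg (h0 x)]
      exact (mul_le_of_le_one_left (abs_nonneg _) (h1 x)).trans (abs_abs_sub_abs_le_abs_sub _ _)
    have a2 : |(1 - χ x) * (|G2 n x| - |G₂ x|)| ≤ |G2 n x - G₂ x| := by
      rw [abs_mul, abs_of_nonneg (h0' x)]
      exact (mul_le_of_le_one_left (abs_nonneg _) (h1' x)).trans (abs_abs_sub_abs_le_abs_sub _ _)
    have a3 : |g1 n x - g2 n x| ≤ |g1 n x - f x| + |g2 n x - f x| := by
      have : g1 n x - g2 n x = (g1 n x - f x) - (g2 n x - f x) := by ring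
      rw [this]; exact abs_sub _ _
    have a4 : |(L : ℝ) * (|g1 n x - g2 n x|)| ≤ L * (|g1 n x - f x| + |g2 n x - f x|) := by
      rw [abs_mul, abs_abs, abs_of_nonneg (NNReal.coe_nonneg L)]
      exact mul_le_mul_of_nonneg_left a3 (NNReal.coe_nonneg L)
    have hLnn : (0 : ℝ) ≤ L := L.2
    rw [abs_of_nonneg (by positivity : 0 ≤ |G1 n x - G₁ x| + |G2 n x - G₂ x|),
      abs_of_nonneg (by positivity : 0 ≤ |g1 n x - f x| + |g2 n x - f x|)]
    have t1 := abs_add_le (χ x * (|G1 n x| - |G₁ x|) + (1 - χ x) * (|G2 n x| - |G₂ x|)) (L * |g1 n x - g2 n x|)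
    have t2 := abs_add_le (χ x * (|G1 n x| - |G₁ x|)) ((1 - χ x) * (|G2 n x| - |G₂ x|))
    have p1 : 0 ≤ |G1 n x - G₁ x| + |G2 n x - G₂ x| := by positivity
    have p2 : 0 ≤ |g1 n x - f x| + |g2 n x - f x| := by positivity
    nlinarith

/-- `L²` norm with respect to the weighted measure `D² m`. -/
theorem rs_eLpNorm_withDensity_sq {u D : X → ℝ} (hu : Measurable u) (hD : Measurable D) :
    eLpNorm u 2 (m.withDensity (fun x => ENNReal.ofReal (D x ^ 2))) =
      eLpNorm (fun x => u x * D x) 2 m := by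
  rw [eLpNorm_eq_lintegral_rpow_enorm_toReal (by norm_num) (by norm_num),
    eLpNorm_eq_lintegral_rpow_enorm_toReal (by norm_num) (by norm_num)]
  congr 1
  rw [lintegral_withDensity_eq_lintegral_mul _ (hD.pow_const 2).ennreal_ofReal
    (hu.enorm.pow_const _)]
  refine lintegral_congr (fun x => ?_)
  simp only [Pi.mul_apply, ENNReal.toReal_ofNat]
  rw [enorm_mul, ENNReal.mul_rpow_of_nonneg _ _ (by norm_num), mul_comm]
  congr 1
  rw [Real.enorm_eq_ofReal_abs, ENNReal.ofReal_rpow_of_nonneg (abs_nonneg _) (by norm_num)]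
  congr 1
  rw [show (2 : ℝ) = ((2 : ℕ) : ℝ) by norm_num, Real.rpow_natCast, sq_abs]

/-- the measurable case of `rs_relaxed_piecewise`. -/
theorem rs_relaxed_piecewise_aux [TopologicalSpace.SeparableSpace X] {f G₁ G₂ : X → ℝ} {B : Set X}
    (hB : MeasurableSet B) (hm₁ : Measurable G₁) (hm₂ : Measurable G₂)
    (h₁ : rs_IsRelaxed m f G₁) (h₂ : rs_IsRelaxed m f G₂) :
    rs_IsRelaxed m f (fun x => B.indicator G₁ x + Bᶜ.indicator G₂ x) := by
  have hf : MemLp f 2 m := h₁.1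
  have hG₁ : MemLp G₁ 2 m := h₁.2.1
  have hG₂ : MemLp G₂ 2 m := h₂.2.1
  set D : X → ℝ := fun x => G₁ x - G₂ x with hDdef
  have hDm : Measurable D := hm₁.sub hm₂
  have hD : MemLp D 2 m := hG₁.sub hG₂
  set μ : Measure X := m.withDensity (fun x => ENNReal.ofReal (D x ^ 2)) with hμ
  haveI : IsFiniteMeasure μ := by
    refine isFiniteMeasure_withDensity ?_
    exact (hD.integrable_sq.lintegral_lt_top).ne
  have hex : ∀ k : ℕ, ∃ χ : X → ℝ, GloballyLipschitz χ ∧ (∀ x, 0 ≤ χ x) ∧ (∀ x, χ x ≤ 1) ∧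
      eLpNorm (fun x => χ x - B.indicator (fun _ => (1 : ℝ)) x) 2 μ ≤ ((k : ℝ≥0∞) + 1)⁻¹ := by
    intro k
    refine rs_dense_unit (μ := μ) hB ?_
    exact ENNReal.inv_ne_zero.2 (by finiteness)
  choose χ hχL hχ0 hχ1 hχe using hex
  have hH : MemLp (fun x => B.indicator G₁ x + Bᶜ.indicator G₂ x) 2 m :=
    (hG₁.indicator hB).add (hG₂.indicator hB.compl)
  refine rs_relaxed_closed (fs := fun _ => f)
    (Gs := fun k x => χ k x * G₁ x + (1 - χ k x) * G₂ x)
    (fun k => rs_relaxed_cutoff h₁ h₂ (hχL k) (hχ0 k) (hχ1 k)) hf hH ?_ ?_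
  · simp [rs_L2Lim]
  · have hle : ∀ k, eLpNorm (fun x => (χ k x * G₁ x + (1 - χ k x) * G₂ x) -
        (B.indicator G₁ x + Bᶜ.indicator G₂ x)) 2 m ≤ ((k : ℝ≥0∞) + 1)⁻¹ := by
      intro k
      have hχm : Measurable (fun x => χ k x - B.indicator (fun _ => (1 : ℝ)) x) := by
        obtain ⟨L, hL⟩ := hχL k
        exact hL.continuous.measurable.sub (measurable_const.indicator hB)
      have heq : (fun x => (χ k x * G₁ x + (1 - χ k x) * G₂ x) -
          (B.indicator G₁ x + Bᶜ.indicator G₂ x)) =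
          fun x => (χ k x - B.indicator (fun _ => (1 : ℝ)) x) * D x := by
        funext x
        by_cases hx : x ∈ B
        · simp [hx, hDdef]; ring
        · simp [hx, hDdef]; ring
      rw [heq, ← rs_eLpNorm_withDensity_sq hχm hDm]
      exact hχe k
    have hlim : Tendsto (fun k : ℕ => ((k : ℝ≥0∞) + 1)⁻¹) atTop (𝓝 0) := by
      have h1 : Tendsto (fun k : ℕ => ((k : ℝ≥0∞) + 1)) atTop (𝓝 ∞) := by
        have := ENNReal.tendsto_nat_nhds_top
        exact tendsto_nhds_top_mono this (Eventually.of_forall (fun k => le_self_add))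
      simpa using ENNReal.tendsto_inv_iff.2 h1
    exact tendsto_of_tendsto_of_tendsto_of_le_of_le tendsto_const_nhds hlim
      (fun _ => zero_le) hle

/-- (L2) W.l.o.g. `G₁, G₂` measurable (`rs_relaxed_congr`).  `μ = m.withDensity (ofReal ((G₁-G₂)²))` is a finite
measure; `rs_dense_unit` gives `χ_k → 1_B` in `L²(μ)`, i.e. `(χ_k - 1_B)(G₁ - G₂) → 0` in `L²(m)`;
`rs_relaxed_cutoff` + `rs_relaxed_closed`. -/
theorem rs_relaxed_piecewise [TopologicalSpace.SeparableSpace X] {f G₁ G₂ : X → ℝ} {B : Set X}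
    (hB : MeasurableSet B) (h₁ : rs_IsRelaxed m f G₁) (h₂ : rs_IsRelaxed m f G₂) :
    rs_IsRelaxed m f (fun x => B.indicator G₁ x + Bᶜ.indicator G₂ x) := by
  have hs₁ := h₁.2.1.1
  have hs₂ := h₂.2.1.1
  have e₁ : G₁ =ᵐ[m] hs₁.mk G₁ := hs₁.ae_eq_mk
  have e₂ : G₂ =ᵐ[m] hs₂.mk G₂ := hs₂.ae_eq_mk
  have key := rs_relaxed_piecewise_aux hB hs₁.stronglyMeasurable_mk.measurable
    hs₂.stronglyMeasurable_mk.measurable
    (rs_relaxed_congr (EventuallyEq.refl _ f) e₁ h₁) (rs_relaxed_congr (EventuallyEq.refl _ f) e₂ h₂)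
  refine rs_relaxed_congr (EventuallyEq.refl _ f) ?_ key
  filter_upwards [e₁, e₂] with x hx₁ hx₂
  by_cases hx : x ∈ B
  · simp [hx, hx₁]
  · simp [hx, hx₂]

theorem rs_relaxed_min [TopologicalSpace.SeparableSpace X] {f G₁ G₂ : X → ℝ}
    (h₁ : rs_IsRelaxed m f G₁) (h₂ : rs_IsRelaxed m f G₂) :
    rs_IsRelaxed m f (fun x => min (G₁ x) (G₂ x)) := by
  have a₁ := h₁.2.1.1
  have a₂ := h₂.2.1.1
  have e₁ : G₁ =ᵐ[m] a₁.mk G₁ := a₁.ae_eq_mk
  have e₂ : G₂ =ᵐ[m] a₂.mk G₂ := a₂.ae_eq_mk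
  have m₁ : Measurable (a₁.mk G₁) := a₁.stronglyMeasurable_mk.measurable
  have m₂ : Measurable (a₂.mk G₂) := a₂.stronglyMeasurable_mk.measurable
  have h₁' := rs_relaxed_congr (EventuallyEq.refl _ f) e₁ h₁
  have h₂' := rs_relaxed_congr (EventuallyEq.refl _ f) e₂ h₂
  have hB : MeasurableSet {x | a₁.mk G₁ x ≤ a₂.mk G₂ x} := measurableSet_le m₁ m₂
  refine rs_relaxed_congr (EventuallyEq.refl _ f) ?_ (rs_relaxed_piecewise hB h₁' h₂')
  filter_upwards [e₁, e₂] with x hx₁ hx₂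
  by_cases hx : a₁.mk G₁ x ≤ a₂.mk G₂ x
  · rw [Set.indicator_of_mem (show x ∈ {x | a₁.mk G₁ x ≤ a₂.mk G₂ x} from hx),
      Set.indicator_of_notMem (show x ∉ {x | a₁.mk G₁ x ≤ a₂.mk G₂ x}ᶜ from fun hc => hc hx), add_zero, hx₁, hx₂, min_eq_left hx]
  · rw [Set.indicator_of_notMem (show x ∉ {x | a₁.mk G₁ x ≤ a₂.mk G₂ x} from hx),
      Set.indicator_of_mem (show x ∈ {x | a₁.mk G₁ x ≤ a₂.mk G₂ x}ᶜ from hx), zero_add, hx₁, hx₂,
      min_eq_right (not_le.1 hx).le]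

/-- (L3) pointwise minimality: `min G (rs_slope m f)` is a relaxed slope of norm `≤` the minimal norm;
`rs_slope_eq_of_norm_le`. -/
theorem rs_slope_le_of_relaxed [TopologicalSpace.SeparableSpace X] {f G : X → ℝ}
    (h : rs_IsRelaxed m f G) : ∀ᵐ x ∂m, rs_slope m f x ≤ G x := by
  have hfin : cheegerEnergy m f < ∞ := rs_cheeger_lt_top_iff.2 ⟨G, h⟩
  have hS := rs_slope_isRelaxed hfin
  have hM := rs_relaxed_min h hS
  have hM0 := rs_relaxed_nonneg hM
  have hle : ∫ x, (min (G x) (rs_slope m f x)) ^ 2 ∂m ≤ ∫ x, rs_slope m f x ^ 2 ∂m := by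
    refine integral_mono_ae hM.2.1.integrable_sq hS.2.1.integrable_sq ?_
    filter_upwards [hM0] with x hx
    exact pow_le_pow_left₀ hx (min_le_right _ _) 2
  filter_upwards [rs_slope_eq_of_norm_le hM hle] with x hx
  rw [← hx]
  exact min_le_left _ _

theorem rs_slope_add_le [TopologicalSpace.SeparableSpace X] {f g : X → ℝ}
    (hf : cheegerEnergy m f < ∞) (hg : cheegerEnergy m g < ∞) :
    ∀ᵐ x ∂m, rs_slope m (fun y => f y + g y) x ≤ rs_slope m f x + rs_slope m g x :=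
  rs_slope_le_of_relaxed (rs_relaxed_add (rs_slope_isRelaxed hf) (rs_slope_isRelaxed hg))

theorem rs_slope_le_lip [TopologicalSpace.SeparableSpace X] {g : X → ℝ} (hg : GloballyLipschitz g)
    (hg2 : MemLp g 2 m) (hs : MemLp (rs_lip g) 2 m) : ∀ᵐ x ∂m, rs_slope m g x ≤ rs_lip g x :=
  rs_slope_le_of_relaxed (rs_relaxed_of_adm
    ⟨hg, hg2, hs,
      Filter.Eventually.of_forall fun x => ⟨rs_lip_nonneg g x, (rs_ofReal_lip hg x).ge⟩⟩)

end Claimed.Agent.R210.RS.Local
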