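/-
Row 210, layer RS: a relaxed slope is a weak upper gradient (RS7).
Blueprint: `git show origin/helper875:docs/R210_RS.md`, section W.
-/
import Claimed.Agent.R210.RS.Base
import Claimed.Agent.R210.CU.Ifc

set_option autoImplicit false

open Claims.C0366 Claims.C0366.WeakHessian
open Claimed.Agent.R210.RS.Defs Claimed.Agent.R210.RS.Slope Claimed.Agent.R210.RS.Cut
  Claimed.Agent.R210.RS.Base
open Set Filter MeasureTheory
open scoped ENNReal NNReal Topology

namespace Claimed.Agent.R210.RS.Wug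

variable {X : Type*} [MetricSpace X]

/-- (W1a) pointwise bound of the derivative of `g ∘ γ`:
`|g γ_s - g γ_t| ≤ (σ+ε) d(γ_s, γ_t) ≤ (σ+ε)(v+ε)|s - t|` for `s` near `t` (`rs_ls_eventually`, continuity of
`s ↦ evalReal γ s`, definition of the limsup), `σ` = slope, `v` = speed.  The finiteness of the speed is needed
(`0 * ∞ = 0`). -/
theorem rs_deriv_comp_le {g : X → ℝ} (hg : GloballyLipschitz g) (γ : Curve X) {t d : ℝ}
    (hd : HasDerivAt (fun s => g (evalReal γ s)) d t) (hs : metricSpeed γ t < ∞) :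
    ENNReal.ofReal |d| ≤ localSlope g (evalReal γ t) * metricSpeed γ t := by
  set x := evalReal γ t with hx
  set σ := rs_lip g x with hσ
  set v := (metricSpeed γ t).toReal with hv
  have hσ0 : 0 ≤ σ := rs_lip_nonneg g x
  have hv0 : 0 ≤ v := ENNReal.toReal_nonneg
  have hσe : ENNReal.ofReal σ = localSlope g x := rs_ofReal_lip hg x
  have hve : ENNReal.ofReal v = metricSpeed γ t := ENNReal.ofReal_toReal hs.ne
  have hclamp : Continuous clampTime :=
    Continuous.subtype_mk (continuous_const.max (continuous_const.min continuous_id)) _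
  have hcont : Continuous (evalReal γ) := γ.continuous.comp hclamp
  have key : ∀ ε > 0, |d| ≤ (σ + ε) * (v + ε) := by
    intro ε hε
    have h1 : ∀ᶠ s in 𝓝[≠] t, |g (evalReal γ s) - g x| ≤ (σ + ε) * dist (evalReal γ s) x :=
      ((hcont.tendsto t).eventually (rs_ls_eventually (rs_ls_lt_top hg x) ε hε)).filter_mono
        nhdsWithin_le_nhds
    have h2 : ∀ᶠ s in 𝓝[≠] t, ENNReal.ofReal (dist (evalReal γ s) (evalReal γ t) / |s - t|)
        < ENNReal.ofReal (v + ε) := by
      have h0 : metricSpeed γ t < ENNReal.ofReal (v + ε) := by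
        rw [← hve]
        exact (ENNReal.ofReal_lt_ofReal_iff (by linarith)).2 (by linarith)
      exact eventually_lt_of_limsup_lt h0
    have h3 : Tendsto (fun s => |slope (fun s => g (evalReal γ s)) t s|) (𝓝[≠] t) (𝓝 |d|) :=
      (hasDerivAt_iff_tendsto_slope.1 hd).abs
    refine le_of_tendsto h3 ?_
    filter_upwards [h1, h2, self_mem_nhdsWithin] with s hs1 hs2 hs3
    have hst : 0 < |s - t| := abs_pos.2 (sub_ne_zero.2 hs3)
    have hs2' : dist (evalReal γ s) x / |s - t| < v + ε :=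
      (ENNReal.ofReal_lt_ofReal_iff (by linarith)).1 hs2
    rw [slope_def_field, abs_div, div_le_iff₀ hst]
    rw [div_lt_iff₀ hst] at hs2'
    calc |g (evalReal γ s) - g (evalReal γ t)| ≤ (σ + ε) * dist (evalReal γ s) x := hs1
      _ ≤ (σ + ε) * ((v + ε) * |s - t|) := by gcongr
      _ = (σ + ε) * (v + ε) * |s - t| := by ring
  have hfin : |d| ≤ σ * v := by
    have h4 : Tendsto (fun ε : ℝ => (σ + ε) * (v + ε)) (𝓝[>] 0) (𝓝 ((σ + 0) * (v + 0))) :=
      (Continuous.tendsto (by fun_prop) 0).mono_left nhdsWithin_le_nhds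
    have h5 := ge_of_tendsto h4
      (by filter_upwards [self_mem_nhdsWithin] with ε hε using key ε hε)
    simpa using h5
  calc ENNReal.ofReal |d| ≤ ENNReal.ofReal (σ * v) := ENNReal.ofReal_le_ofReal hfin
    _ = localSlope g x * metricSpeed γ t := by rw [ENNReal.ofReal_mul hσ0, hσe, hve]

/-- an `AC²` curve is controlled by the primitive of a nonnegative integrable function. -/
theorem rs_ac2_prim {γ : Curve X} (hγ : IsAC2 γ) :
    ∃ b : ℝ → ℝ, (∀ r, 0 ≤ b r) ∧ Integrable b volume ∧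
      ∀ s t : ℝ, s ≤ t → dist (evalReal γ s) (evalReal γ t) ≤ ∫ r in s..t, b r := by
  obtain ⟨a, ha, ha2, hle⟩ := hγ
  have h1 : (∫⁻ t in Set.Icc (0 : ℝ) 1, a t) < ∞ := by
    have hpt : ∀ x : ℝ≥0∞, x ≤ 1 + x ^ 2 := by
      intro x
      rcases le_total x 1 with h | h
      · exact h.trans le_self_add
      · calc x = x * 1 := (mul_one x).symm
          _ ≤ x * x := by gcongr
          _ = x ^ 2 := (sq x).symm
          _ ≤ 1 + x ^ 2 := le_add_self
    calc (∫⁻ t in Set.Icc (0 : ℝ) 1, a t) ≤ ∫⁻ t in Set.Icc (0 : ℝ) 1, (1 + (a t) ^ 2) :=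
          lintegral_mono (fun t => hpt (a t))
      _ = (∫⁻ _ in Set.Icc (0 : ℝ) 1, 1) + ∫⁻ t in Set.Icc (0 : ℝ) 1, (a t) ^ 2 :=
          lintegral_add_left measurable_const _
      _ < ∞ := by
          refine ENNReal.add_lt_top.mpr ⟨?_, ha2⟩
          simp
  have hfin : ∀ᵐ r ∂(volume.restrict (Set.Icc (0 : ℝ) 1)), a r < ∞ :=
    ae_lt_top ha h1.ne
  refine ⟨(Set.Icc (0 : ℝ) 1).indicator (fun r => (a r).toReal), ?_, ?_, ?_⟩
  · intro r
    exact Set.indicator_nonneg (fun _ _ => ENNReal.toReal_nonneg) r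
  · rw [integrable_indicator_iff measurableSet_Icc]
    exact integrable_toReal_of_lintegral_ne_top ha.aemeasurable h1.ne
  · intro s t hst
    set b : ℝ → ℝ := (Set.Icc (0 : ℝ) 1).indicator (fun r => (a r).toReal) with hb
    have hbint : Integrable b volume := by
      rw [hb, integrable_indicator_iff measurableSet_Icc]
      exact integrable_toReal_of_lintegral_ne_top ha.aemeasurable h1.ne
    have hb0 : ∀ r, 0 ≤ b r := fun r => Set.indicator_nonneg (fun _ _ => ENNReal.toReal_nonneg) r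
    have hc : ((clampTime s : Time) : ℝ) ≤ ((clampTime t : Time) : ℝ) := by
      show max 0 (min 1 s) ≤ max 0 (min 1 t)
      exact max_le_max le_rfl (min_le_min le_rfl hst)
    have hsub : Set.Ioc ((clampTime s : Time) : ℝ) ((clampTime t : Time) : ℝ) ⊆ Set.Ioc s t := by
      intro r hr
      have h1' : max 0 (min 1 s) < r := hr.1
      have h2' : r ≤ max 0 (min 1 t) := hr.2
      constructor
      · by_contra hcon
        push Not at hcon
        have h3 : 0 < r := lt_of_le_of_lt (le_max_left _ _) h1'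
        have h4 : min 1 s < r := lt_of_le_of_lt (le_max_right _ _) h1'
        have h5 : r ≤ 1 := by
          refine h2'.trans (max_le zero_le_one (min_le_left _ _))
        rcases min_lt_iff.mp h4 with h6 | h6
        · linarith
        · linarith
      · rcases le_max_iff.mp h2' with h6 | h6
        · have h3 : 0 < r := lt_of_le_of_lt (le_max_left _ _) h1'
          linarith
        · exact h6.trans (min_le_right _ _)
    have hsub01 : Set.Ioc ((clampTime s : Time) : ℝ) ((clampTime t : Time) : ℝ) ⊆ Set.Icc 0 1 := by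
      intro r hr
      exact ⟨(clampTime s).2.1.trans hr.1.le, hr.2.trans (clampTime t).2.2⟩
    have e1 : edist (evalReal γ s) (evalReal γ t) ≤ ENNReal.ofReal (∫ r in s..t, b r) := by
      calc edist (evalReal γ s) (evalReal γ t)
          ≤ ∫⁻ r in Set.Icc ((clampTime s : Time) : ℝ) ((clampTime t : Time) : ℝ), a r :=
            hle _ _ hc
        _ = ∫⁻ r in Set.Ioc ((clampTime s : Time) : ℝ) ((clampTime t : Time) : ℝ), a r := by
            rw [Measure.restrict_congr_set Ioc_ae_eq_Icc]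
        _ = ∫⁻ r in Set.Ioc ((clampTime s : Time) : ℝ) ((clampTime t : Time) : ℝ),
              ENNReal.ofReal (b r) := by
            refine lintegral_congr_ae ?_
            have hfin' := ae_restrict_of_ae_restrict_of_subset hsub01 hfin
            filter_upwards [hfin', ae_restrict_mem measurableSet_Ioc] with r hr hmem
            rw [hb, Set.indicator_of_mem (hsub01 hmem), ENNReal.ofReal_toReal hr.ne]
        _ ≤ ∫⁻ r in Set.Ioc s t, ENNReal.ofReal (b r) := lintegral_mono_set hsub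
        _ = ENNReal.ofReal (∫ r in Set.Ioc s t, b r) := by
            rw [ofReal_integral_eq_lintegral_ofReal hbint.integrableOn
              (Eventually.of_forall hb0)]
        _ = ENNReal.ofReal (∫ r in s..t, b r) := by
            rw [intervalIntegral.integral_of_le hst]
    rw [edist_dist] at e1
    exact (ENNReal.ofReal_le_ofReal_iff
      (intervalIntegral.integral_nonneg hst (fun r _ => hb0 r))).mp e1

/-- two-sided version with the primitive `A x = ∫ v in 0..x, b v`. -/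
theorem rs_ac2_prim' {γ : Curve X} (hγ : IsAC2 γ) :
    ∃ b : ℝ → ℝ, (∀ r, 0 ≤ b r) ∧ Integrable b volume ∧
      ∀ s t : ℝ, dist (evalReal γ s) (evalReal γ t) ≤
        |(∫ r in (0:ℝ)..s, b r) - ∫ r in (0:ℝ)..t, b r| := by
  obtain ⟨b, hb0, hbi, h⟩ := rs_ac2_prim hγ
  refine ⟨b, hb0, hbi, ?_⟩
  have key : ∀ s t : ℝ, s ≤ t → dist (evalReal γ s) (evalReal γ t) ≤
      |(∫ r in (0:ℝ)..s, b r) - ∫ r in (0:ℝ)..t, b r| := by
    intro s t hst
    have e : (∫ r in (0:ℝ)..t, b r) - ∫ r in (0:ℝ)..s, b r = ∫ r in s..t, b r :=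
      intervalIntegral.integral_interval_sub_left hbi.intervalIntegrable hbi.intervalIntegrable
    rw [abs_sub_comm, e]
    exact (h s t hst).trans (le_abs_self _)
  intro s t
  rcases le_total s t with hst | hst
  · exact key s t hst
  · rw [dist_comm, abs_sub_comm]
    exact key t s hst

/-- (W1c) the metric speed of an `AC²` curve is finite a.e.:  `A t = (∫⁻ r in Icc 0 (min t 1), a r).toReal` is monotone,
hence a.e. differentiable (`Monotone.ae_differentiableAt`), and `dist γ_s γ_t ≤ |A s - A t|`. -/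
theorem rs_speed_lt_top {γ : Curve X} (hγ : IsAC2 γ) :
    ∀ᵐ t ∂(volume.restrict (Set.Icc (0 : ℝ) 1)), metricSpeed γ t < ∞ := by
  obtain ⟨b, hb0, hbi, h⟩ := rs_ac2_prim' hγ
  have hmono : Monotone (fun x : ℝ => ∫ r in (0:ℝ)..x, b r) := by
    intro x y hxy
    have e : (∫ r in (0:ℝ)..y, b r) - ∫ r in (0:ℝ)..x, b r = ∫ r in x..y, b r :=
      intervalIntegral.integral_interval_sub_left hbi.intervalIntegrable hbi.intervalIntegrable
    have : 0 ≤ ∫ r in x..y, b r := intervalIntegral.integral_nonneg hxy (fun r _ => hb0 r)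
    show (∫ r in (0:ℝ)..x, b r) ≤ ∫ r in (0:ℝ)..y, b r
    linarith
  refine ae_restrict_of_ae ?_
  filter_upwards [hmono.ae_differentiableAt] with t ht
  have hd := ht.hasDerivAt
  rw [hasDerivAt_iff_tendsto_slope] at hd
  set A : ℝ → ℝ := fun x : ℝ => ∫ r in (0:ℝ)..x, b r with hA
  have hev : ∀ᶠ s in 𝓝[≠] t, |slope A t s| < |deriv A t| + 1 :=
    (hd.abs).eventually (gt_mem_nhds (by linarith))
  have hle : metricSpeed γ t ≤ ENNReal.ofReal (|deriv A t| + 1) := by
    unfold metricSpeed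
    refine Filter.limsup_le_of_le (by isBoundedDefault) ?_
    filter_upwards [hev, self_mem_nhdsWithin] with s hs hne
    refine ENNReal.ofReal_le_ofReal ?_
    have hpos : 0 < |s - t| := abs_pos.mpr (sub_ne_zero.mpr hne)
    have e : |slope A t s| = |A s - A t| / |s - t| := by
      rw [slope_def_field, abs_div]
    rw [e] at hs
    refine le_trans ?_ hs.le
    gcongr
    exact h s t
  exact lt_of_le_of_lt hle ENNReal.ofReal_lt_top

/-- (W1b) `g ∘ γ` is absolutely continuous on `[0,1]`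
(`|g γ_t - g γ_s| ≤ L ∫_s^t a`, absolute continuity of the integral of `a ∈ L²(0,1) ⊆ L¹(0,1)`). -/
theorem rs_ac_comp {g : X → ℝ} (hg : GloballyLipschitz g) {γ : Curve X} (hγ : IsAC2 γ) :
    AbsolutelyContinuousOnInterval (fun s => g (evalReal γ s)) 0 1 := by
  obtain ⟨b, hb0, hbi, h⟩ := rs_ac2_prim' hγ
  obtain ⟨L, hL⟩ := hg
  have hA : AbsolutelyContinuousOnInterval (fun x : ℝ => ∫ v in (0:ℝ)..x, b v) 0 1 :=
    (hbi.intervalIntegrable (a := 0) (b := 1)).absolutelyContinuousOnInterval_intervalIntegral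
      (by simp)
  have hLA := hA.const_mul (L : ℝ)
  refine squeeze_zero (fun E => Finset.sum_nonneg (fun _ _ => dist_nonneg)) (fun E => ?_) hLA
  refine Finset.sum_le_sum (fun i _ => ?_)
  calc dist (g (evalReal γ (E.2 i).1)) (g (evalReal γ (E.2 i).2))
      ≤ L * dist (evalReal γ (E.2 i).1) (evalReal γ (E.2 i).2) := hL.dist_le_mul _ _
    _ ≤ L * |(∫ r in (0:ℝ)..(E.2 i).1, b r) - ∫ r in (0:ℝ)..(E.2 i).2, b r| := by
        gcongr
        exact h _ _
    _ = dist ((L : ℝ) * ∫ v in (0:ℝ)..(E.2 i).1, b v) ((L : ℝ) * ∫ v in (0:ℝ)..(E.2 i).2, b v) := by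
        rw [Real.dist_eq, ← mul_sub, abs_mul, abs_of_nonneg (NNReal.coe_nonneg L)]

/-- (W1) the slope of a Lipschitz function is an upper gradient along `AC²` curves
(`AbsolutelyContinuousOnInterval.integral_deriv_eq_sub`, `.ae_differentiableAt`, `.intervalIntegrable_deriv`,
`rs_deriv_comp_le`, `rs_speed_lt_top`, `lintegral_mono_ae`: no measurability of the right-hand side is needed). -/
theorem rs_lip_upper_gradient {g : X → ℝ} (hg : GloballyLipschitz g) {γ : Curve X} (hγ : IsAC2 γ) :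
    ENNReal.ofReal |g (γ timeOne) - g (γ timeZero)| ≤
      ∫⁻ t in Set.Icc (0 : ℝ) 1, localSlope g (evalReal γ t) * metricSpeed γ t := by
  set F : ℝ → ℝ := fun s => g (evalReal γ s) with hF
  have hac : AbsolutelyContinuousOnInterval F 0 1 := rs_ac_comp hg hγ
  have h1 : g (γ timeOne) = F 1 := by
    have : clampTime 1 = timeOne := Subtype.ext (by simp [clampTime, timeOne])
    simp only [hF, evalReal, this]
  have h0 : g (γ timeZero) = F 0 := by
    have : clampTime 0 = timeZero := Subtype.ext (by simp [clampTime, timeZero])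
    simp only [hF, evalReal, this]
  have hint : IntervalIntegrable (deriv F) volume 0 1 := hac.intervalIntegrable_deriv
  have hint' : IntegrableOn (deriv F) (Set.Icc (0 : ℝ) 1) volume :=
    (intervalIntegrable_iff_integrableOn_Icc_of_le zero_le_one).1 hint
  have hle : |F 1 - F 0| ≤ ∫ x in Set.Icc (0 : ℝ) 1, |deriv F x| := by
    rw [← hac.integral_deriv_eq_sub, intervalIntegral.integral_of_le zero_le_one,
      ← integral_Icc_eq_integral_Ioc]
    exact abs_integral_le_integral_abs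
  rw [h1, h0]
  calc ENNReal.ofReal |F 1 - F 0|
      ≤ ENNReal.ofReal (∫ x in Set.Icc (0 : ℝ) 1, |deriv F x|) := ENNReal.ofReal_le_ofReal hle
    _ = ∫⁻ x in Set.Icc (0 : ℝ) 1, ENNReal.ofReal |deriv F x| :=
        ofReal_integral_eq_lintegral_ofReal hint'.abs (Eventually.of_forall fun _ => abs_nonneg _)
    _ ≤ ∫⁻ t in Set.Icc (0 : ℝ) 1, localSlope g (evalReal γ t) * metricSpeed γ t := by
        refine lintegral_mono_ae ?_
        have hd : ∀ᵐ x ∂(volume.restrict (Set.Icc (0 : ℝ) 1)), DifferentiableAt ℝ F x := by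
          rw [ae_restrict_iff' measurableSet_Icc]
          filter_upwards [hac.ae_differentiableAt] with x hx hx'
          exact hx (by rwa [Set.uIcc_of_le zero_le_one])
        filter_upwards [hd, rs_speed_lt_top hγ] with x hx hs
        exact rs_deriv_comp_le hg γ hx.hasDerivAt hs

variable [MeasurableSpace X] [BorelSpace X] [CompleteSpace X] [TopologicalSpace.SeparableSpace X]
  {m : Measure X}

/-! ### Bridge leaves: integration along test plans (contract CU1, CU2, CU7; use `R210/CU/Ifc*.lean`) -/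

/-- (W2) `m`-null sets are not seen by test plans. -/
theorem rs_plan_null {π : Measure (Curve X)} (hπ : IsTestPlan m π) {N : Set X} (hN : m N = 0) :
    ∀ᵐ γ ∂π, ∀ᵐ t ∂(volume.restrict (Set.Icc (0 : ℝ) 1)), evalReal γ t ∉ N := by
  have := hπ.1
  obtain ⟨C, hC⟩ := CU.Ifc.cu_compr_of_testPlan hπ
  exact CU.Ifc.cu_ae_ae_along hC (measure_eq_zero_iff_ae_notMem.1 hN)

/-- (W3) Cauchy-Schwarz along a test plan. -/
theorem rs_plan_cs {π : Measure (Curve X)} (hπ : IsTestPlan m π) :
    ∃ K : ℝ≥0∞, K < ∞ ∧ ∀ D : X → ℝ, MemLp D 2 m →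
      ∫⁻ γ, ∫⁻ t in Set.Icc (0 : ℝ) 1, ENNReal.ofReal |D (evalReal γ t)| * metricSpeed γ t ∂volume ∂π
        ≤ K * eLpNorm D 2 m := by
  have := hπ.1
  obtain ⟨C, hC⟩ := CU.Ifc.cu_compr_of_testPlan hπ
  have hE : (∫⁻ γ, CU.Defs.cu_energy γ ∂π) < ∞ := (CU.Ifc.cu_testPlan_iff.1 hπ).2.2.2
  refine ⟨(C : ℝ≥0∞) ^ (1 / 2 : ℝ) * (∫⁻ γ, CU.Defs.cu_energy γ ∂π) ^ (1 / 2 : ℝ), ?_, fun D hD => ?_⟩
  · exact ENNReal.mul_lt_top (ENNReal.rpow_lt_top_of_nonneg (by norm_num) ENNReal.coe_ne_top)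
      (ENNReal.rpow_lt_top_of_nonneg (by norm_num) hE.ne)
  · have hg : AEMeasurable (fun x => ENNReal.ofReal |D x|) m := by
      simp only [← Real.enorm_eq_ofReal_abs]
      exact hD.1.enorm
    have h1 := CU.Ifc.cu_cauchy_schwarz_along hC hg
    have h2 : (∫⁻ x, (ENNReal.ofReal |D x|) ^ 2 ∂m) ^ (1 / 2 : ℝ) = eLpNorm D 2 m := by
      rw [eLpNorm_eq_lintegral_rpow_enorm_toReal (by norm_num) (by norm_num)]
      simp only [← Real.enorm_eq_ofReal_abs, ENNReal.toReal_ofNat, ENNReal.rpow_two]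
    refine h1.trans (le_of_eq ?_)
    rw [ENNReal.mul_rpow_of_nonneg _ _ (by norm_num : (0 : ℝ) ≤ 1 / 2), h2]
    ring

/-- a.e.-measurability of `φ ∘ e_t` from `(e_t)_# π ≤ C m`. -/
theorem rs_aemeasurable_eval {π : Measure (Curve X)} (hπ : IsTestPlan m π) {β : Type*} [MeasurableSpace β]
    {φ : X → β} (hφ : AEMeasurable φ m) (t : Time) : AEMeasurable (fun γ : Curve X => φ (γ t)) π := by
  obtain ⟨C, hC⟩ := hπ.2.1
  have h1 : AEMeasurable φ (Measure.map (fun γ : Curve X => γ t) π) :=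
    (hφ.smul_measure (C : ℝ≥0∞)).mono_measure (hC t)
  exact h1.comp_measurable (CU.IfcBasic.cu_measurable_eval t)

/-- (W4) evaluation at a fixed time. -/
theorem rs_plan_eval {π : Measure (Curve X)} (hπ : IsTestPlan m π) :
    ∃ K : ℝ≥0∞, K < ∞ ∧ ∀ h : X → ℝ, MemLp h 2 m → ∀ t : Time,
      ∫⁻ γ, ENNReal.ofReal |h (γ t)| ∂π ≤ K * eLpNorm h 2 m := by
  have := hπ.1
  obtain ⟨C, hC⟩ := hπ.2.1
  refine ⟨(C : ℝ≥0∞) ^ (1 / 2 : ℝ), ENNReal.rpow_lt_top_of_nonneg (by norm_num) ENNReal.coe_ne_top,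
    fun h hh t => ?_⟩
  have hm : Measurable (fun γ : Curve X => γ t) := CU.IfcBasic.cu_measurable_eval t
  have h0 : AEStronglyMeasurable h (Measure.map (fun γ : Curve X => γ t) π) :=
    (hh.1.smul_measure (C : ℝ≥0∞)).mono_measure (hC t)
  have h1 : AEStronglyMeasurable (h ∘ fun γ : Curve X => γ t) π := h0.comp_measurable hm
  have h2 : eLpNorm (h ∘ fun γ : Curve X => γ t) 1 π ≤ eLpNorm (h ∘ fun γ : Curve X => γ t) 2 π :=
    eLpNorm_le_eLpNorm_of_exponent_le (by norm_num) h1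
  have h3 : eLpNorm (h ∘ fun γ : Curve X => γ t) 2 π = eLpNorm h 2 (Measure.map (fun γ : Curve X => γ t) π) :=
    (eLpNorm_map_measure h0 hm.aemeasurable).symm
  have h4 : eLpNorm h 2 (Measure.map (fun γ : Curve X => γ t) π) ≤ eLpNorm h 2 ((C : ℝ≥0∞) • m) :=
    eLpNorm_mono_measure h (hC t)
  have h5 : eLpNorm h 2 ((C : ℝ≥0∞) • m) = (C : ℝ≥0∞) ^ (1 / 2 : ℝ) * eLpNorm h 2 m := by
    rw [eLpNorm_smul_measure_of_ne_top (by norm_num)]
    simp
  have h6 : ∫⁻ γ, ENNReal.ofReal |h (γ t)| ∂π = eLpNorm (h ∘ fun γ : Curve X => γ t) 1 π := by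
    rw [eLpNorm_one_eq_lintegral_enorm]
    simp only [← Real.enorm_eq_ofReal_abs, Function.comp]
  rw [h6, ← h5]
  exact h2.trans (h3.le.trans h4)

/-- (W5) subadditivity of the double integral (this is only a measurability statement). -/
theorem rs_plan_add_le {π : Measure (Curve X)} (hπ : IsTestPlan m π) {D₁ D₂ : X → ℝ}
    (h₁ : AEStronglyMeasurable D₁ m) (h₂ : AEStronglyMeasurable D₂ m) :
    ∫⁻ γ, ∫⁻ t in Set.Icc (0 : ℝ) 1,
        (ENNReal.ofReal (D₁ (evalReal γ t)) + ENNReal.ofReal (D₂ (evalReal γ t))) * metricSpeed γ t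
          ∂volume ∂π ≤
      (∫⁻ γ, ∫⁻ t in Set.Icc (0 : ℝ) 1, ENNReal.ofReal (D₁ (evalReal γ t)) * metricSpeed γ t
          ∂volume ∂π) +
      ∫⁻ γ, ∫⁻ t in Set.Icc (0 : ℝ) 1, ENNReal.ofReal (D₂ (evalReal γ t)) * metricSpeed γ t
          ∂volume ∂π := by
  have := hπ.1
  obtain ⟨C, hC⟩ := CU.Ifc.cu_compr_of_testPlan hπ
  have a₁ : AEMeasurable (fun x => ENNReal.ofReal (D₁ x)) m := h₁.aemeasurable.ennreal_ofReal
  have a₂ : AEMeasurable (fun x => ENNReal.ofReal (D₂ x)) m := h₂.aemeasurable.ennreal_ofReal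
  have e₁ := CU.Ifc.cu_lintegral_along_congr hC a₁.ae_eq_mk
  have e₂ := CU.Ifc.cu_lintegral_along_congr hC a₂.ae_eq_mk
  have e₃ := CU.Ifc.cu_lintegral_along_congr hC
    (g := fun x => ENNReal.ofReal (D₁ x) + ENNReal.ofReal (D₂ x)) (g' := fun x => a₁.mk _ x + a₂.mk _ x)
    (a₁.ae_eq_mk.add a₂.ae_eq_mk)
  rw [e₁, e₂, e₃]
  have hin : ∀ γ : Curve X, (∫⁻ t in Set.Icc (0 : ℝ) 1, (a₁.mk _ (evalReal γ t) + a₂.mk _ (evalReal γ t))
        * metricSpeed γ t)
      = (∫⁻ t in Set.Icc (0 : ℝ) 1, a₁.mk _ (evalReal γ t) * metricSpeed γ t)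
        + ∫⁻ t in Set.Icc (0 : ℝ) 1, a₂.mk _ (evalReal γ t) * metricSpeed γ t := by
    intro γ
    simp only [add_mul]
    refine lintegral_add_left ?_ _
    exact (a₁.measurable_mk.comp (CU.IfcBasic.cu_continuous_evalReal_curve γ).measurable).mul
      (CU.Ifc.cu_measurable_metricSpeed_curve γ)
  simp only [hin]
  exact (lintegral_add_left (CU.Ifc.cu_measurable_lintegral_along a₁.measurable_mk) _).le

/-- (W6) the upper gradient inequality for an admissible pair, integrated against a test plan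
(`rs_lip_upper_gradient`, `rs_plan_null`, `lintegral_mono_ae`). -/
theorem rs_adm_plan {π : Measure (Curve X)} (hπ : IsTestPlan m π) {g G : X → ℝ} (h : rs_Adm m g G) :
    (∫⁻ γ, ENNReal.ofReal |g (γ timeOne) - g (γ timeZero)| ∂π) ≤
      ∫⁻ γ, ∫⁻ t in Set.Icc (0 : ℝ) 1,
        ENNReal.ofReal (G (evalReal γ t)) * metricSpeed γ t ∂volume ∂π := by
  obtain ⟨hgL, -, -, hle⟩ := h
  have hN : m {x | ¬ localSlope g x ≤ ENNReal.ofReal (G x)} = 0 :=
    ae_iff.1 (hle.mono fun _ hx => hx.2)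
  refine lintegral_mono_ae ?_
  filter_upwards [hπ.2.2.1, rs_plan_null hπ hN] with γ hγ hγN
  refine (rs_lip_upper_gradient hgL hγ).trans (lintegral_mono_ae ?_)
  filter_upwards [hγN] with t ht
  exact mul_le_mul_left (not_not.1 ht) _

/-- (W7) passage to the limit. -/
theorem rs_relaxed_plan {π : Measure (Curve X)} (hπ : IsTestPlan m π) {f G : X → ℝ}
    (h : rs_IsRelaxed m f G) :
    (∫⁻ γ, ENNReal.ofReal |f (γ timeOne) - f (γ timeZero)| ∂π) ≤
      ∫⁻ γ, ∫⁻ t in Set.Icc (0 : ℝ) 1,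
        ENNReal.ofReal (G (evalReal γ t)) * metricSpeed γ t ∂volume ∂π := by
  obtain ⟨hf, hG, gs, Gs, hadm, hgl, hGl⟩ := h
  obtain ⟨K, hK, hKe⟩ := rs_plan_eval hπ
  obtain ⟨K', hK', hKc⟩ := rs_plan_cs hπ
  have hstep : ∀ n, (∫⁻ γ, ENNReal.ofReal |f (γ timeOne) - f (γ timeZero)| ∂π) ≤
      K * eLpNorm (fun x => gs n x - f x) 2 m
        + ((∫⁻ γ, ∫⁻ t in Set.Icc (0 : ℝ) 1, ENNReal.ofReal (G (evalReal γ t)) * metricSpeed γ t ∂volume ∂π)
          + K' * eLpNorm (fun x => Gs n x - G x) 2 m)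
        + K * eLpNorm (fun x => gs n x - f x) 2 m := by
    intro n
    have hd : MemLp (fun x => gs n x - f x) 2 m := (hadm n).2.1.sub hf
    have hD : MemLp (fun x => Gs n x - G x) 2 m := (hadm n).2.2.1.sub hG
    obtain ⟨L, hL⟩ := (hadm n).1
    -- the three terms
    have hb : Measurable (fun γ : Curve X => ENNReal.ofReal |gs n (γ timeOne) - gs n (γ timeZero)|) := by
      have c1 : Continuous (fun γ : Curve X => gs n (γ timeOne)) :=
        hL.continuous.comp (CU.IfcBasic.cu_continuous_eval_time timeOne)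
      have c0 : Continuous (fun γ : Curve X => gs n (γ timeZero)) :=
        hL.continuous.comp (CU.IfcBasic.cu_continuous_eval_time timeZero)
      exact (c1.sub c0).abs.measurable.ennreal_ofReal
    have hφ : AEMeasurable (fun x => ENNReal.ofReal |gs n x - f x|) m := by
      simp only [← Real.enorm_eq_ofReal_abs]
      exact hd.1.enorm
    have hc : AEMeasurable (fun γ : Curve X => ENNReal.ofReal |gs n (γ timeZero) - f (γ timeZero)|) π :=
      rs_aemeasurable_eval hπ hφ timeZero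
    have h1 : (∫⁻ γ, ENNReal.ofReal |f (γ timeOne) - f (γ timeZero)| ∂π) ≤
        ∫⁻ γ, (ENNReal.ofReal |gs n (γ timeOne) - f (γ timeOne)|
          + ENNReal.ofReal |gs n (γ timeOne) - gs n (γ timeZero)|
          + ENNReal.ofReal |gs n (γ timeZero) - f (γ timeZero)|) ∂π := by
      refine lintegral_mono fun γ => ?_
      rw [← ENNReal.ofReal_add (abs_nonneg _) (abs_nonneg _),
        ← ENNReal.ofReal_add (add_nonneg (abs_nonneg _) (abs_nonneg _)) (abs_nonneg _)]
      refine ENNReal.ofReal_le_ofReal ?_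
      have e : f (γ timeOne) - f (γ timeZero) = -(gs n (γ timeOne) - f (γ timeOne))
          + (gs n (γ timeOne) - gs n (γ timeZero)) + (gs n (γ timeZero) - f (γ timeZero)) := by ring
      rw [e]
      refine (abs_add_le _ _).trans (add_le_add_left ((abs_add_le _ _).trans ?_) _)
      rw [abs_neg]
    have h2 : (∫⁻ γ, (ENNReal.ofReal |gs n (γ timeOne) - f (γ timeOne)|
          + ENNReal.ofReal |gs n (γ timeOne) - gs n (γ timeZero)|
          + ENNReal.ofReal |gs n (γ timeZero) - f (γ timeZero)|) ∂π)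
        = (∫⁻ γ, ENNReal.ofReal |gs n (γ timeOne) - f (γ timeOne)| ∂π)
          + (∫⁻ γ, ENNReal.ofReal |gs n (γ timeOne) - gs n (γ timeZero)| ∂π)
          + ∫⁻ γ, ENNReal.ofReal |gs n (γ timeZero) - f (γ timeZero)| ∂π := by
      rw [lintegral_add_right' _ hc, lintegral_add_right _ hb]
    have t1 := hKe _ hd timeOne
    have t0 := hKe _ hd timeZero
    have t2 := rs_adm_plan hπ (hadm n)
    have t3 : (∫⁻ γ, ∫⁻ t in Set.Icc (0 : ℝ) 1,
          ENNReal.ofReal (Gs n (evalReal γ t)) * metricSpeed γ t ∂volume ∂π) ≤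
        ∫⁻ γ, ∫⁻ t in Set.Icc (0 : ℝ) 1,
          (ENNReal.ofReal (G (evalReal γ t)) + ENNReal.ofReal ((fun x => |Gs n x - G x|) (evalReal γ t)))
            * metricSpeed γ t ∂volume ∂π := by
      refine lintegral_mono fun γ => lintegral_mono fun t => mul_le_mul_left ?_ _
      refine le_trans (ENNReal.ofReal_le_ofReal ?_) ENNReal.ofReal_add_le
      have := le_abs_self (Gs n (evalReal γ t) - G (evalReal γ t))
      show Gs n (evalReal γ t) ≤ G (evalReal γ t) + |Gs n (evalReal γ t) - G (evalReal γ t)|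
      linarith
    have hD' : AEStronglyMeasurable (fun x => |Gs n x - G x|) m := by
      have := hD.1.norm
      simpa only [Real.norm_eq_abs] using this
    have t4 := rs_plan_add_le hπ hG.1 hD'
    have t5 := hKc _ hD
    rw [h2] at h1
    refine h1.trans (add_le_add (add_le_add t1 ?_) t0)
    exact t2.trans (t3.trans (t4.trans (add_le_add_right t5 _)))
  have hlim : Tendsto (fun n => K * eLpNorm (fun x => gs n x - f x) 2 m
        + ((∫⁻ γ, ∫⁻ t in Set.Icc (0 : ℝ) 1, ENNReal.ofReal (G (evalReal γ t)) * metricSpeed γ t ∂volume ∂π)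
          + K' * eLpNorm (fun x => Gs n x - G x) 2 m)
        + K * eLpNorm (fun x => gs n x - f x) 2 m) atTop
      (𝓝 (K * 0 + ((∫⁻ γ, ∫⁻ t in Set.Icc (0 : ℝ) 1,
          ENNReal.ofReal (G (evalReal γ t)) * metricSpeed γ t ∂volume ∂π) + K' * 0) + K * 0)) := by
    have l1 : Tendsto (fun n => K * eLpNorm (fun x => gs n x - f x) 2 m) atTop (𝓝 (K * 0)) :=
      ENNReal.Tendsto.const_mul hgl (Or.inr hK.ne)
    have l2 : Tendsto (fun n => K' * eLpNorm (fun x => Gs n x - G x) 2 m) atTop (𝓝 (K' * 0)) :=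
      ENNReal.Tendsto.const_mul hGl (Or.inr hK'.ne)
    exact (l1.add (tendsto_const_nhds.add l2)).add l1
  simp only [mul_zero, zero_add, add_zero] at hlim
  exact ge_of_tendsto' hlim hstep

/-- (RS7) -/
theorem rs_relaxed_wug {f G : X → ℝ} (h : rs_IsRelaxed m f G) : IsLocalWeakUpperGradient m f G := by
  refine ⟨fun o R _ => h.2.1.restrict _, rs_relaxed_nonneg h, fun π hπ _ => rs_relaxed_plan hπ h⟩

end Claimed.Agent.R210.RS.Wug
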