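/-
Row 210, layer RS (relaxed slopes for the frozen Cheeger energy): INTERFACE.
Contract: `git show origin/helper928:docs/R210_master.md`, section RS (RS1-RS7).
Blueprint: `git show origin/helper875:docs/R210_RS.md`.        Architect: helper875.

Consumers: `import Claimed.Agent.R210.RS.Ifc`, then
`open Claimed.Agent.R210.RS.Defs Claimed.Agent.R210.RS.Ifc`.
Definitions (file `RS/Defs.lean`): `ChL2 m`, `rs_lip g` (real valued `localSlope`), `rs_Adm m g G`,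
`rs_L2Lim m fs f` (`eLpNorm (fs n - f) 2 m → 0`), `rs_IsRelaxed m f G`, `rs_slope m f` (minimal relaxed slope:
everywhere `≥ 0`, measurable, in `L²`, depends only on the a.e. class), `rs_E m f g` (`= bil (ChL2 m)`), `rs_BddSupp`.
DIFFERENCES WITH THE CONTRACT: (i) RS5 is proved for ARBITRARY relaxed slopes `G` of `f`; (ii) pointwise minimality
(`rs_slope_le_of_relaxed`) IS exported (needed for the a.e. form of RS4); (iii) `ψ 0 = 0` is required in RS5b.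
-/
import Claimed.Agent.R210.RS.Form
import Claimed.Agent.R210.RS.Local
import Claimed.Agent.R210.RS.Wug

set_option autoImplicit false

open Claims.C0366 Claims.C0366.WeakHessian
open Claimed.Agent.R210.HS.Defs
open Claimed.Agent.R210.RS.Defs
open Set Filter MeasureTheory
open scoped ENNReal NNReal Topology

namespace Claimed.Agent.R210.RS.Ifc

variable {X : Type*} [MetricSpace X] [MeasurableSpace X] [BorelSpace X] {m : Measure X}

/-! ## slopes of Lipschitz functions -/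

theorem rs_ofReal_lip {f : X → ℝ} (h : GloballyLipschitz f) (x : X) :
    ENNReal.ofReal (rs_lip f x) = localSlope f x := Slope.rs_ofReal_lip h x

theorem rs_lip_nonneg (f : X → ℝ) (x : X) : 0 ≤ rs_lip f x := Slope.rs_lip_nonneg f x

theorem rs_lip_le {L : ℝ≥0} {f : X → ℝ} (h : LipschitzWith L f) (x : X) : rs_lip f x ≤ L :=
  Slope.rs_lip_le h x

theorem rs_ls_measurable {f : X → ℝ} (hf : Continuous f) : Measurable (localSlope f) :=
  Slope.rs_ls_measurable hf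

theorem rs_lip_measurable {f : X → ℝ} (hf : Continuous f) : Measurable (rs_lip f) :=
  Slope.rs_lip_measurable hf

/-! ## RS1 -/

theorem rs_cheeger_congr {f g : X → ℝ} (h : f =ᵐ[m] g) : cheegerEnergy m f = cheegerEnergy m g :=
  Rep.rs_cheeger_congr h

theorem rs_memLp_of_cheeger {f : X → ℝ} (h : cheegerEnergy m f < ∞) : MemLp f 2 m :=
  Rep.rs_memLp_of_cheeger h

theorem rs_ChL2_toLp {f : X → ℝ} (hf : MemLp f 2 m) : ChL2 m (hf.toLp f) = cheegerEnergy m f :=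
  Rep.rs_ChL2_toLp hf

theorem rs_cheeger_zero : cheegerEnergy m (fun _ => (0 : ℝ)) = 0 := Rep.rs_cheeger_zero

theorem rs_cheeger_const_mul (c : ℝ) {f : X → ℝ} (h : cheegerEnergy m f < ∞) :
    cheegerEnergy m (fun x => c * f x) = ENNReal.ofReal (c ^ 2) * cheegerEnergy m f :=
  Rep.rs_cheeger_const_mul c h

theorem rs_cheeger_add_lt_top {f g : X → ℝ} (hf : cheegerEnergy m f < ∞)
    (hg : cheegerEnergy m g < ∞) : cheegerEnergy m (fun x => f x + g x) < ∞ :=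
  Rep.rs_cheeger_add_lt_top hf hg

theorem rs_cheeger_sub_lt_top {f g : X → ℝ} (hf : cheegerEnergy m f < ∞)
    (hg : cheegerEnergy m g < ∞) : cheegerEnergy m (fun x => f x - g x) < ∞ :=
  Rep.rs_cheeger_sub_lt_top hf hg

theorem rs_cheeger_const_mul_lt_top (c : ℝ) {f : X → ℝ} (hf : cheegerEnergy m f < ∞) :
    cheegerEnergy m (fun x => c * f x) < ∞ := Rep.rs_cheeger_const_mul_lt_top c hf

theorem rs_cheeger_convex {f g : X → ℝ} {a b : ℝ} (ha : 0 ≤ a) (hb : 0 ≤ b) (hab : a + b = 1) :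
    cheegerEnergy m (fun x => a * f x + b * g x) ≤
      ENNReal.ofReal a * cheegerEnergy m f + ENNReal.ofReal b * cheegerEnergy m g :=
  Rep.rs_cheeger_convex ha hb hab

theorem rs_ChL2_lsc : LowerSemicontinuous (ChL2 m) := Rep.rs_ChL2_lsc

theorem rs_cheeger_le_liminf {fs : ℕ → X → ℝ} {f : X → ℝ} (hf : MemLp f 2 m)
    (hl : rs_L2Lim m fs f) : cheegerEnergy m f ≤ liminf (fun n => cheegerEnergy m (fs n)) atTop :=
  Rep.rs_cheeger_le_liminf hf hl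

theorem rs_cheeger_le_of_lip {g : X → ℝ} (hg : GloballyLipschitz g) (hg2 : MemLp g 2 m) :
    cheegerEnergy m g ≤ (2 : ℝ≥0∞)⁻¹ * ∫⁻ x, (localSlope g x) ^ 2 ∂m :=
  Rep.rs_cheeger_le_of_lip hg hg2

theorem rs_memLp_of_bddSupp (hm : FiniteOnBoundedSets m) {g : X → ℝ}
    (hg : GloballyLipschitz g) (hs : rs_BddSupp g) : MemLp g 2 m := Cut.rs_memLp_of_bddSupp hm hg hs

theorem rs_memLp_lip_of_bddSupp (hm : FiniteOnBoundedSets m) {g : X → ℝ}
    (hg : GloballyLipschitz g) (hs : rs_BddSupp g) : MemLp (rs_lip g) 2 m :=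
  Cut.rs_memLp_lip_of_bddSupp hm hg hs

theorem rs_cheeger_lt_top_of_bddSupp (hm : FiniteOnBoundedSets m) {g : X → ℝ}
    (hg : GloballyLipschitz g) (hs : rs_BddSupp g) : cheegerEnergy m g < ∞ :=
  Rep.rs_cheeger_lt_top_of_bddSupp hm hg hs

theorem rs_dense_lip [TopologicalSpace.SeparableSpace X] {μ : Measure X}
    (hμ : FiniteOnBoundedSets μ) {f : X → ℝ} (hf : MemLp f 2 μ) {ε : ℝ≥0∞} (hε : ε ≠ 0) :
    ∃ g : X → ℝ, eLpNorm (f - g) 2 μ ≤ ε ∧ (GloballyLipschitz g ∧ rs_BddSupp g) :=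
  Dense.rs_dense_lip hμ hf hε

/-! ## RS2 -/

theorem rs_slope_nonneg (m : Measure X) (f : X → ℝ) (x : X) : 0 ≤ rs_slope m f x :=
  Rep.rs_slope_nonneg m f x

theorem rs_slope_measurable (m : Measure X) (f : X → ℝ) : Measurable (rs_slope m f) :=
  Rep.rs_slope_measurable m f

theorem rs_slope_memLp (m : Measure X) (f : X → ℝ) : MemLp (rs_slope m f) 2 m :=
  Rep.rs_slope_memLp m f

theorem rs_slope_congr {f g : X → ℝ} (h : f =ᵐ[m] g) : rs_slope m f = rs_slope m g :=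
  Rep.rs_slope_congr h

theorem rs_slope_isRelaxed {f : X → ℝ} (h : cheegerEnergy m f < ∞) :
    rs_IsRelaxed m f (rs_slope m f) := Rep.rs_slope_isRelaxed h

theorem rs_cheeger_lt_top_iff {f : X → ℝ} : cheegerEnergy m f < ∞ ↔ ∃ G, rs_IsRelaxed m f G :=
  Rep.rs_cheeger_lt_top_iff

theorem rs_cheeger_eq {f : X → ℝ} (h : cheegerEnergy m f < ∞) :
    cheegerEnergy m f = ENNReal.ofReal ((∫ x, rs_slope m f x ^ 2 ∂m) / 2) := Rep.rs_cheeger_eq h

theorem rs_cheeger_toReal (m : Measure X) (f : X → ℝ) :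
    (cheegerEnergy m f).toReal = (∫ x, rs_slope m f x ^ 2 ∂m) / 2 := Rep.rs_cheeger_toReal m f

theorem rs_cheeger_le_of_relaxed {f G : X → ℝ} (h : rs_IsRelaxed m f G) :
    cheegerEnergy m f ≤ ENNReal.ofReal ((∫ x, G x ^ 2 ∂m) / 2) := Rep.rs_cheeger_le_of_relaxed h

theorem rs_cheeger_toReal_le_of_relaxed {f G : X → ℝ} (h : rs_IsRelaxed m f G) :
    (cheegerEnergy m f).toReal ≤ (∫ x, G x ^ 2 ∂m) / 2 := Rep.rs_cheeger_toReal_le_of_relaxed h

theorem rs_slope_eq_of_norm_le {f G : X → ℝ} (h : rs_IsRelaxed m f G)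
    (hn : ∫ x, G x ^ 2 ∂m ≤ ∫ x, rs_slope m f x ^ 2 ∂m) : G =ᵐ[m] rs_slope m f :=
  Rep.rs_slope_eq_of_norm_le h hn

/-! ## RS3 -/

theorem rs_strong_of_norm {f : X → ℝ} (hf : cheegerEnergy m f < ∞) {gs Gs : ℕ → X → ℝ}
    (h : ∀ n, rs_IsRelaxed m (gs n) (Gs n)) (hl : rs_L2Lim m gs f)
    (hn : ∀ ε > 0, ∀ᶠ n in atTop, ∫ x, Gs n x ^ 2 ∂m ≤ ∫ x, rs_slope m f x ^ 2 ∂m + ε) :
    rs_L2Lim m Gs (rs_slope m f) := Approx.rs_strong_of_norm hf h hl hn

theorem rs_approx {f : X → ℝ} (hf : cheegerEnergy m f < ∞) :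
    ∃ gs : ℕ → X → ℝ, (∀ n, rs_Adm m (gs n) (rs_lip (gs n))) ∧ rs_L2Lim m gs f ∧
      rs_L2Lim m (fun n => rs_lip (gs n)) (rs_slope m f) := Approx.rs_approx hf

theorem rs_approx_bddSupp {f : X → ℝ} (hf : cheegerEnergy m f < ∞) :
    ∃ gs : ℕ → X → ℝ, (∀ n, rs_Adm m (gs n) (rs_lip (gs n)) ∧ rs_BddSupp (gs n)) ∧
      rs_L2Lim m gs f ∧ rs_L2Lim m (fun n => rs_lip (gs n)) (rs_slope m f) :=
  Approx.rs_approx_bddSupp hf

theorem rs_approx_bdd {f : X → ℝ} (hf : cheegerEnergy m f < ∞) {B : ℝ}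
    (hB : ∀ᵐ x ∂m, |f x| ≤ B) (hB0 : 0 ≤ B) :
    ∃ gs : ℕ → X → ℝ, (∀ n, rs_Adm m (gs n) (rs_lip (gs n)) ∧ rs_BddSupp (gs n) ∧
        ∀ x, |gs n x| ≤ B) ∧
      rs_L2Lim m gs f ∧ rs_L2Lim m (fun n => rs_lip (gs n)) (rs_slope m f) :=
  Approx.rs_approx_bdd hf hB hB0

/-! ## RS4 -/

theorem rs_relaxed_of_adm {g G : X → ℝ} (h : rs_Adm m g G) : rs_IsRelaxed m g G :=
  Base.rs_relaxed_of_adm h

theorem rs_relaxed_congr {f f' G G' : X → ℝ} (hf : f =ᵐ[m] f') (hG : G =ᵐ[m] G')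
    (h : rs_IsRelaxed m f G) : rs_IsRelaxed m f' G' := Base.rs_relaxed_congr hf hG h

theorem rs_relaxed_add {f g F G : X → ℝ} (hf : rs_IsRelaxed m f F) (hg : rs_IsRelaxed m g G) :
    rs_IsRelaxed m (fun x => f x + g x) (fun x => F x + G x) := Base.rs_relaxed_add hf hg

theorem rs_relaxed_sub {f g F G : X → ℝ} (hf : rs_IsRelaxed m f F) (hg : rs_IsRelaxed m g G) :
    rs_IsRelaxed m (fun x => f x - g x) (fun x => F x + G x) := Base.rs_relaxed_sub hf hg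

theorem rs_relaxed_const_mul {f F : X → ℝ} (c : ℝ) (hf : rs_IsRelaxed m f F) :
    rs_IsRelaxed m (fun x => c * f x) (fun x => |c| * F x) := Base.rs_relaxed_const_mul c hf

theorem rs_relaxed_neg {f F : X → ℝ} (hf : rs_IsRelaxed m f F) :
    rs_IsRelaxed m (fun x => - f x) F := Base.rs_relaxed_neg hf

theorem rs_relaxed_mono {f F F' : X → ℝ} (hf : rs_IsRelaxed m f F) (hF' : MemLp F' 2 m)
    (hle : F ≤ᵐ[m] F') : rs_IsRelaxed m f F' := Base.rs_relaxed_mono hf hF' hle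

theorem rs_relaxed_nonneg {f F : X → ℝ} (hf : rs_IsRelaxed m f F) : ∀ᵐ x ∂m, 0 ≤ F x :=
  Base.rs_relaxed_nonneg hf

theorem rs_relaxed_closed {fs Gs : ℕ → X → ℝ} {f G : X → ℝ} (h : ∀ n, rs_IsRelaxed m (fs n) (Gs n))
    (hf : MemLp f 2 m) (hG : MemLp G 2 m) (hfl : rs_L2Lim m fs f) (hGl : rs_L2Lim m Gs G) :
    rs_IsRelaxed m f G := Base.rs_relaxed_closed h hf hG hfl hGl

theorem rs_slope_const_mul (c : ℝ) {f : X → ℝ} (h : cheegerEnergy m f < ∞) :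
    rs_slope m (fun x => c * f x) =ᵐ[m] fun x => |c| * rs_slope m f x := Rep.rs_slope_const_mul c h

theorem rs_relaxed_piecewise [TopologicalSpace.SeparableSpace X] {f G₁ G₂ : X → ℝ} {B : Set X}
    (hB : MeasurableSet B) (h₁ : rs_IsRelaxed m f G₁) (h₂ : rs_IsRelaxed m f G₂) :
    rs_IsRelaxed m f (fun x => B.indicator G₁ x + Bᶜ.indicator G₂ x) :=
  Local.rs_relaxed_piecewise hB h₁ h₂

theorem rs_slope_le_of_relaxed [TopologicalSpace.SeparableSpace X] {f G : X → ℝ}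
    (h : rs_IsRelaxed m f G) : ∀ᵐ x ∂m, rs_slope m f x ≤ G x := Local.rs_slope_le_of_relaxed h

theorem rs_slope_add_le [TopologicalSpace.SeparableSpace X] {f g : X → ℝ}
    (hf : cheegerEnergy m f < ∞) (hg : cheegerEnergy m g < ∞) :
    ∀ᵐ x ∂m, rs_slope m (fun y => f y + g y) x ≤ rs_slope m f x + rs_slope m g x :=
  Local.rs_slope_add_le hf hg

theorem rs_slope_le_lip [TopologicalSpace.SeparableSpace X] {g : X → ℝ} (hg : GloballyLipschitz g)
    (hg2 : MemLp g 2 m) (hs : MemLp (rs_lip g) 2 m) : ∀ᵐ x ∂m, rs_slope m g x ≤ rs_lip g x :=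
  Local.rs_slope_le_lip hg hg2 hs

/-! ## RS5 -/

theorem rs_relaxed_comp {ψ : ℝ → ℝ} (hψ : ContDiff ℝ 1 ψ) {M : ℝ} (hM : ∀ t, |deriv ψ t| ≤ M)
    (h0 : ψ 0 = 0) {f G : X → ℝ} (h : rs_IsRelaxed m f G) :
    rs_IsRelaxed m (fun x => ψ (f x)) (fun x => |deriv ψ (f x)| * G x) :=
  Calc.rs_relaxed_comp hψ hM h0 h

theorem rs_relaxed_comp_lip {ψ : ℝ → ℝ} (hψ : LipschitzWith 1 ψ) (h0 : ψ 0 = 0) {f G : X → ℝ}
    (h : rs_IsRelaxed m f G) : rs_IsRelaxed m (fun x => ψ (f x)) G :=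
  Calc.rs_relaxed_comp_lip hψ h0 h

theorem rs_cheeger_comp_le {ψ : ℝ → ℝ} (hψ : LipschitzWith 1 ψ) (h0 : ψ 0 = 0) (f : X → ℝ) :
    cheegerEnergy m (fun x => ψ (f x)) ≤ cheegerEnergy m f := Calc.rs_cheeger_comp_le hψ h0 f

theorem rs_relaxed_mul {g : X → ℝ} (hg : GloballyLipschitz g) (hgb : BoundedFunction g)
    {f G : X → ℝ} (h : rs_IsRelaxed m f G) :
    rs_IsRelaxed m (fun x => f x * g x) (fun x => |g x| * G x + |f x| * rs_lip g x) :=
  Calc.rs_relaxed_mul hg hgb h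

/-! ## RS6 -/

theorem rs_qform [TopologicalSpace.SeparableSpace X] (hm : FiniteOnBoundedSets m)
    (hq : QuadraticCheegerEnergy m) : QForm (ChL2 m) := Form.rs_qform hm hq

theorem rs_bil_eq (u v : Lp ℝ 2 m) : bil (ChL2 m) u v = rs_E m (u : X → ℝ) (v : X → ℝ) :=
  Form.rs_bil_eq u v

theorem rs_E_toLp {f g : X → ℝ} (hf : MemLp f 2 m) (hg : MemLp g 2 m) :
    bil (ChL2 m) (hf.toLp f) (hg.toLp g) = rs_E m f g := Form.rs_E_toLp hf hg

theorem rs_E_congr {f f' g g' : X → ℝ} (hf : f =ᵐ[m] f') (hg : g =ᵐ[m] g') :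
    rs_E m f g = rs_E m f' g' := Form.rs_E_congr hf hg

theorem rs_E_self {f : X → ℝ} (hf : cheegerEnergy m f < ∞) :
    rs_E m f f = ∫ x, rs_slope m f x ^ 2 ∂m := Form.rs_E_self hf

theorem rs_cheeger_expand [TopologicalSpace.SeparableSpace X] (hm : FiniteOnBoundedSets m)
    (hq : QuadraticCheegerEnergy m) {u v : X → ℝ} (hu : cheegerEnergy m u < ∞)
    (hv : cheegerEnergy m v < ∞) (ε : ℝ) :
    (cheegerEnergy m (fun x => u x + ε * v x)).toReal =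
      (cheegerEnergy m u).toReal + ε * rs_E m u v + ε ^ 2 * (cheegerEnergy m v).toReal :=
  Form.rs_cheeger_expand hm hq hu hv ε

theorem rs_E_le_of_relaxed [TopologicalSpace.SeparableSpace X] (hm : FiniteOnBoundedSets m)
    (hq : QuadraticCheegerEnergy m) {u v b : X → ℝ} (hu : cheegerEnergy m u < ∞)
    (hv : cheegerEnergy m v < ∞) (hb : MemLp b 2 m) {ε₀ : ℝ} (hε₀ : 0 < ε₀)
    (h : ∀ ε, 0 < ε → ε < ε₀ →
      rs_IsRelaxed m (fun x => u x + ε * v x) (fun x => rs_slope m u x + ε * b x)) :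
    rs_E m u v ≤ ∫ x, rs_slope m u x * b x ∂m := Form.rs_E_le_of_relaxed hm hq hu hv hb hε₀ h

/-- RS6(a) -/
theorem rs_E_abs_le [TopologicalSpace.SeparableSpace X] (hm : FiniteOnBoundedSets m)
    (hq : QuadraticCheegerEnergy m) {u v G : X → ℝ} (hu : cheegerEnergy m u < ∞)
    (hv : rs_IsRelaxed m v G) : |rs_E m u v| ≤ ∫ x, rs_slope m u x * G x ∂m :=
  Form.rs_E_abs_le hm hq hu hv

/-- RS6(b) -/
theorem rs_E_comp_ge [TopologicalSpace.SeparableSpace X] (hm : FiniteOnBoundedSets m)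
    (hq : QuadraticCheegerEnergy m) {φ : ℝ → ℝ} (hφ : ContDiff ℝ 1 φ) (hmono : Monotone φ) {M : ℝ}
    (hM : ∀ t, |deriv φ t| ≤ M) (h0 : φ 0 = 0) {u : X → ℝ} (hu : cheegerEnergy m u < ∞) :
    ∫ x, deriv φ (u x) * rs_slope m u x ^ 2 ∂m ≤ rs_E m u (fun x => φ (u x)) :=
  Form.rs_E_comp_ge hm hq hφ hmono hM h0 hu

/-- RS6(c) -/
theorem rs_E_mul_sq_ge [TopologicalSpace.SeparableSpace X] (hm : FiniteOnBoundedSets m)
    (hq : QuadraticCheegerEnergy m) {w : X → ℝ} (hw : GloballyLipschitz w) (hwb : BoundedFunction w)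
    (hw0 : ∀ x, 0 ≤ w x) {u : X → ℝ} (hu : cheegerEnergy m u < ∞) :
    (∫ x, w x ^ 2 * rs_slope m u x ^ 2 ∂m) - 2 * ∫ x, |u x| * w x * rs_lip w x * rs_slope m u x ∂m
      ≤ rs_E m u (fun x => u x * w x ^ 2) := Form.rs_E_mul_sq_ge hm hq hw hwb hw0 hu

/-! ## RS7 -/

theorem rs_lip_upper_gradient {g : X → ℝ} (hg : GloballyLipschitz g) {γ : Curve X} (hγ : IsAC2 γ) :
    ENNReal.ofReal |g (γ timeOne) - g (γ timeZero)| ≤
      ∫⁻ t in Set.Icc (0 : ℝ) 1, localSlope g (evalReal γ t) * metricSpeed γ t :=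
  Wug.rs_lip_upper_gradient hg hγ

theorem rs_relaxed_wug [CompleteSpace X] [TopologicalSpace.SeparableSpace X] {f G : X → ℝ}
    (h : rs_IsRelaxed m f G) : IsLocalWeakUpperGradient m f G := Wug.rs_relaxed_wug h

end Claimed.Agent.R210.RS.Ifc
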